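import Mathlib

/-!
# P031 Q2: shared definitions

See `notes/P031/PROOF_Q2_lead.md`.
-/

open scoped Classical
noncomputable section

namespace Vale.Agent.P031

/-- Number of distinct totient values `v` with `1 ≤ v ≤ x`. -/
def totientCount (x : ℝ) : ℕ :=
  Nat.card {v : ℕ // 1 ≤ v ∧ (v : ℝ) ≤ x ∧ ∃ n : ℕ, Nat.totient n = v}

/-- Ford's coefficient `a_n`. -/
def fordA (n : ℕ) : ℝ :=
  ((n : ℝ) + 1) * Real.log ((n : ℝ) + 1) - (n : ℝ) * Real.log (n : ℝ) - 1

/-- The double logarithmic scale. -/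
def lam (x : ℝ) : ℝ := Real.log (Real.log x)

/-- Primes `p ≤ x` (as a finset), for real `x`. -/
def primesUpTo (x : ℝ) : Finset ℕ := (Finset.range (⌊x⌋₊ + 1)).filter Nat.Prime

/-- Primes in the half-open real interval `(u, v]`. -/
def primesIoc (u v : ℝ) : Finset ℕ := (primesUpTo v).filter fun p => u < (p : ℝ)

/-- Largest prime factor (`0` for `n ≤ 1`). -/
def maxPrime (n : ℕ) : ℕ := n.primeFactors.sup id

/-- Number of prime factors, with multiplicity, lying in the double-log interval `(a, b]`. -/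
def omegaIoc (a b : ℝ) (n : ℕ) : ℕ :=
  (n.primeFactorsList.filter fun r : ℕ => decide (a < lam (r : ℝ) ∧ lam (r : ℝ) ≤ b)).length

/-- `n` is a product of primes of double-log size at most `s` (primes `2` count as small). -/
def SmoothLam (s : ℝ) (n : ℕ) : Prop :=
  n ≠ 0 ∧ ∀ r ∈ n.primeFactors, lam (r : ℝ) ≤ s

/-- Values of the totient on numbers of scale at most `s`. -/
def smoothValues (s : ℝ) : Set ℕ := {m | ∃ n : ℕ, SmoothLam s n ∧ Nat.totient n = m}

/-- `G(s)`: the sum of `1/m` over distinct totient values of numbers of scale at most `s`. -/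
def valueMass (s : ℝ) : ℝ := ∑' m : smoothValues s, (1 : ℝ) / ((m : ℕ) : ℝ)

/-- Parameters of the argument at a given size. -/
structure Params where
  L : ℝ
  K : ℕ

namespace Params

variable (P : Params)

/-- Number of levels carried. -/
def K' : ℕ := 20 * P.K
/-- Number of grid intervals. -/
def J : ℕ := 2 ^ (18 * P.K)
/-- Grid step. -/
def D : ℝ := P.L / (P.J : ℝ)
/-- Lower threshold of normality. -/
def Te : ℝ := P.L / 2 ^ (17 * P.K)
/-- Bottom threshold of the collision argument. -/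
def Tb : ℝ := P.L / 2 ^ (12 * P.K)
/-- Relative tolerance of normality. -/
def theta : ℝ := 1 / 2 ^ (20 * P.K)
/-- Margin. -/
def eta : ℝ := 1 / 2 ^ (6 * P.K)
/-- Fine margin. -/
def etap : ℝ := 1 / 2 ^ (14 * P.K)

/-- The admissible parameters at double-log size `L`. -/
def Admissible : Prop :=
  1 ≤ P.K ∧ (P.K : ℝ) ≤ Real.log P.L / 250 ∧ Real.log P.L / 1000 ≤ (P.K : ℝ)

/-- A normal prime (section 2 of the notes). -/
def Normal (p : ℕ) : Prop :=
  lam (p : ℝ) - 3 * Real.log P.L ≤ lam (maxPrime (p - 1) : ℝ) ∧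
  ∀ j : ℕ, P.Te ≤ (j : ℝ) * P.D →
    (omegaIoc ((j : ℝ) * P.D) (((j : ℝ) + 1) * P.D) (p - 1) : ℝ) ≤ (1 + P.theta) * P.D ∧
    (((j : ℝ) + 2) * P.D ≤ lam (p : ℝ) →
      (1 - P.theta) * P.D ≤
        (omegaIoc ((j : ℝ) * P.D) (((j : ℝ) + 1) * P.D) (p - 1) : ℝ))

/-- Slack of level `i` of a profile with the conventions of section 5. -/
def slack (xi : ℕ → ℝ) (i : ℕ) : ℝ :=
  xi i - ∑ j ∈ Finset.Ioo 0 (P.K' - i), fordA j * xi (i + j)

end Params

end Vale.Agent.P031
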