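import Mathlib
import Vale.Agent.P031.Defs

/-!
# P031: Mertens' theorems with bounded error
-/

open scoped Classical
open Finset

noncomputable section

namespace Vale.Agent.P031

theorem mem_primesUpTo {x : ℝ} {p : ℕ} (hx : 0 ≤ x) :
    p ∈ primesUpTo x ↔ p.Prime ∧ (p : ℝ) ≤ x := by
  simp only [primesUpTo, Finset.mem_filter, Finset.mem_range, Nat.lt_succ_iff]
  constructor
  · rintro ⟨h, hp⟩; exact ⟨hp, (Nat.le_floor_iff hx).mp h⟩
  · rintro ⟨hp, h⟩; exact ⟨(Nat.le_floor_iff hx).mpr h, hp⟩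

theorem primesUpTo_prime {x : ℝ} {p : ℕ} (h : p ∈ primesUpTo x) : p.Prime :=
  (Finset.mem_filter.mp h).2

theorem mem_primesIoc {u v : ℝ} {p : ℕ} (hv : 0 ≤ v) :
    p ∈ primesIoc u v ↔ p.Prime ∧ u < (p : ℝ) ∧ (p : ℝ) ≤ v := by
  simp only [primesIoc, Finset.mem_filter, mem_primesUpTo hv]
  tauto

theorem primesIoc_prime {u v : ℝ} {p : ℕ} (h : p ∈ primesIoc u v) : p.Prime :=
  primesUpTo_prime (Finset.mem_filter.mp h).1

theorem primesUpTo_natCast (n : ℕ) : primesUpTo (n : ℝ) = Nat.primesLE n := by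
  simp [primesUpTo, Nat.primesLE_eq_filter_range]

theorem primesUpTo_eq_floor (x : ℝ) : primesUpTo x = Nat.primesLE ⌊x⌋₊ := by
  simp [primesUpTo, Nat.primesLE_eq_filter_range]

theorem log_div_mul_le (k : ℕ) :
    Real.log k / ((k : ℝ) * ((k : ℝ) - 1)) ≤ 4 * (1 / (k : ℝ) ^ ((3 : ℝ) / 2)) := by
  rcases Nat.lt_or_ge k 2 with hk | hk
  · interval_cases k <;> simp
  have hk' : (2 : ℝ) ≤ k := by exact_mod_cast hk
  have hlog : Real.log k ≤ 2 * Real.sqrt k := by
    have h := Real.log_le_sub_one_of_pos (Real.sqrt_pos.mpr (by linarith : (0 : ℝ) < k))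
    rw [Real.log_sqrt (by linarith)] at h
    linarith [Real.sqrt_nonneg (k : ℝ)]
  have hpow : (k : ℝ) ^ ((3 : ℝ) / 2) = (k : ℝ) * Real.sqrt k := by
    rw [show (3 : ℝ) / 2 = 1 + 1 / 2 by norm_num, Real.rpow_add (by linarith), Real.rpow_one,
      Real.sqrt_eq_rpow]
  have hs : 0 < Real.sqrt k := Real.sqrt_pos.mpr (by linarith)
  have hsq : Real.sqrt k * Real.sqrt k = k := Real.mul_self_sqrt (by linarith)
  rw [hpow]
  calc Real.log k / ((k : ℝ) * ((k : ℝ) - 1))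
      ≤ 2 * Real.sqrt k / ((k : ℝ) * ((k : ℝ) / 2)) := by
        have : (k : ℝ) / 2 ≤ (k : ℝ) - 1 := by linarith
        gcongr
    _ = 4 * (1 / ((k : ℝ) * Real.sqrt k)) := by
        field_simp
        linear_combination 4 * hsq

/-- The constant bounding `∑ log p / (p (p - 1))`. -/
def logPairConst : ℝ := ∑' k : ℕ, 4 * (1 / (k : ℝ) ^ ((3 : ℝ) / 2))

theorem logPair_summable : Summable (fun k : ℕ => 4 * (1 / (k : ℝ) ^ ((3 : ℝ) / 2))) :=
  (Real.summable_one_div_nat_rpow.mpr (by norm_num)).mul_left 4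

theorem logPairConst_nonneg : 0 ≤ logPairConst :=
  tsum_nonneg fun k => by positivity

theorem sum_log_div_pair_le (S : Finset ℕ) :
    ∑ k ∈ S, Real.log k / ((k : ℝ) * ((k : ℝ) - 1)) ≤ logPairConst :=
  (Finset.sum_le_sum fun k _ => log_div_mul_le k).trans
    (logPair_summable.sum_le_tsum S fun k _ => by positivity)

theorem log_factorial_eq (n : ℕ) :
    Real.log (n.factorial : ℝ)
      = ∑ p ∈ Nat.primesLE n, (n.factorial.factorization p : ℝ) * Real.log p := by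
  rw [Real.log_nat_eq_sum_factorization, Finsupp.sum, Nat.support_factorization]
  refine Finset.sum_congr ?_ fun _ _ => rfl
  ext p
  simp only [Nat.mem_primeFactors, Nat.mem_primesLE]
  constructor
  · rintro ⟨hp, hd, -⟩; exact ⟨hp.dvd_factorial.mp hd, hp⟩
  · rintro ⟨h, hp⟩; exact ⟨hp, hp.dvd_factorial.mpr h, Nat.factorial_ne_zero n⟩

theorem factorization_factorial_bounds {p n : ℕ} (hp : p.Prime) :
    n / p ≤ n.factorial.factorization p ∧
      ((n.factorial.factorization p : ℝ)) * ((p : ℝ) - 1) ≤ n := by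
  have := Fact.mk hp
  rw [Nat.factorization_def _ hp]
  constructor
  · rw [padicValNat_factorial (p := p) (b := Nat.log p n + 2) (by omega)]
    have h := Finset.single_le_sum (f := fun i => n / p ^ i) (fun i _ => Nat.zero_le _)
      (Finset.mem_Ico.mpr ⟨le_refl 1, by omega⟩ : 1 ∈ Finset.Ico 1 (Nat.log p n + 2))
    simpa using h
  · have h : (p - 1) * padicValNat p n.factorial ≤ n := by
      rw [sub_one_mul_padicValNat_factorial]; exact Nat.sub_le _ _
    have h' : (((p - 1) * padicValNat p n.factorial : ℕ) : ℝ) ≤ n := by exact_mod_cast h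
    rw [Nat.cast_mul, Nat.cast_sub hp.one_lt.le, Nat.cast_one] at h'
    linarith

theorem sum_log_div_prime_nat {n : ℕ} (hn : 1 ≤ n) :
    |∑ p ∈ Nat.primesLE n, Real.log p / p - Real.log n| ≤ 3 + logPairConst := by
  have hn' : (0 : ℝ) < n := by exact_mod_cast hn
  have hlog4 : Real.log 4 ≤ 3 := by
    have := Real.log_le_sub_one_of_pos (by norm_num : (0 : ℝ) < 4)
    linarith
  have hlow : (n : ℝ) * Real.log n - n ≤ Real.log (n.factorial : ℝ) := by
    have h := Real.pow_div_factorial_le_exp (n : ℝ) (Nat.cast_nonneg n) n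
    have hf : (0 : ℝ) < n.factorial := by exact_mod_cast Nat.factorial_pos n
    have h2 := Real.log_le_log (div_pos (pow_pos hn' n) hf) h
    rw [Real.log_div (pow_pos hn' n).ne' hf.ne', Real.log_pow, Real.log_exp] at h2
    linarith
  have hup : Real.log (n.factorial : ℝ) ≤ (n : ℝ) * Real.log n := by
    have hf : (0 : ℝ) < n.factorial := by exact_mod_cast Nat.factorial_pos n
    have := Real.log_le_log hf
      (show (n.factorial : ℝ) ≤ (n : ℝ) ^ n by exact_mod_cast Nat.factorial_le_pow n)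
    rwa [Real.log_pow] at this
  have h1 : (n : ℝ) * ∑ p ∈ Nat.primesLE n, Real.log p / p - (3 : ℝ) * n
      ≤ Real.log (n.factorial : ℝ) := by
    have hth : ∑ p ∈ Nat.primesLE n, Real.log p ≤ Real.log 4 * n := by
      rw [← Chebyshev.theta_eq_sum_primesLE_log]
      exact Chebyshev.theta_le_log4_mul_x (Nat.cast_nonneg n)
    have hpt : ∑ p ∈ Nat.primesLE n, ((n : ℝ) * (Real.log p / p) - Real.log p)
        ≤ Real.log (n.factorial : ℝ) := by
      rw [log_factorial_eq]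
      refine Finset.sum_le_sum fun p hp => ?_
      have hp' := Nat.prime_of_mem_primesLE hp
      have hb := (factorization_factorial_bounds (n := n) hp').1
      have hlp : 0 ≤ Real.log p := Real.log_natCast_nonneg p
      have hfl : (n : ℝ) / p - 1 ≤ ((n / p : ℕ) : ℝ) := by
        rw [← Nat.floor_div_eq_div (K := ℝ)]
        exact (Nat.sub_one_lt_floor _).le
      have hb' : ((n / p : ℕ) : ℝ) ≤ (n.factorial.factorization p : ℝ) := by exact_mod_cast hb
      calc (n : ℝ) * (Real.log p / p) - Real.log p = ((n : ℝ) / p - 1) * Real.log p := by ring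
        _ ≤ _ := mul_le_mul_of_nonneg_right (hfl.trans hb') hlp
    rw [Finset.sum_sub_distrib, ← Finset.mul_sum] at hpt
    nlinarith
  have h2 : Real.log (n.factorial : ℝ)
      ≤ (n : ℝ) * ∑ p ∈ Nat.primesLE n, Real.log p / p + n * logPairConst := by
    rw [log_factorial_eq]
    have hpt : ∀ p ∈ Nat.primesLE n, (n.factorial.factorization p : ℝ) * Real.log p
        ≤ (n : ℝ) * (Real.log p / p) + n * (Real.log p / ((p : ℝ) * ((p : ℝ) - 1))) := by
      intro p hp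
      have hp' := Nat.prime_of_mem_primesLE hp
      have hp2 : (2 : ℝ) ≤ p := by exact_mod_cast hp'.two_le
      have hb := (factorization_factorial_bounds (n := n) hp').2
      have hlp : 0 ≤ Real.log p := Real.log_natCast_nonneg p
      have hb' : (n.factorial.factorization p : ℝ) ≤ n / ((p : ℝ) - 1) := by
        rw [le_div_iff₀ (by linarith)]; exact hb
      have e : (n : ℝ) * (Real.log p / p) + n * (Real.log p / ((p : ℝ) * ((p : ℝ) - 1)))
          = n / ((p : ℝ) - 1) * Real.log p := by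
        have : (p : ℝ) - 1 ≠ 0 := by linarith
        field_simp
        ring
      rw [e]
      exact mul_le_mul_of_nonneg_right hb' hlp
    refine (Finset.sum_le_sum hpt).trans ?_
    rw [Finset.sum_add_distrib, ← Finset.mul_sum, ← Finset.mul_sum]
    gcongr
    exact sum_log_div_pair_le _
  rw [abs_le]
  constructor
  · nlinarith [logPairConst_nonneg]
  · nlinarith [logPairConst_nonneg]

/-- Mertens' first theorem. -/
theorem sum_log_div_prime : ∃ C : ℝ, 0 ≤ C ∧ ∀ x : ℝ, 1 ≤ x →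
    |∑ p ∈ primesUpTo x, Real.log p / p - Real.log x| ≤ C := by
  refine ⟨4 + logPairConst, by linarith [logPairConst_nonneg], fun x hx => ?_⟩
  rw [primesUpTo_eq_floor]
  have hn : 1 ≤ ⌊x⌋₊ := (Nat.one_le_floor_iff x).mpr hx
  have h := sum_log_div_prime_nat hn
  have hn' : (1 : ℝ) ≤ (⌊x⌋₊ : ℝ) := by exact_mod_cast hn
  have hle : (⌊x⌋₊ : ℝ) ≤ x := Nat.floor_le (by linarith)
  have h1 : Real.log (⌊x⌋₊ : ℝ) ≤ Real.log x := Real.log_le_log (by linarith) hle
  have h2 : Real.log x ≤ Real.log (⌊x⌋₊ : ℝ) + 1 := by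
    have hlt := Nat.lt_floor_add_one x
    have h3 : Real.log x ≤ Real.log (2 * (⌊x⌋₊ : ℝ)) := Real.log_le_log (by linarith) (by linarith)
    rw [Real.log_mul (by norm_num) (by linarith)] at h3
    have h4 := Real.log_le_sub_one_of_pos (by norm_num : (0 : ℝ) < 2)
    linarith
  rw [abs_le] at h ⊢
  constructor <;> linarith [h.1, h.2]

/-- Abel summation against a nonincreasing nonnegative weight. -/
theorem abel_bound (E w : ℕ → ℝ) (a b : ℕ) (hab : a < b) (C : ℝ) (hC : ∀ m, a ≤ m → |E m| ≤ C)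
    (hw : ∀ m, a < m → w (m + 1) ≤ w m) (hw0 : ∀ m, a < m → 0 ≤ w m) :
    |∑ m ∈ Finset.Ioc a b, (E m - E (m - 1)) * w m| ≤ 2 * C * w (a + 1) := by
  have key : ∀ b, a < b → |∑ m ∈ Finset.Ioc a b, (E m - E (m - 1)) * w m - E b * w b|
      ≤ C * (2 * w (a + 1) - w b) := by
    intro b hb
    induction b, hb using Nat.le_induction with
    | base =>
      rw [show a.succ = a + 1 from rfl, Finset.sum_Ioc_succ_top (le_refl a), Finset.Ioc_self,
        Finset.sum_empty, Nat.add_sub_cancel]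
      have h := hC a le_rfl
      have h0 := hw0 (a + 1) (Nat.lt_succ_self a)
      rw [show 0 + (E (a + 1) - E a) * w (a + 1) - E (a + 1) * w (a + 1) = -(E a * w (a + 1)) by
        ring, abs_neg, abs_mul, abs_of_nonneg h0]
      nlinarith
    | succ b hb ih =>
      have hb' : a < b := hb
      rw [Finset.sum_Ioc_succ_top hb'.le, Nat.add_sub_cancel]
      have hmono := hw b hb'
      have hE := hC b hb'.le
      have e : ∀ X : ℝ, X + (E (b + 1) - E b) * w (b + 1) - E (b + 1) * w (b + 1)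
          = (X - E b * w b) + E b * (w b - w (b + 1)) := fun X => by ring
      rw [e]
      refine (abs_add_le _ _).trans ?_
      rw [abs_mul, abs_of_nonneg (show 0 ≤ w b - w (b + 1) by linarith)]
      nlinarith
  have h := key b hab
  have hEb : |E b * w b| ≤ C * w b := by
    rw [abs_mul, abs_of_nonneg (hw0 b hab)]
    exact mul_le_mul_of_nonneg_right (hC b hab.le) (hw0 b hab)
  rw [abs_le] at h hEb ⊢
  constructor <;> linarith [h.1, h.2, hEb.1, hEb.2]

theorem loglog_step {m : ℕ} (hm : 3 ≤ m) :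
    |(Real.log m - Real.log ((m : ℝ) - 1)) / Real.log m - (lam m - lam ((m : ℝ) - 1))|
      ≤ 32 / (m : ℝ) ^ 2 := by
  have hm' : (3 : ℝ) ≤ m := by exact_mod_cast hm
  set L1 := Real.log (m : ℝ)
  set L0 := Real.log ((m : ℝ) - 1)
  have hhalf : (1 : ℝ) / 2 ≤ L0 := by
    have h1 : Real.log 2 ≤ L0 := Real.log_le_log (by norm_num) (by linarith)
    have := Real.one_sub_inv_le_log_of_pos (by norm_num : (0 : ℝ) < 2)
    norm_num at this
    linarith
  have hlt : L0 < L1 := Real.log_lt_log (by linarith) (by linarith)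
  have hd : L1 - L0 ≤ 1 / ((m : ℝ) - 1) := by
    have h := Real.log_le_sub_one_of_pos
      (show (0 : ℝ) < (m : ℝ) / ((m : ℝ) - 1) from div_pos (by linarith) (by linarith))
    rw [Real.log_div (by linarith) (by linarith)] at h
    have e : (m : ℝ) / ((m : ℝ) - 1) - 1 = 1 / ((m : ℝ) - 1) := by
      rw [div_sub_one (by linarith)]; congr 1; ring
    linarith [e]
  have h0 : 0 < L0 := by linarith
  have h1 : 0 < L1 := by linarith
  have hup : Real.log (L1 / L0) ≤ (L1 - L0) / L0 := by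
    have := Real.log_le_sub_one_of_pos (div_pos h1 h0)
    rwa [div_sub_one h0.ne'] at this
  have hlo : (L1 - L0) / L1 ≤ Real.log (L1 / L0) := by
    have := Real.one_sub_inv_le_log_of_pos (div_pos h1 h0)
    rwa [inv_div, one_sub_div h1.ne'] at this
  have hdiff : (L1 - L0) / L0 - (L1 - L0) / L1 ≤ 4 * (L1 - L0) ^ 2 := by
    rw [div_sub_div _ _ h0.ne' h1.ne', div_le_iff₀ (mul_pos h0 h1)]
    nlinarith [mul_nonneg (sq_nonneg (L1 - L0)) (show 0 ≤ 4 * (L0 * L1) - 1 by nlinarith)]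
  have hm2 : (L1 - L0) ^ 2 ≤ 4 / (m : ℝ) ^ 2 := by
    have h2 : L1 - L0 ≤ 2 / (m : ℝ) := hd.trans (by
      rw [div_le_div_iff₀ (by linarith) (by linarith)]; linarith)
    calc (L1 - L0) ^ 2 ≤ (2 / (m : ℝ)) ^ 2 := by gcongr
      _ = _ := by ring
  have hlam : lam m - lam ((m : ℝ) - 1) = Real.log (L1 / L0) := by
    rw [Real.log_div h1.ne' h0.ne']; rfl
  rw [hlam, abs_le]
  have e : 4 * (4 / (m : ℝ) ^ 2) = 16 / (m : ℝ) ^ 2 := by ring
  have hp : 16 / (m : ℝ) ^ 2 ≤ 32 / (m : ℝ) ^ 2 := by gcongr; norm_num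
  have hp0 : (0 : ℝ) ≤ 32 / (m : ℝ) ^ 2 := by positivity
  constructor <;> nlinarith

/-- Natural-number form of Mertens' second theorem. -/
theorem mertens_nat : ∃ C : ℝ, 0 ≤ C ∧ ∀ a b : ℕ, 2 ≤ a → a ≤ b →
    |∑ p ∈ (Finset.Ioc a b).filter Nat.Prime, (1 : ℝ) / p - (lam b - lam a)| ≤ C := by
  set C0 := 3 + logPairConst
  have hC0 : 0 ≤ C0 := by have := logPairConst_nonneg; positivity
  set T := ∑' k : ℕ, (1 : ℝ) / (k : ℝ) ^ 2
  have hT : 0 ≤ T := tsum_nonneg fun k => by positivity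
  refine ⟨4 * C0 + 32 * T, by positivity, fun a b ha hab => ?_⟩
  rcases hab.eq_or_lt with rfl | hlt
  · simp; positivity
  let E : ℕ → ℝ := fun m => ∑ p ∈ Nat.primesLE m, Real.log p / p - Real.log m
  let w : ℕ → ℝ := fun m => 1 / Real.log m
  have hwmono : ∀ m, a < m → w (m + 1) ≤ w m := fun m hm => by
    have h2 : (2 : ℝ) ≤ m := by exact_mod_cast (by omega : 2 ≤ m)
    refine one_div_le_one_div_of_le (Real.log_pos (by linarith)) (Real.log_le_log (by linarith) ?_)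
    push_cast; linarith
  have hab' := abel_bound E w a b hlt C0
    (fun m hm => sum_log_div_prime_nat (by omega)) hwmono
    (fun m _ => one_div_nonneg.mpr (Real.log_natCast_nonneg m))
  have hw1 : w (a + 1) ≤ 2 := by
    have h3 : (3 : ℝ) ≤ ((a + 1 : ℕ) : ℝ) := by exact_mod_cast (by omega : 3 ≤ a + 1)
    have h1 := Real.one_sub_inv_le_log_of_pos (show (0 : ℝ) < ((a + 1 : ℕ) : ℝ) by linarith)
    have h2 : (((a + 1 : ℕ) : ℝ))⁻¹ ≤ 1 / 3 := by
      rw [one_div]; gcongr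
    show 1 / Real.log ((a + 1 : ℕ) : ℝ) ≤ 2
    rw [div_le_iff₀ (by linarith)]
    linarith
  -- the discrete derivative
  have hder : ∀ m ∈ Finset.Ioc a b, (E m - E (m - 1)) * w m
      = (if m.Prime then (1 : ℝ) / m else 0)
        - (Real.log m - Real.log ((m : ℝ) - 1)) / Real.log m := by
    intro m hm
    have hm3 : 3 ≤ m := by have := (Finset.mem_Ioc.mp hm).1; omega
    have hm' : (3 : ℝ) ≤ m := by exact_mod_cast hm3
    have hL : Real.log m ≠ 0 := (Real.log_pos (by linarith)).ne'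
    obtain ⟨k, rfl⟩ : ∃ k, m = k + 1 := ⟨m - 1, by omega⟩
    simp only [E, w, Nat.add_sub_cancel, Nat.primesLE_succ]
    split_ifs with hp
    · rw [Finset.sum_insert (Nat.notMem_primesLE k)]
      push_cast at hL ⊢
      rw [add_sub_cancel_right]
      field_simp
      ring
    · push_cast at hL ⊢
      rw [add_sub_cancel_right]
      field_simp
      ring
  rw [Finset.sum_congr rfl hder, Finset.sum_sub_distrib, ← Finset.sum_filter] at hab'
  have htel : ∀ c, a ≤ c → ∑ m ∈ Finset.Ioc a c, (lam m - lam ((m : ℝ) - 1)) = lam c - lam a := by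
    intro c hc
    induction c, hc using Nat.le_induction with
    | base => simp
    | succ c hc ih => rw [Finset.sum_Ioc_succ_top hc, ih]; push_cast; ring_nf
  have herr : |∑ m ∈ Finset.Ioc a b, (Real.log m - Real.log ((m : ℝ) - 1)) / Real.log m
      - (lam b - lam a)| ≤ 32 * T := by
    rw [← htel b hab, ← Finset.sum_sub_distrib]
    refine (Finset.abs_sum_le_sum_abs _ _).trans ((Finset.sum_le_sum
      (g := fun m : ℕ => 32 * ((1 : ℝ) / (m : ℝ) ^ 2)) fun m hm => ?_).trans ?_)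
    · rw [mul_one_div]
      exact loglog_step (by have := (Finset.mem_Ioc.mp hm).1; omega)
    · rw [← Finset.mul_sum]
      gcongr
      exact (Real.summable_one_div_nat_pow.mpr (by norm_num)).sum_le_tsum _
        fun k _ => by positivity
  have h2 : 2 * C0 * w (a + 1) ≤ 4 * C0 := by nlinarith
  rw [abs_le] at hab' herr ⊢
  constructor <;> linarith [hab'.1, hab'.2, herr.1, herr.2]

theorem lam_floor_le {u : ℝ} (hu : 2 ≤ u) :
    lam (⌊u⌋₊ : ℝ) ≤ lam u ∧ lam u ≤ lam (⌊u⌋₊ : ℝ) + 1 := by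
  have hn : 2 ≤ ⌊u⌋₊ := Nat.le_floor (by exact_mod_cast hu)
  have hn' : (2 : ℝ) ≤ (⌊u⌋₊ : ℝ) := by exact_mod_cast hn
  have hle : (⌊u⌋₊ : ℝ) ≤ u := Nat.floor_le (by linarith)
  have hlt : u < (⌊u⌋₊ : ℝ) + 1 := Nat.lt_floor_add_one u
  have hl : 0 < Real.log (⌊u⌋₊ : ℝ) := Real.log_pos (by linarith)
  refine ⟨Real.log_le_log hl (Real.log_le_log (by linarith) hle), ?_⟩
  have h2 : Real.log u ≤ 2 * Real.log (⌊u⌋₊ : ℝ) := by
    calc Real.log u ≤ Real.log ((⌊u⌋₊ : ℝ) ^ 2) := Real.log_le_log (by linarith) (by nlinarith)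
      _ = _ := by rw [Real.log_pow]; norm_num
  have hlu : 0 < Real.log u := Real.log_pos (by linarith)
  calc lam u ≤ Real.log (2 * Real.log (⌊u⌋₊ : ℝ)) := Real.log_le_log hlu h2
    _ = Real.log 2 + lam (⌊u⌋₊ : ℝ) := Real.log_mul (by norm_num) hl.ne'
    _ ≤ lam (⌊u⌋₊ : ℝ) + 1 := by
      linarith [Real.log_le_sub_one_of_pos (by norm_num : (0 : ℝ) < 2)]

/-- Mertens' second theorem on an interval. -/
theorem mertens_Ioc : ∃ C : ℝ, 0 ≤ C ∧ ∀ u v : ℝ, 2 ≤ u → u ≤ v →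
    |∑ p ∈ primesIoc u v, (1 : ℝ) / p - (lam v - lam u)| ≤ C := by
  obtain ⟨C, hC0, hC⟩ := mertens_nat
  refine ⟨C + 1, by positivity, fun u v hu huv => ?_⟩
  have hn : 2 ≤ ⌊u⌋₊ := Nat.le_floor (by exact_mod_cast hu)
  have he : primesIoc u v = (Finset.Ioc ⌊u⌋₊ ⌊v⌋₊).filter Nat.Prime := by
    ext p
    rw [mem_primesIoc (by linarith), Finset.mem_filter, Finset.mem_Ioc,
      Nat.floor_lt (by linarith), Nat.le_floor_iff (by linarith)]
    tauto
  rw [he]
  have h := hC _ _ hn (Nat.floor_mono huv)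
  have h1 := lam_floor_le hu
  have h2 := lam_floor_le (hu.trans huv)
  rw [abs_le] at h ⊢
  constructor <;> linarith [h.1, h.2, h1.1, h1.2, h2.1, h2.2]

theorem inv_pred_sub {p : ℕ} (hp : 2 ≤ p) :
    (1 : ℝ) / p ≤ 1 / ((p : ℝ) - 1) ∧
      1 / ((p : ℝ) - 1) ≤ 1 / (p : ℝ) + 2 * (1 / (p : ℝ) ^ 2) := by
  have h : (2 : ℝ) ≤ p := by exact_mod_cast hp
  refine ⟨one_div_le_one_div_of_le (by linarith) (by linarith), ?_⟩
  rw [div_le_iff₀ (by linarith)]
  field_simp
  nlinarith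

theorem sum_inv_sq_le (S : Finset ℕ) :
    ∑ p ∈ S, (1 : ℝ) / (p : ℝ) ^ 2 ≤ ∑' k : ℕ, (1 : ℝ) / (k : ℝ) ^ 2 :=
  (Real.summable_one_div_nat_pow.mpr (by norm_num)).sum_le_tsum _ fun k _ => by positivity

theorem sum_pred_near (S : Finset ℕ) (hS : ∀ p ∈ S, Nat.Prime p) :
    ∑ p ∈ S, (1 : ℝ) / p ≤ ∑ p ∈ S, (1 : ℝ) / ((p : ℝ) - 1) ∧
      ∑ p ∈ S, (1 : ℝ) / ((p : ℝ) - 1)
        ≤ ∑ p ∈ S, (1 : ℝ) / p + 2 * ∑' k : ℕ, (1 : ℝ) / (k : ℝ) ^ 2 := by
  refine ⟨Finset.sum_le_sum fun p hp => (inv_pred_sub (hS p hp).two_le).1, ?_⟩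
  refine (Finset.sum_le_sum fun p hp => (inv_pred_sub (hS p hp).two_le).2).trans ?_
  rw [Finset.sum_add_distrib, ← Finset.mul_sum]
  linarith [sum_inv_sq_le S]

/-- Mertens on an interval for `1/(p-1)`. -/
theorem mertens_Ioc_pred : ∃ C : ℝ, 0 ≤ C ∧ ∀ u v : ℝ, 2 ≤ u → u ≤ v →
    |∑ p ∈ primesIoc u v, (1 : ℝ) / ((p : ℝ) - 1) - (lam v - lam u)| ≤ C := by
  obtain ⟨C, hC0, hC⟩ := mertens_Ioc
  refine ⟨C + 2 * ∑' k : ℕ, (1 : ℝ) / (k : ℝ) ^ 2,
    add_nonneg hC0 (mul_nonneg (by norm_num) (tsum_nonneg fun k => by positivity)),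
    fun u v hu huv => ?_⟩
  have h := hC u v hu huv
  have hn := sum_pred_near (primesIoc u v) fun p hp => primesIoc_prime hp
  have : (0 : ℝ) ≤ ∑' k : ℕ, (1 : ℝ) / (k : ℝ) ^ 2 := tsum_nonneg fun k => by positivity
  rw [abs_le] at h ⊢
  constructor <;> linarith [h.1, h.2, hn.1, hn.2]

/-- Mertens' second theorem. -/
theorem mertens_upTo : ∃ C : ℝ, 0 ≤ C ∧ ∀ v : ℝ, 2 ≤ v →
    |∑ p ∈ primesUpTo v, (1 : ℝ) / p - lam v| ≤ C := by
  obtain ⟨C, hC0, hC⟩ := mertens_Ioc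
  refine ⟨C + 1 + |lam 2|, by positivity, fun v hv => ?_⟩
  have h := hC 2 v le_rfl hv
  have he : primesUpTo v = insert 2 (primesIoc 2 v) := by
    ext p
    rw [Finset.mem_insert, mem_primesIoc (by linarith), mem_primesUpTo (by linarith)]
    constructor
    · rintro ⟨hp, hle⟩
      rcases hp.two_le.eq_or_lt with h2 | h2
      · exact Or.inl h2.symm
      · exact Or.inr ⟨hp, by exact_mod_cast h2, hle⟩
    · rintro (rfl | ⟨hp, -, hle⟩)
      · exact ⟨Nat.prime_two, by exact_mod_cast hv⟩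
      · exact ⟨hp, hle⟩
  have hni : 2 ∉ primesIoc 2 v := by simp [primesIoc]
  rw [he, Finset.sum_insert hni]
  rw [abs_le] at h ⊢
  have h2 : (1 : ℝ) / ((2 : ℕ) : ℝ) = 1 / 2 := by norm_num
  constructor <;> linarith [h.1, h.2, le_abs_self (lam 2), neg_abs_le (lam 2)]

/-- Primes whose double logarithm lies in `(a, b]`. -/
def primesLam (a b : ℝ) : Finset ℕ := primesIoc (Real.exp (Real.exp a)) (Real.exp (Real.exp b))

theorem natPrime_le_expexp {s : ℝ} {p : ℕ} (hp : p.Prime) :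
    (p : ℝ) ≤ Real.exp (Real.exp s) ↔ lam (p : ℝ) ≤ s := by
  have h1 : (1 : ℝ) < p := by exact_mod_cast hp.one_lt
  rw [lam, Real.log_le_iff_le_exp (Real.log_pos h1), Real.log_le_iff_le_exp (by linarith)]

theorem mem_primesLe_lam {s : ℝ} {p : ℕ} :
    p ∈ primesUpTo (Real.exp (Real.exp s)) ↔ p.Prime ∧ lam (p : ℝ) ≤ s := by
  rw [mem_primesUpTo (Real.exp_pos _).le]
  constructor <;> rintro ⟨hp, h⟩
  · exact ⟨hp, (natPrime_le_expexp hp).mp h⟩
  · exact ⟨hp, (natPrime_le_expexp hp).mpr h⟩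

theorem mem_primesLam {a b : ℝ} {p : ℕ} :
    p ∈ primesLam a b ↔ p.Prime ∧ a < lam (p : ℝ) ∧ lam (p : ℝ) ≤ b := by
  rw [primesLam, mem_primesIoc (Real.exp_pos _).le]
  constructor
  · rintro ⟨hp, h1, h2⟩
    refine ⟨hp, ?_, (natPrime_le_expexp hp).mp h2⟩
    exact lt_of_not_ge fun h => (not_le.mpr h1) ((natPrime_le_expexp hp).mpr h)
  · rintro ⟨hp, h1, h2⟩
    refine ⟨hp, ?_, (natPrime_le_expexp hp).mpr h2⟩
    exact lt_of_not_ge fun h => (not_le.mpr h1) ((natPrime_le_expexp hp).mp h)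

theorem two_le_expexp {a : ℝ} (ha : 0 ≤ a) : 2 ≤ Real.exp (Real.exp a) := by
  have h1 : (1 : ℝ) ≤ Real.exp a := Real.one_le_exp ha
  linarith [Real.add_one_le_exp (Real.exp a)]

/-- Mertens in the double-log scale. -/
theorem mertens_lam : ∃ C : ℝ, 0 ≤ C ∧ ∀ a b : ℝ, 0 ≤ a → a ≤ b →
    |∑ p ∈ primesLam a b, (1 : ℝ) / p - (b - a)| ≤ C := by
  obtain ⟨C, hC0, hC⟩ := mertens_Ioc
  refine ⟨C, hC0, fun a b ha hab => ?_⟩
  have h := hC _ _ (two_le_expexp ha) (Real.exp_le_exp.mpr (Real.exp_le_exp.mpr hab))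
  simpa [primesLam, lam] using h

theorem mertens_lam_pred : ∃ C : ℝ, 0 ≤ C ∧ ∀ a b : ℝ, 0 ≤ a → a ≤ b →
    |∑ p ∈ primesLam a b, (1 : ℝ) / ((p : ℝ) - 1) - (b - a)| ≤ C := by
  obtain ⟨C, hC0, hC⟩ := mertens_Ioc_pred
  refine ⟨C, hC0, fun a b ha hab => ?_⟩
  have h := hC _ _ (two_le_expexp ha) (Real.exp_le_exp.mpr (Real.exp_le_exp.mpr hab))
  simpa [primesLam, lam] using h

/-- Tail of `∑ 1/p²`. -/
theorem sum_inv_sq_prime_gt {u : ℝ} (hu : 2 ≤ u) (S : Finset ℕ) (hS : ∀ p ∈ S, u < (p : ℝ)) :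
    ∑ p ∈ S, (1 : ℝ) / (p : ℝ) ^ 2 ≤ 2 / u := by
  set N := ⌊u⌋₊
  have hN : 2 ≤ N := Nat.le_floor (by exact_mod_cast hu)
  have hN' : (2 : ℝ) ≤ N := by exact_mod_cast hN
  have key : ∀ M, N ≤ M → ∑ k ∈ Finset.Ioc N M, (1 : ℝ) / (k : ℝ) ^ 2 ≤ 1 / N - 1 / M := by
    intro M hM
    induction M, hM using Nat.le_induction with
    | base => simp
    | succ M hM ih =>
      rw [Finset.sum_Ioc_succ_top hM]
      have hM' : (2 : ℝ) ≤ M := by exact_mod_cast (hN.trans hM)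
      have h : (1 : ℝ) / ((M + 1 : ℕ) : ℝ) ^ 2 ≤ 1 / (M : ℝ) - 1 / ((M + 1 : ℕ) : ℝ) := by
        push_cast
        field_simp
        nlinarith
      linarith
  have hsub : S ⊆ Finset.Ioc N (max N (S.sup id)) := fun p hp => Finset.mem_Ioc.mpr
    ⟨(Nat.floor_lt (by linarith)).mpr (hS p hp), le_max_of_le_right (Finset.le_sup (f := id) hp)⟩
  refine (Finset.sum_le_sum_of_subset_of_nonneg hsub fun k _ _ => by positivity).trans
    ((key _ (le_max_left _ _)).trans ?_)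
  have h1 : u < (N : ℝ) + 1 := Nat.lt_floor_add_one u
  have : (1 : ℝ) / N ≤ 2 / u := by
    rw [div_le_div_iff₀ (by linarith) (by linarith)]; linarith
  have h0 : (0 : ℝ) ≤ 1 / ((max N (S.sup id) : ℕ) : ℝ) := by positivity
  linarith

end Vale.Agent.P031
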