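import Mathlib
import Vale.Agent.P031.Defs
import Vale.Agent.P031.Mertens

/-!
# P031: finite Euler product bounds and Rankin's trick
-/

open scoped Classical
open Finset

noncomputable section

namespace Vale.Agent.P031

/-- The completely multiplicative weight with the given values on primes. -/
def cmul (f : ℕ → ℝ) (n : ℕ) : ℝ := (n.primeFactorsList.map f).prod

theorem cmul_one (f : ℕ → ℝ) : cmul f 1 = 1 := by simp [cmul]

theorem cmul_prime (f : ℕ → ℝ) {p : ℕ} (hp : p.Prime) : cmul f p = f p := by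
  simp [cmul, Nat.primeFactorsList_prime hp]

theorem cmul_mul (f : ℕ → ℝ) {m n : ℕ} (hm : m ≠ 0) (hn : n ≠ 0) :
    cmul f (m * n) = cmul f m * cmul f n := by
  rw [cmul, ((Nat.perm_primeFactorsList_mul hm hn).map f).prod_eq, List.map_append,
    List.prod_append]
  rfl

theorem cmul_prime_pow (f : ℕ → ℝ) {p : ℕ} (hp : p.Prime) (k : ℕ) :
    cmul f (p ^ k) = f p ^ k := by
  rw [cmul, hp.primeFactorsList_pow, List.map_replicate, List.prod_replicate]

theorem cmul_nonneg {f : ℕ → ℝ} {n : ℕ} (h : ∀ p ∈ n.primeFactors, 0 ≤ f p) : 0 ≤ cmul f n := by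
  apply List.prod_nonneg
  intro a ha
  obtain ⟨p, hp, rfl⟩ := List.mem_map.mp ha
  exact h p (List.mem_toFinset.mpr hp)

theorem cmul_congr {f g : ℕ → ℝ} {n : ℕ} (h : ∀ p ∈ n.primeFactors, f p = g p) :
    cmul f n = cmul g n := by
  unfold cmul
  rw [List.map_congr_left]
  exact fun p hp => h p (List.mem_toFinset.mpr hp)

theorem cmul_const_one (n : ℕ) : cmul (fun _ => 1) n = 1 := by simp [cmul]

theorem cmul_mul_fun (f g : ℕ → ℝ) (n : ℕ) :
    cmul (fun r => f r * g r) n = cmul f n * cmul g n := by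
  unfold cmul
  exact List.prod_map_mul

theorem cmul_finset_prod {ι : Type*} (S : Finset ι) (F : ι → ℕ → ℝ) (n : ℕ) :
    cmul (fun r => ∏ i ∈ S, F i r) n = ∏ i ∈ S, cmul (F i) n := by
  induction S using Finset.induction_on with
  | empty => simp [cmul_const_one]
  | insert i S hi ih => simp only [Finset.prod_insert hi]; rw [cmul_mul_fun, ih]

theorem cmul_ite (z a b : ℝ) (n : ℕ) :
    cmul (fun r : ℕ => if a < lam (r : ℝ) ∧ lam (r : ℝ) ≤ b then z else 1) n
      = z ^ omegaIoc a b n := by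
  unfold cmul omegaIoc
  generalize n.primeFactorsList = l
  induction l with
  | nil => simp
  | cons r l ih =>
    by_cases h : a < lam (r : ℝ) ∧ lam (r : ℝ) ≤ b
    · simp [ih, h, pow_succ, mul_comm]
    · simp [ih, h]

theorem geom_sum_le {x : ℝ} (h0 : 0 ≤ x) (h1 : x < 1) (N : ℕ) :
    ∑ k ∈ Finset.range N, x ^ k ≤ (1 - x)⁻¹ := by
  rw [← tsum_geometric_of_lt_one h0 h1]
  exact (summable_geometric_of_lt_one h0 h1).sum_le_tsum _ fun k _ => pow_nonneg h0 k

/-- The finite Euler product inequality. -/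
theorem euler_prod_le (S : Finset ℕ) (f : ℕ → ℝ) (hS : ∀ p ∈ S, p.Prime)
    (hf : ∀ p ∈ S, 0 ≤ f p ∧ f p < p) :
    ∀ T : Finset ℕ, (∀ n ∈ T, n ≠ 0 ∧ n.primeFactors ⊆ S) →
      ∑ n ∈ T, cmul f n / n ≤ ∏ p ∈ S, (1 - f p / p)⁻¹ := by
  induction S using Finset.induction_on with
  | empty =>
    intro T hT
    have hsub : T ⊆ {1} := by
      intro n hn
      obtain ⟨h0, h⟩ := hT n hn
      rw [Finset.subset_empty, Nat.primeFactors_eq_empty] at h
      simp only [Finset.mem_singleton]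
      omega
    refine (Finset.sum_le_sum_of_subset_of_nonneg hsub fun n hn _ => ?_).trans ?_
    · obtain rfl := Finset.mem_singleton.mp hn
      simp [cmul_one]
    · simp [cmul_one]
  | insert p S hp ih =>
    intro T hT
    have hpp : p.Prime := hS p (Finset.mem_insert_self p S)
    have ih' := ih (fun q hq => hS q (Finset.mem_insert_of_mem hq))
      (fun q hq => hf q (Finset.mem_insert_of_mem hq))
    set N := (T.sup fun n => n.factorization p) + 1 with hN
    set T' := T.image fun n => n / p ^ n.factorization p with hT'def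
    have hT' : ∀ m ∈ T', m ≠ 0 ∧ m.primeFactors ⊆ S := by
      intro m hm
      obtain ⟨n, hn, rfl⟩ := Finset.mem_image.mp hm
      obtain ⟨h0, hsub⟩ := hT n hn
      refine ⟨(Nat.ordCompl_pos p h0).ne', fun q hq => ?_⟩
      have hq' := Nat.mem_primeFactors.mp hq
      rcases Finset.mem_insert.mp (hsub (Nat.primeFactors_mono (Nat.ordCompl_dvd n p) h0 hq)) with
        h | h
      · subst h
        exact absurd hq'.2.1 (Nat.not_dvd_ordCompl hpp h0)
      · exact h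
    have hx := hf p (Finset.mem_insert_self p S)
    have hp0 : (0 : ℝ) < p := by exact_mod_cast hpp.pos
    have hx0 : 0 ≤ f p / p := div_nonneg hx.1 hp0.le
    have hx1 : f p / p < 1 := (div_lt_one hp0).mpr hx.2
    let G : ℕ × ℕ → ℝ := fun km => (f p / p) ^ km.1 * (cmul f km.2 / km.2)
    have hterm : ∀ n ∈ T, cmul f n / n = G (n.factorization p, n / p ^ n.factorization p) := by
      intro n hn
      have h0 := (hT n hn).1
      have e := Nat.ordProj_mul_ordCompl_eq_self n p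
      conv_lhs => rw [← e]
      rw [cmul_mul f (pow_ne_zero _ hpp.ne_zero) (Nat.ordCompl_pos p h0).ne', cmul_prime_pow f hpp,
        Nat.cast_mul, Nat.cast_pow]
      simp only [G, div_pow]
      rw [div_mul_div_comm]
    have hinj : Set.InjOn (fun n => (n.factorization p, n / p ^ n.factorization p)) T := by
      intro a _ b _ hab
      simp only [Prod.mk.injEq] at hab
      rw [← Nat.ordProj_mul_ordCompl_eq_self a p, ← Nat.ordProj_mul_ordCompl_eq_self b p,
        hab.1, show a / p ^ b.factorization p = b / p ^ b.factorization p by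
          rw [← hab.2, hab.1]]
    rw [Finset.sum_congr rfl hterm, ← Finset.sum_image (f := G) hinj, Finset.prod_insert hp]
    have hsub : T.image (fun n => (n.factorization p, n / p ^ n.factorization p))
        ⊆ Finset.range N ×ˢ T' := by
      intro km hkm
      obtain ⟨n, hn, rfl⟩ := Finset.mem_image.mp hkm
      refine Finset.mem_product.mpr ⟨Finset.mem_range.mpr ?_, Finset.mem_image.mpr ⟨n, hn, rfl⟩⟩
      exact Nat.lt_succ_of_le (Finset.le_sup (f := fun n : ℕ => n.factorization p) hn)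
    have hnn : ∀ m ∈ T', 0 ≤ cmul f m / (m : ℝ) := fun m hm =>
      div_nonneg (cmul_nonneg fun q hq => (hf q (Finset.mem_insert_of_mem ((hT' m hm).2 hq))).1)
        (Nat.cast_nonneg m)
    refine (Finset.sum_le_sum_of_subset_of_nonneg hsub fun km hkm _ =>
      mul_nonneg (pow_nonneg hx0 _) (hnn _ (Finset.mem_product.mp hkm).2)).trans ?_
    rw [Finset.sum_product]
    simp only []
    rw [← Finset.sum_mul_sum]
    exact mul_le_mul (geom_sum_le hx0 hx1 N) (ih' T' hT') (Finset.sum_nonneg hnn)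
      (inv_nonneg.mpr (by linarith))

theorem inv_one_sub_le_exp {x : ℝ} (_h0 : 0 ≤ x) (h1 : x ≤ 3 / 4) :
    (1 - x)⁻¹ ≤ Real.exp (x + 4 * x ^ 2) := by
  refine le_trans ?_ (Real.add_one_le_exp _)
  rw [inv_le_iff_one_le_mul₀ (by linarith)]
  nlinarith [mul_nonneg (sq_nonneg x) (show 0 ≤ 3 - 4 * x by linarith)]

/-- Exponential form of the Euler product inequality. -/
theorem euler_le (S T : Finset ℕ) (f : ℕ → ℝ) (hS : ∀ p ∈ S, p.Prime)
    (hf : ∀ p ∈ S, 0 ≤ f p ∧ f p ≤ 3 * (p : ℝ) / 4)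
    (hT : ∀ n ∈ T, n ≠ 0 ∧ n.primeFactors ⊆ S) :
    ∑ n ∈ T, cmul f n / n
      ≤ Real.exp (∑ p ∈ S, f p / p + 4 * ∑ p ∈ S, (f p / p) ^ 2) := by
  have hpos : ∀ p ∈ S, (0 : ℝ) < p := fun p hp => by exact_mod_cast (hS p hp).pos
  refine (euler_prod_le S f hS
    (fun p hp => ⟨(hf p hp).1, by linarith [(hf p hp).2, hpos p hp]⟩) T hT).trans ?_
  rw [Finset.mul_sum, ← Finset.sum_add_distrib, Real.exp_sum]
  have hx : ∀ p ∈ S, f p / p ≤ 3 / 4 := fun p hp => by
    rw [div_le_iff₀ (hpos p hp)]; linarith [(hf p hp).2]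
  exact Finset.prod_le_prod (fun p hp => inv_nonneg.mpr (by linarith [hx p hp]))
    fun p hp => inv_one_sub_le_exp (div_nonneg (hf p hp).1 (hpos p hp).le) (hx p hp)

theorem sum_inv_sq_prime_le_one (S : Finset ℕ) (hS : ∀ p ∈ S, p.Prime) :
    ∑ p ∈ S, (1 : ℝ) / (p : ℝ) ^ 2 ≤ 2 := by
  rw [← Finset.sum_filter_add_sum_filter_not S (fun p => p = 2)]
  have h1 : ∑ p ∈ S.filter (fun p => p = 2), (1 : ℝ) / (p : ℝ) ^ 2 ≤ 1 / 4 := by
    refine (Finset.sum_le_sum_of_subset_of_nonneg (t := {2})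
      (fun p hp => Finset.mem_singleton.mpr (Finset.mem_filter.mp hp).2)
      fun k _ _ => by positivity).trans ?_
    norm_num
  have h2 := sum_inv_sq_prime_gt (le_refl 2) (S.filter fun p => ¬p = 2) fun p hp => by
    obtain ⟨h, hne⟩ := Finset.mem_filter.mp hp
    exact_mod_cast lt_of_le_of_ne (hS p h).two_le (Ne.symm hne)
  norm_num at h1 h2 ⊢
  linarith

theorem euler_le_bound (S T : Finset ℕ) (f : ℕ → ℝ) (B : ℝ) (hS : ∀ p ∈ S, p.Prime)
    (hf : ∀ p ∈ S, 0 ≤ f p ∧ f p ≤ 3 * (p : ℝ) / 4) (hB : ∀ p ∈ S, f p ≤ B)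
    (hT : ∀ n ∈ T, n ≠ 0 ∧ n.primeFactors ⊆ S) :
    ∑ n ∈ T, cmul f n / n ≤ Real.exp (∑ p ∈ S, f p / p + 8 * B ^ 2) := by
  refine (euler_le S T f hS hf hT).trans (Real.exp_le_exp.mpr ?_)
  have h : ∑ p ∈ S, (f p / p) ^ 2 ≤ B ^ 2 * ∑ p ∈ S, (1 : ℝ) / (p : ℝ) ^ 2 := by
    rw [Finset.mul_sum]
    refine Finset.sum_le_sum fun p hp => ?_
    rw [div_pow, mul_one_div]
    gcongr
    · exact (hf p hp).1
    · exact hB p hp
  nlinarith [sum_inv_sq_prime_le_one S hS, sq_nonneg B]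

theorem smoothLam_primeFactors {s : ℝ} {n : ℕ} (h : SmoothLam s n) :
    n.primeFactors ⊆ primesUpTo (Real.exp (Real.exp s)) := fun _ hr =>
  mem_primesLe_lam.mpr ⟨(Nat.mem_primeFactors.mp hr).1, h.2 _ hr⟩

/-- Euler product bound over numbers of bounded scale. -/
theorem euler_smoothLam (s B : ℝ) (f : ℕ → ℝ)
    (hf : ∀ p : ℕ, p.Prime → lam (p : ℝ) ≤ s → 0 ≤ f p ∧ f p ≤ B ∧ f p ≤ 3 * (p : ℝ) / 4)
    (T : Finset ℕ) (hT : ∀ n ∈ T, SmoothLam s n) :
    ∑ n ∈ T, cmul f n / n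
      ≤ Real.exp (∑ p ∈ primesUpTo (Real.exp (Real.exp s)), f p / p + 8 * B ^ 2) := by
  have h : ∀ p ∈ primesUpTo (Real.exp (Real.exp s)),
      0 ≤ f p ∧ f p ≤ B ∧ f p ≤ 3 * (p : ℝ) / 4 := fun p hp =>
    hf p (mem_primesLe_lam.mp hp).1 (mem_primesLe_lam.mp hp).2
  exact euler_le_bound _ T f B (fun p hp => primesUpTo_prime hp)
    (fun p hp => ⟨(h p hp).1, (h p hp).2.2⟩) (fun p hp => (h p hp).2.1)
    fun n hn => ⟨(hT n hn).1, smoothLam_primeFactors (hT n hn)⟩

/-- Series form of `euler_smoothLam`. -/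
theorem euler_smoothLam_tsum (s B : ℝ) (f : ℕ → ℝ)
    (hf : ∀ p : ℕ, p.Prime → lam (p : ℝ) ≤ s → 0 ≤ f p ∧ f p ≤ B ∧ f p ≤ 3 * (p : ℝ) / 4)
    (A : Set ℕ) (hA : ∀ n ∈ A, SmoothLam s n) :
    Summable (fun n : A => cmul f n / ((n : ℕ) : ℝ)) ∧
      (∑' n : A, cmul f n / ((n : ℕ) : ℝ))
        ≤ Real.exp (∑ p ∈ primesUpTo (Real.exp (Real.exp s)), f p / p + 8 * B ^ 2) := by
  have hnn : ∀ n : A, 0 ≤ cmul f n / ((n : ℕ) : ℝ) := fun n => by
    refine div_nonneg (cmul_nonneg fun p hp => ?_) (Nat.cast_nonneg _)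
    exact (hf p (Nat.mem_primeFactors.mp hp).1 ((hA n n.2).2 p hp)).1
  have hb : ∀ u : Finset A, ∑ n ∈ u, cmul f n / ((n : ℕ) : ℝ)
      ≤ Real.exp (∑ p ∈ primesUpTo (Real.exp (Real.exp s)), f p / p + 8 * B ^ 2) := by
    intro u
    have := euler_smoothLam s B f hf (u.map (Function.Embedding.subtype _)) (by
      intro n hn
      obtain ⟨m, -, rfl⟩ := Finset.mem_map.mp hn
      exact hA m m.2)
    rwa [Finset.sum_map] at this
  have hs := summable_of_sum_le hnn hb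
  exact ⟨hs, Real.tsum_le_of_sum_le hnn hb⟩

/-- Lower bound for a sifting product. -/
theorem prod_one_sub_ge (S : Finset ℕ) (κ : ℝ) (hκ : 0 ≤ κ)
    (hS : ∀ p ∈ S, p.Prime ∧ κ ≤ 3 * (p : ℝ) / 4) :
    Real.exp (-(κ * ∑ p ∈ S, (1 : ℝ) / p) - 8 * κ ^ 2) ≤ ∏ p ∈ S, (1 - κ / (p : ℝ)) := by
  have hp0 : ∀ p ∈ S, (0 : ℝ) < p := fun p hp => by exact_mod_cast (hS p hp).1.pos
  have hx : ∀ p ∈ S, κ / (p : ℝ) ≤ 3 / 4 := fun p hp => by
    rw [div_le_iff₀ (hp0 p hp)]; linarith [(hS p hp).2]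
  calc Real.exp (-(κ * ∑ p ∈ S, (1 : ℝ) / p) - 8 * κ ^ 2)
      ≤ Real.exp (∑ p ∈ S, -(κ / p + 4 * (κ / p) ^ 2)) := by
        refine Real.exp_le_exp.mpr ?_
        rw [Finset.sum_neg_distrib, Finset.sum_add_distrib, Finset.mul_sum]
        have h := sum_inv_sq_prime_le_one S fun p hp => (hS p hp).1
        have h1 : ∑ p ∈ S, κ * (1 / (p : ℝ)) = ∑ p ∈ S, κ / p :=
          Finset.sum_congr rfl fun p _ => mul_one_div κ _
        have h2 : ∑ p ∈ S, 4 * (κ / (p : ℝ)) ^ 2 = 4 * κ ^ 2 * ∑ p ∈ S, (1 : ℝ) / (p : ℝ) ^ 2 := by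
          rw [Finset.mul_sum]; exact Finset.sum_congr rfl fun p _ => by ring
        nlinarith [sq_nonneg κ]
    _ ≤ ∏ p ∈ S, (1 - κ / (p : ℝ)) := by
        rw [Real.exp_sum]
        refine Finset.prod_le_prod (fun p _ => (Real.exp_pos _).le) fun p hp => ?_
        have h := inv_one_sub_le_exp (div_nonneg hκ (hp0 p hp).le) (hx p hp)
        have h0 : 0 < 1 - κ / (p : ℝ) := by linarith [hx p hp]
        rw [Real.exp_neg]
        exact (inv_le_comm₀ (Real.exp_pos _) h0).mpr h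

/-- Rankin's trick for weighted smooth numbers. -/
theorem rankin_tail : ∃ C : ℝ, 0 ≤ C ∧ ∀ (z S B : ℝ) (f : ℕ → ℝ) (T : Finset ℕ),
    55 ≤ z → 0 < S → 1 ≤ B →
    (∀ p : ℕ, p.Prime → (p : ℝ) ≤ z → 0 ≤ f p ∧ f p ≤ B ∧ f p ≤ max 1 ((p : ℝ) / 4)) →
    (∀ n ∈ T, n ≠ 0 ∧ S ≤ (n : ℝ) ∧ ∀ r ∈ n.primeFactors, (r : ℝ) ≤ z) →
    ∑ n ∈ T, cmul f n / n
      ≤ Real.exp (∑ p ∈ primesUpTo z, f p / p + C * B ^ 2 - Real.log S / Real.log z) := by
  obtain ⟨C1, hC1, hM⟩ := sum_log_div_prime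
  refine ⟨3 * (1 + C1) + 72, by positivity, fun z S B f T hz hS hB hf hT => ?_⟩
  have hlz4 : 4 ≤ Real.log z := by
    rw [Real.le_log_iff_exp_le (by linarith)]
    refine le_trans ?_ hz
    have he : Real.exp 1 < 2.7182818286 := Real.exp_one_lt_d9
    have e4 : Real.exp 4 = Real.exp 1 ^ 4 := by rw [← Real.exp_nat_mul]; norm_num
    rw [e4]
    have := Real.exp_pos 1
    calc Real.exp 1 ^ 4 ≤ (2.7182818286 : ℝ) ^ 4 := by gcongr
      _ ≤ 55 := by norm_num
  have hlz : 0 < Real.log z := by linarith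
  set d := (Real.log z)⁻¹ with hd
  have hd0 : 0 < d := inv_pos.mpr hlz
  have hd4 : d ≤ 1 / 4 := by
    rw [hd, inv_eq_one_div]; gcongr
  let g : ℕ → ℝ := fun p => f p * (p : ℝ) ^ d
  -- the twisted weight
  have hgn : ∀ n : ℕ, n ≠ 0 → cmul g n = cmul f n * (n : ℝ) ^ d := by
    intro n hn
    rw [show g = fun p => f p * (fun q : ℕ => (q : ℝ) ^ d) p from rfl, cmul_mul_fun]
    congr 1
    conv_rhs => rw [← Nat.prod_primeFactorsList hn]
    unfold cmul
    generalize n.primeFactorsList = l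
    induction l with
    | nil => simp
    | cons r l ih =>
      simp only [List.map_cons, List.prod_cons, Nat.cast_mul, ih]
      rw [Real.mul_rpow (Nat.cast_nonneg r) (Nat.cast_nonneg _)]
  -- comparison of the weights
  have hpz : ∀ p ∈ primesUpTo z, p.Prime ∧ (p : ℝ) ≤ z := fun p hp =>
    (mem_primesUpTo (by linarith)).mp hp
  have hg : ∀ p ∈ primesUpTo z, 0 ≤ g p ∧ g p ≤ 3 * (p : ℝ) / 4 ∧ g p ≤ 3 * B ∧
      g p / p ≤ f p / p + 3 * B * d * (Real.log p / p) := by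
    intro p hp
    obtain ⟨hpp, hpl⟩ := hpz p hp
    obtain ⟨hf0, hfB, hfp⟩ := hf p hpp hpl
    have hp2 : (2 : ℝ) ≤ p := by exact_mod_cast hpp.two_le
    have hlp : 0 ≤ Real.log p := Real.log_natCast_nonneg p
    set t := Real.log p * d
    have ht0 : 0 ≤ t := mul_nonneg hlp hd0.le
    have ht1 : t ≤ 1 := by
      rw [show t = Real.log p / Real.log z from (div_eq_mul_inv _ _).symm, div_le_one hlz]
      exact Real.log_le_log (by linarith) hpl
    have hpd : (p : ℝ) ^ d = Real.exp t := Real.rpow_def_of_pos (by linarith) d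
    have he3 : Real.exp t ≤ 3 := by
      linarith [Real.exp_le_exp.mpr ht1, Real.exp_one_lt_d9]
    have hlin : Real.exp t ≤ 1 + 3 * t := by
      have h := Real.add_one_le_exp (-t)
      rw [Real.exp_neg] at h
      have h2 : Real.exp t * (1 - t) ≤ 1 := by
        have := mul_le_mul_of_nonneg_left h (Real.exp_pos t).le
        rw [mul_inv_cancel₀ (Real.exp_pos t).ne'] at this
        linarith
      nlinarith
    have hgB : g p ≤ 3 * B := by
      simp only [g, hpd]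
      nlinarith [Real.exp_pos t]
    refine ⟨mul_nonneg hf0 (Real.rpow_nonneg (by linarith) d), ?_, hgB, ?_⟩
    · rcases max_choice (1 : ℝ) ((p : ℝ) / 4) with h | h <;> rw [h] at hfp
      · have h14 : (p : ℝ) ^ d ≤ (p : ℝ) ^ ((1 : ℝ) / 4) :=
          Real.rpow_le_rpow_of_exponent_le (by linarith) hd4
        have h12 : (p : ℝ) ^ ((1 : ℝ) / 4) ≤ 3 * (p : ℝ) / 4 := by
          have hq : ((p : ℝ) ^ ((1 : ℝ) / 4)) ^ 4 = p := by
            rw [← Real.rpow_natCast ((p : ℝ) ^ ((1 : ℝ) / 4)), ← Real.rpow_mul (by linarith)]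
            norm_num
          have hq0 : 0 ≤ (p : ℝ) ^ ((1 : ℝ) / 4) := Real.rpow_nonneg (by linarith) _
          nlinarith [sq_nonneg ((p : ℝ) ^ ((1 : ℝ) / 4) - 3 / 2),
            sq_nonneg ((p : ℝ) ^ ((1 : ℝ) / 4) ^ 2 - 1), sq_nonneg ((p : ℝ) ^ ((1 : ℝ) / 4) - 1)]
        calc g p ≤ 1 * (p : ℝ) ^ d :=
              mul_le_mul_of_nonneg_right hfp (Real.rpow_nonneg (by linarith) d)
          _ ≤ _ := by linarith
      · simp only [g, hpd]
        nlinarith [Real.exp_pos t]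
    · simp only [g, hpd]
      have h : f p * Real.exp t ≤ f p + 3 * B * t := by
        have h1 := mul_le_mul_of_nonneg_left hlin hf0
        have h2 := mul_le_mul_of_nonneg_right hfB ht0
        nlinarith
      calc f p * Real.exp t / p ≤ (f p + 3 * B * t) / p := by gcongr
        _ = _ := by ring
  have hmain := euler_le_bound (primesUpTo z) T g (3 * B) (fun p hp => (hpz p hp).1)
    (fun p hp => ⟨(hg p hp).1, (hg p hp).2.1⟩) (fun p hp => (hg p hp).2.2.1)
    (fun n hn => ⟨(hT n hn).1, fun r hr => (mem_primesUpTo (by linarith)).mpr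
      ⟨(Nat.mem_primeFactors.mp hr).1, (hT n hn).2.2 r hr⟩⟩)
  have hsum : ∑ p ∈ primesUpTo z, g p / p
      ≤ ∑ p ∈ primesUpTo z, f p / p + 3 * B * (1 + C1) := by
    refine (Finset.sum_le_sum fun p hp => (hg p hp).2.2.2).trans ?_
    rw [Finset.sum_add_distrib, ← Finset.mul_sum]
    have h := (abs_le.mp (hM z (by linarith))).2
    have h' : d * ∑ p ∈ primesUpTo z, Real.log p / p ≤ 1 + C1 := by
      calc d * ∑ p ∈ primesUpTo z, Real.log p / p ≤ d * (Real.log z + C1) :=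
            mul_le_mul_of_nonneg_left (by linarith) hd0.le
        _ = 1 + d * C1 := by rw [hd]; field_simp
        _ ≤ 1 + C1 := by nlinarith
    rw [show 3 * B * d * ∑ p ∈ primesUpTo z, Real.log p / p
      = 3 * B * (d * ∑ p ∈ primesUpTo z, Real.log p / p) by ring]
    gcongr
  have hterm : ∀ n ∈ T, cmul f n / n ≤ Real.exp (-(Real.log S / Real.log z)) * (cmul g n / n) := by
    intro n hn
    obtain ⟨h0, hSn, hr⟩ := hT n hn
    have hf0 : 0 ≤ cmul f n := cmul_nonneg fun p hp =>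
      (hf p (Nat.mem_primeFactors.mp hp).1 (hr p hp)).1
    rw [hgn n h0]
    have hn' : (0 : ℝ) < n := by exact_mod_cast Nat.pos_of_ne_zero h0
    have h1 : 1 ≤ Real.exp (-(Real.log S / Real.log z)) * (n : ℝ) ^ d := by
      rw [Real.rpow_def_of_pos hn', ← Real.exp_add]
      refine Real.one_le_exp ?_
      have h := Real.log_le_log hS hSn
      rw [div_eq_mul_inv]
      nlinarith
    calc cmul f n / n = 1 * (cmul f n / n) := (one_mul _).symm
      _ ≤ Real.exp (-(Real.log S / Real.log z)) * (n : ℝ) ^ d * (cmul f n / n) :=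
          mul_le_mul_of_nonneg_right h1 (div_nonneg hf0 hn'.le)
      _ = _ := by ring
  calc ∑ n ∈ T, cmul f n / n
      ≤ Real.exp (-(Real.log S / Real.log z)) * ∑ n ∈ T, cmul g n / n := by
        rw [Finset.mul_sum]; exact Finset.sum_le_sum hterm
    _ ≤ Real.exp (-(Real.log S / Real.log z))
          * Real.exp (∑ p ∈ primesUpTo z, g p / p + 8 * (3 * B) ^ 2) := by gcongr
    _ ≤ _ := by
        rw [← Real.exp_add]
        refine Real.exp_le_exp.mpr ?_
        have h2 : B * (1 + C1) ≤ B ^ 2 * (1 + C1) := by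
          apply mul_le_mul_of_nonneg_right _ (by linarith)
          nlinarith
        nlinarith

/-- Tail of the harmonic sum over smooth numbers. -/
theorem rankin_smooth_tail : ∃ C : ℝ, 0 ≤ C ∧ ∀ (z S : ℝ) (T : Finset ℕ),
    55 ≤ z → 0 < S → (∀ n ∈ T, n ≠ 0 ∧ S ≤ (n : ℝ) ∧ ∀ r ∈ n.primeFactors, (r : ℝ) ≤ z) →
    ∑ n ∈ T, (1 : ℝ) / n ≤ C * Real.log z * Real.exp (-(Real.log S / Real.log z)) := by
  obtain ⟨C2, hC2, hR⟩ := rankin_tail
  obtain ⟨C3, hC3, hM⟩ := mertens_upTo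
  refine ⟨Real.exp (C2 + C3), (Real.exp_pos _).le, fun z S T hz hS hT => ?_⟩
  have h := hR z S 1 (fun _ => 1) T hz hS le_rfl
    (fun p _ _ => ⟨zero_le_one, le_rfl, le_max_left _ _⟩) hT
  simp only [cmul_const_one, one_pow, mul_one] at h
  refine h.trans ?_
  have hlz : 0 < Real.log z := Real.log_pos (by linarith)
  calc Real.exp (∑ p ∈ primesUpTo z, (1 : ℝ) / p + C2 - Real.log S / Real.log z)
      ≤ Real.exp (C2 + C3 + Real.log (Real.log z) + -(Real.log S / Real.log z)) := by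
        refine Real.exp_le_exp.mpr ?_
        have h2 := (abs_le.mp (hM z (by linarith))).2
        simp only [lam] at h2
        linarith
    _ = _ := by rw [Real.exp_add, Real.exp_add, Real.exp_log hlz]

/-- Counting smooth numbers. -/
theorem smooth_count : ∃ C : ℝ, 0 ≤ C ∧ ∀ (z X : ℝ) (T : Finset ℕ),
    55 ≤ z → 1 ≤ X → (∀ n ∈ T, n ≠ 0 ∧ (n : ℝ) ≤ X ∧ ∀ r ∈ n.primeFactors, (r : ℝ) ≤ z) →
    (T.card : ℝ) ≤ Real.sqrt X
      + C * X * Real.log z * Real.exp (-(Real.log X / (2 * Real.log z))) := by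
  obtain ⟨C, hC, hR⟩ := rankin_smooth_tail
  refine ⟨C, hC, fun z X T hz hX hT => ?_⟩
  have hs0 : 0 < Real.sqrt X := Real.sqrt_pos.mpr (by linarith)
  rw [← Finset.card_filter_add_card_filter_not (s := T) (fun n : ℕ => (n : ℝ) < Real.sqrt X),
    Nat.cast_add]
  apply add_le_add
  · have hsub : T.filter (fun n : ℕ => (n : ℝ) < Real.sqrt X) ⊆ Finset.Icc 1 ⌊Real.sqrt X⌋₊ :=
      fun n hn => by
        obtain ⟨hn, hlt⟩ := Finset.mem_filter.mp hn
        exact Finset.mem_Icc.mpr ⟨Nat.one_le_iff_ne_zero.mpr (hT n hn).1,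
          (Nat.le_floor_iff hs0.le).mpr hlt.le⟩
    refine (Nat.cast_le.mpr (Finset.card_le_card hsub)).trans ?_
    simp only [Nat.card_Icc, Nat.add_sub_cancel]
    exact Nat.floor_le hs0.le
  · set U := T.filter fun n : ℕ => ¬(n : ℝ) < Real.sqrt X
    have hU : ∀ n ∈ U, n ∈ T ∧ Real.sqrt X ≤ (n : ℝ) := fun n hn =>
      ⟨(Finset.mem_filter.mp hn).1, not_lt.mp (Finset.mem_filter.mp hn).2⟩
    have h := hR z (Real.sqrt X) U hz hs0
      fun n hn => ⟨(hT n (hU n hn).1).1, (hU n hn).2, (hT n (hU n hn).1).2.2⟩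
    rw [Real.log_sqrt (by linarith), div_div] at h
    have hc : (U.card : ℝ) ≤ X * ∑ n ∈ U, (1 : ℝ) / n := by
      rw [Finset.mul_sum, Finset.card_eq_sum_ones, Nat.cast_sum]
      refine Finset.sum_le_sum fun n hn => ?_
      have hn' : (0 : ℝ) < n := by
        exact_mod_cast Nat.pos_of_ne_zero (hT n (hU n hn).1).1
      rw [mul_one_div, le_div_iff₀ hn']
      simpa using (hT n (hU n hn).1).2.1
    refine hc.trans ?_
    calc X * ∑ n ∈ U, (1 : ℝ) / n
        ≤ X * (C * Real.log z * Real.exp (-(Real.log X / (2 * Real.log z)))) :=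
          mul_le_mul_of_nonneg_left h (by linarith)
      _ = _ := by ring

end Vale.Agent.P031
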