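import Mathlib
import Vale.Agent.P031.Defs
import Vale.Agent.P031.Mertens
import Vale.Agent.P031.Euler

/-!
# P031 Q2, section 5: splitting totients along the prime factors
-/

open scoped Classical
noncomputable section

namespace Vale.Agent.P031

/-- The part of `n` made of the primes satisfying `Q`. -/
def part (n : ℕ) (Q : ℕ → Prop) : ℕ :=
  ∏ r ∈ n.primeFactors.filter Q, r ^ n.factorization r

theorem part_ne_zero (n : ℕ) (Q : ℕ → Prop) : part n Q ≠ 0 :=
  Finset.prod_ne_zero_iff.2 fun _ hr => pow_ne_zero _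
    (Nat.prime_of_mem_primeFactors (Finset.mem_filter.1 hr).1).ne_zero

theorem prime_dvd_part {n : ℕ} {Q : ℕ → Prop} {p : ℕ} (hp : p.Prime) (h : p ∣ part n Q) :
    p ∈ n.primeFactors ∧ Q p := by
  obtain ⟨r, hr, hd⟩ := hp.prime.exists_mem_finset_dvd h
  obtain ⟨h1, h2⟩ := Finset.mem_filter.1 hr
  have : p = r := (Nat.prime_dvd_prime_iff_eq hp (Nat.prime_of_mem_primeFactors h1)).1
    (hp.dvd_of_dvd_pow hd)
  exact this ▸ ⟨h1, h2⟩

theorem mem_primeFactors_part {n : ℕ} {Q : ℕ → Prop} {r : ℕ} :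
    r ∈ (part n Q).primeFactors ↔ r ∈ n.primeFactors ∧ Q r := by
  constructor
  · intro h
    exact prime_dvd_part (Nat.prime_of_mem_primeFactors h) (Nat.dvd_of_mem_primeFactors h)
  · rintro ⟨h1, h2⟩
    have hp := Nat.prime_of_mem_primeFactors h1
    refine Nat.mem_primeFactors.2 ⟨hp, ?_, part_ne_zero n Q⟩
    refine dvd_trans ?_ (Finset.dvd_prod_of_mem _ (Finset.mem_filter.2 ⟨h1, h2⟩))
    exact dvd_pow_self r (hp.factorization_pos_of_dvd (Nat.mem_primeFactors.1 h1).2.2
      (Nat.dvd_of_mem_primeFactors h1)).ne'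

theorem part_mul_compl {n : ℕ} (hn : n ≠ 0) (Q : ℕ → Prop) :
    part n Q * part n (fun r => ¬ Q r) = n := by
  rw [part, part]
  erw [Finset.prod_filter_mul_prod_filter_not]
  exact Nat.prod_factorization_pow_eq_self hn

theorem part_dvd {n : ℕ} (hn : n ≠ 0) (Q : ℕ → Prop) : part n Q ∣ n :=
  ⟨_, (part_mul_compl hn Q).symm⟩

theorem coprime_part (n : ℕ) (Q : ℕ → Prop) :
    (part n Q).Coprime (part n fun r => ¬ Q r) :=
  Nat.coprime_of_dvd fun _ hp h1 h2 => (prime_dvd_part hp h2).2 (prime_dvd_part hp h1).2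

theorem totient_split {n : ℕ} (hn : n ≠ 0) (Q : ℕ → Prop) :
    Nat.totient n = Nat.totient (part n Q) * Nat.totient (part n fun r => ¬ Q r) := by
  rw [← Nat.totient_mul (coprime_part n Q), part_mul_compl hn Q]

theorem part_single {n r : ℕ} (hr : r ∈ n.primeFactors) (h2 : ¬ r ^ 2 ∣ n) :
    part n (fun q => q = r) = r := by
  have hp := Nat.prime_of_mem_primeFactors hr
  have hn := (Nat.mem_primeFactors.1 hr).2.2
  have h1 : n.factorization r = 1 := by
    have hpos := hp.factorization_pos_of_dvd hn (Nat.dvd_of_mem_primeFactors hr)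
    by_contra hne
    exact h2 ((hp.pow_dvd_iff_le_factorization hn).2 (by omega))
  rw [part, Finset.prod_eq_single r (fun q hq hne => by simp [Finset.mem_filter] at hq; exact absurd hq.2 (by simpa [eq_comm] using hne))
    (fun h => absurd h (by simpa [eq_comm] using hr)), h1, pow_one]

theorem totient_single {n r : ℕ} (hr : r ∈ n.primeFactors) (h2 : ¬ r ^ 2 ∣ n) :
    Nat.totient n = (r - 1) * Nat.totient (part n fun q => q ≠ r) := by
  rw [totient_split (Nat.mem_primeFactors.1 hr).2.2 (fun q => q = r), part_single hr h2,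
    Nat.totient_prime (Nat.prime_of_mem_primeFactors hr)]

/-- Totient of a product of distinct primes. -/
theorem totient_prod_primes (S : Finset ℕ) (hS : ∀ r ∈ S, r.Prime) :
    Nat.totient (∏ r ∈ S, r) = ∏ r ∈ S, (r - 1) := by
  induction S using Finset.induction_on with
  | empty => simp
  | insert a S ha ih =>
    have hap : a.Prime := hS a (Finset.mem_insert_self _ _)
    have hS' : ∀ r ∈ S, r.Prime := fun r hr => hS r (Finset.mem_insert_of_mem hr)
    rw [Finset.prod_insert ha, Finset.prod_insert ha, Nat.totient_mul, Nat.totient_prime hap,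
      ih hS']
    refine Nat.Coprime.prod_right fun r hr => (Nat.coprime_primes hap (hS' r hr)).2 fun h => ?_
    exact ha (h ▸ hr)

theorem prod_sub_one_dvd_totient {n : ℕ} {S : Finset ℕ} (hS : S ⊆ n.primeFactors) :
    ∏ r ∈ S, (r - 1) ∣ Nat.totient n := by
  rw [← totient_prod_primes S fun r hr => Nat.prime_of_mem_primeFactors (hS hr)]
  exact Nat.totient_dvd_of_dvd
    ((Finset.prod_dvd_prod_of_subset _ _ id hS).trans (Nat.prod_primeFactors_dvd n))

theorem le_primeFactor_of_mem_totient {n r : ℕ} (hr : r ∈ (Nat.totient n).primeFactors) :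
    ∃ q ∈ n.primeFactors, r ≤ q := by
  obtain ⟨hp, hd, h0⟩ := Nat.mem_primeFactors.1 hr
  have hn : n ≠ 0 := fun h => h0 (by rw [h, Nat.totient_zero])
  rw [Nat.totient_eq_prod_factorization hn, Finsupp.prod] at hd
  obtain ⟨q, hq, hdq⟩ := hp.prime.exists_mem_finset_dvd hd
  rw [Nat.support_factorization] at hq
  have hqp := Nat.prime_of_mem_primeFactors hq
  refine ⟨q, hq, ?_⟩
  rcases hp.dvd_mul.1 hdq with h | h
  · exact ((Nat.prime_dvd_prime_iff_eq hp hqp).1 (hp.dvd_of_dvd_pow h)).le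
  · exact (Nat.le_of_dvd (by have := hqp.two_le; omega) h).trans (Nat.sub_le q 1)

theorem lam_mono {a b : ℕ} (ha : 2 ≤ a) (hab : a ≤ b) : lam (a : ℝ) ≤ lam (b : ℝ) := by
  have h1 : (1 : ℝ) < (a : ℝ) := by exact_mod_cast ha
  have h2 : (a : ℝ) ≤ (b : ℝ) := by exact_mod_cast hab
  exact Real.log_le_log (Real.log_pos h1) (Real.log_le_log (by linarith) h2)

theorem smoothLam_totient {s : ℝ} {n : ℕ} (h : SmoothLam s n) : SmoothLam s (Nat.totient n) := by
  refine ⟨fun h0 => h.1 (Nat.totient_eq_zero.1 h0), fun r hr => ?_⟩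
  obtain ⟨q, hq, hrq⟩ := le_primeFactor_of_mem_totient hr
  exact (lam_mono (Nat.prime_of_mem_primeFactors hr).two_le hrq).trans (h.2 q hq)

theorem smoothLam_part {s : ℝ} {n : ℕ} (h : SmoothLam s n) (Q : ℕ → Prop) :
    SmoothLam s (part n Q) :=
  ⟨part_ne_zero n Q, fun _ hr => h.2 _ (mem_primeFactors_part.1 hr).1⟩

theorem mem_smoothValues_part {s : ℝ} {n : ℕ} (h : SmoothLam s n) (Q : ℕ → Prop) :
    Nat.totient (part n Q) ∈ smoothValues s :=
  ⟨part n Q, smoothLam_part h Q, rfl⟩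

theorem maxPrime_mem {n : ℕ} (h : n.primeFactors.Nonempty) : maxPrime n ∈ n.primeFactors := by
  obtain ⟨b, hb, e⟩ := Finset.exists_mem_eq_sup _ h id
  rw [maxPrime, e]
  exact hb

theorem le_maxPrime {n r : ℕ} (h : r ∈ n.primeFactors) : r ≤ maxPrime n :=
  Finset.le_sup (f := id) h

/-- A two-fold factorisation bounds a reciprocal sum. -/
theorem sum_inv_le_mul (S A B : Finset ℕ) (h : ∀ m ∈ S, ∃ a ∈ A, ∃ b ∈ B, m = a * b) :
    ∑ m ∈ S, (1 : ℝ) / m ≤ (∑ a ∈ A, (1 : ℝ) / a) * ∑ b ∈ B, (1 : ℝ) / b := by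
  rw [Finset.sum_mul_sum, ← Finset.sum_product']
  have h' : S ⊆ (A ×ˢ B).image fun x => x.1 * x.2 := by
    intro m hm
    obtain ⟨a, ha, b, hb, rfl⟩ := h m hm
    exact Finset.mem_image.2 ⟨(a, b), Finset.mem_product.2 ⟨ha, hb⟩, rfl⟩
  refine (Finset.sum_le_sum_of_subset_of_nonneg h' fun _ _ _ => by positivity).trans ?_
  refine (Finset.sum_image_le_of_nonneg fun _ _ => by positivity).trans_eq ?_
  refine Finset.sum_congr rfl fun x _ => ?_
  push_cast
  rw [one_div_mul_one_div]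

end Vale.Agent.P031
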