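import Mathlib

/-!
# P031 Q2: the pure Brun sieve (combinatorial part)

Upper bound for the number of `w < N` avoiding the bad residues of finitely many primes, for
linear forms `a i * w + b i`.
-/

open scoped Classical
noncomputable section

namespace Vale.Agent.P031.Brun

variable {k : ℕ} (a b : Fin k → ℕ)

/-- `p` divides the value of one of the forms at `w`. -/
def Bad (p w : ℕ) : Prop := ∃ i, p ∣ a i * w + b i

/-- All primes of `T` are bad at `w`. -/
def AllBad (T : Finset ℕ) (w : ℕ) : Prop := ∀ p ∈ T, Bad a b p w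

/-- Number of bad residues modulo `p`. -/
def nu (p : ℕ) : ℕ := ((Finset.range p).filter (Bad a b p)).card

/-- Density of bad residues. -/
def dens (p : ℕ) : ℝ := (nu a b p : ℝ) / p

theorem bad_mod (p w : ℕ) : Bad a b p (w % p) ↔ Bad a b p w := by
  unfold Bad
  refine exists_congr fun i => ?_
  have h : a i * (w % p) + b i ≡ a i * w + b i [MOD p] :=
    ((Nat.mod_modEq w p).mul_left _).add_right _
  exact h.dvd_iff dvd_rfl

theorem allBad_add (T : Finset ℕ) (w : ℕ) :
    AllBad a b T (w + ∏ p ∈ T, p) ↔ AllBad a b T w := by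
  refine forall₂_congr fun p hp => ?_
  rw [← bad_mod a b p (w + _), ← bad_mod a b p w]
  have h : (w + ∏ p ∈ T, p) % p = w % p := by
    obtain ⟨c, hc⟩ := Finset.dvd_prod_of_mem (fun p => p) hp
    rw [hc, Nat.add_mul_mod_self_left]
  rw [h]

theorem nu_le_self (p : ℕ) : nu a b p ≤ p :=
  (Finset.card_filter_le _ _).trans (by simp)

theorem card_allBad_period (T : Finset ℕ) (hT : ∀ p ∈ T, p.Prime) :
    ((Finset.range (∏ p ∈ T, p)).filter (AllBad a b T)).card = ∏ p ∈ T, nu a b p := by
  induction T using Finset.induction_on with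
  | empty =>
    rw [Finset.filter_true_of_mem fun w _ q hq => absurd hq (Finset.notMem_empty q)]
    simp
  | @insert p T hpT ih =>
    have hTp : ∀ q ∈ T, q.Prime := fun q hq => hT q (Finset.mem_insert_of_mem hq)
    have hp : p.Prime := hT p (Finset.mem_insert_self _ _)
    have hcop : Nat.Coprime p (∏ q ∈ T, q) := by
      refine Nat.Coprime.prod_right fun q hq => ?_
      exact (Nat.coprime_primes hp (hTp q hq)).2 fun h => hpT (h ▸ hq)
    rw [Finset.prod_insert hpT, Finset.prod_insert hpT, ← ih hTp, nu, ← Finset.card_product]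
    have hM : 0 < ∏ q ∈ T, q := Finset.prod_pos fun q hq => (hTp q hq).pos
    refine Finset.card_nbij (fun w => (w % p, w % ∏ q ∈ T, q)) ?_ ?_ ?_
    · intro w hw
      simp only [Finset.mem_coe, Finset.mem_filter, Finset.mem_range] at hw
      simp only [Finset.mem_coe, Finset.mem_product, Finset.mem_filter, Finset.mem_range]
      refine ⟨⟨Nat.mod_lt _ hp.pos, (bad_mod a b p w).2 (hw.2 p (Finset.mem_insert_self _ _))⟩,
        Nat.mod_lt _ hM, fun q hq => ?_⟩
      have hqd : q ∣ ∏ q ∈ T, q := Finset.dvd_prod_of_mem (fun q => q) hq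
      rw [← bad_mod, Nat.mod_mod_of_dvd _ hqd, bad_mod]
      exact hw.2 q (Finset.mem_insert_of_mem hq)
    · intro w hw w' hw' h
      simp only [Finset.mem_coe, Finset.mem_filter, Finset.mem_range] at hw hw'
      simp only [Prod.mk.injEq] at h
      exact ((Nat.modEq_and_modEq_iff_modEq_mul hcop).1 ⟨h.1, h.2⟩).eq_of_lt_of_lt hw.1 hw'.1
    · rintro ⟨x, y⟩ hxy
      simp only [Finset.mem_coe, Finset.mem_product, Finset.mem_filter, Finset.mem_range] at hxy
      obtain ⟨w, hwp, hwM⟩ := Nat.chineseRemainder hcop x y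
      refine ⟨w % (p * ∏ q ∈ T, q), ?_, ?_⟩
      · simp only [Finset.mem_coe, Finset.mem_filter, Finset.mem_range]
        refine ⟨Nat.mod_lt _ (Nat.mul_pos hp.pos hM), fun q hq => ?_⟩
        rw [← bad_mod, Nat.mod_mod_of_dvd]
        · rcases Finset.mem_insert.1 hq with rfl | hq
          · rw [hwp, bad_mod]; exact hxy.1.2
          · have hqd : q ∣ ∏ q ∈ T, q := Finset.dvd_prod_of_mem (fun q => q) hq
            have : w % q = y % q := hwM.of_dvd hqd
            rw [this, bad_mod]
            exact hxy.2.2 q hq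
        · rcases Finset.mem_insert.1 hq with rfl | hq
          · exact dvd_mul_right _ _
          · exact Dvd.dvd.mul_left (Finset.dvd_prod_of_mem (fun q => q) hq) _
      · simp only [Prod.mk.injEq]
        constructor
        · rw [Nat.mod_mod_of_dvd _ (dvd_mul_right _ _), hwp, Nat.mod_eq_of_lt hxy.1.1]
        · rw [Nat.mod_mod_of_dvd _ (dvd_mul_left _ _), hwM, Nat.mod_eq_of_lt hxy.2.1]

theorem count_allBad_mul_add (T : Finset ℕ) (q r : ℕ) :
    Nat.count (AllBad a b T) (q * (∏ p ∈ T, p) + r) =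
      q * Nat.count (AllBad a b T) (∏ p ∈ T, p) + Nat.count (AllBad a b T) r := by
  induction q with
  | zero => simp
  | succ q ih =>
    have h : (q + 1) * (∏ p ∈ T, p) + r = (∏ p ∈ T, p) + (q * (∏ p ∈ T, p) + r) := by ring
    rw [h, Nat.count_add]
    have h2 : (fun j => AllBad a b T ((∏ p ∈ T, p) + j)) = AllBad a b T := by
      funext j
      rw [add_comm, allBad_add]
    simp only [h2]
    rw [ih]
    ring

theorem abs_card_allBad_sub (T : Finset ℕ) (hT : ∀ p ∈ T, p.Prime)
    (hnu : ∀ p ∈ T, nu a b p ≤ k) (N : ℕ) :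
    |(((Finset.range N).filter (AllBad a b T)).card : ℝ) - (N : ℝ) * ∏ p ∈ T, dens a b p| ≤
      (k : ℝ) ^ T.card := by
  have hMpos : 0 < ∏ p ∈ T, p := Finset.prod_pos fun q hq => (hT q hq).pos
  have hc := card_allBad_period a b T hT
  have hdens : ∏ p ∈ T, dens a b p =
      ((∏ p ∈ T, nu a b p : ℕ) : ℝ) / ((∏ p ∈ T, p : ℕ) : ℝ) := by
    simp [dens, Finset.prod_div_distrib]
  have hle : ((∏ p ∈ T, nu a b p : ℕ) : ℝ) ≤ (k : ℝ) ^ T.card := by
    rw [← Finset.prod_const]
    push_cast
    exact Finset.prod_le_prod (fun p _ => by positivity) fun p hp => by exact_mod_cast hnu p hp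
  set M := ∏ p ∈ T, p with hM
  set c := ∏ p ∈ T, nu a b p
  have hN : N = (N / M) * M + N % M := by rw [Nat.div_add_mod' N M]
  have hcount : ((Finset.range N).filter (AllBad a b T)).card =
      (N / M) * c + Nat.count (AllBad a b T) (N % M) := by
    rw [← Nat.count_eq_card_filter_range]
    conv_lhs => rw [hN]
    rw [count_allBad_mul_add, ← hM]
    congr 1
    rw [Nat.count_eq_card_filter_range, hc]
  have hrle : Nat.count (AllBad a b T) (N % M) ≤ c := by
    have h := Nat.count_monotone (AllBad a b T) (Nat.mod_lt N hMpos).le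
    rwa [Nat.count_eq_card_filter_range (AllBad a b T) M, hc] at h
  rw [hcount, hdens]
  have hMr : (0 : ℝ) < (M : ℝ) := by exact_mod_cast hMpos
  have hNr : (N : ℝ) = ((N / M : ℕ) : ℝ) * (M : ℝ) + ((N % M : ℕ) : ℝ) := by exact_mod_cast hN
  have e : (N : ℝ) * ((c : ℝ) / (M : ℝ)) =
      ((N / M : ℕ) : ℝ) * (c : ℝ) + ((N % M : ℕ) : ℝ) * ((c : ℝ) / (M : ℝ)) := by
    rw [hNr]; field_simp
  have h1 : (Nat.count (AllBad a b T) (N % M) : ℝ) ≤ (c : ℝ) := by exact_mod_cast hrle
  have h2 : ((N % M : ℕ) : ℝ) * ((c : ℝ) / (M : ℝ)) ≤ (c : ℝ) := by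
    have h3 : ((N % M : ℕ) : ℝ) ≤ (M : ℝ) := by exact_mod_cast (Nat.mod_lt N hMpos).le
    calc ((N % M : ℕ) : ℝ) * ((c : ℝ) / (M : ℝ)) ≤ (M : ℝ) * ((c : ℝ) / (M : ℝ)) :=
          mul_le_mul_of_nonneg_right h3 (by positivity)
      _ = (c : ℝ) := by field_simp
  have h4 : 0 ≤ ((N % M : ℕ) : ℝ) * ((c : ℝ) / (M : ℝ)) := by positivity
  have h5 : (0 : ℝ) ≤ (Nat.count (AllBad a b T) (N % M) : ℝ) := Nat.cast_nonneg _
  rw [e]
  push_cast
  rw [abs_le]
  constructor <;> linarith

theorem alt_sum_nonneg (B : Finset ℕ) (m : ℕ) :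
    (if B = ∅ then (1 : ℝ) else 0) ≤
      ∑ T ∈ B.powerset.filter (fun T => T.card ≤ 2 * m), (-1 : ℝ) ^ T.card := by
  have h : ∑ T ∈ B.powerset.filter (fun T => T.card ≤ 2 * m), (-1 : ℝ) ^ T.card =
      ∑ j ∈ Finset.range (2 * m + 1), (-1 : ℝ) ^ j * (B.card.choose j : ℝ) := by
    rw [← Finset.sum_fiberwise_of_maps_to
      (g := fun T : Finset ℕ => T.card) (t := Finset.range (2 * m + 1))]
    · refine Finset.sum_congr rfl fun j hj => ?_
      have e : (B.powerset.filter (fun T => T.card ≤ 2 * m)).filter (fun T => T.card = j) =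
          Finset.powersetCard j B := by
        ext T
        simp only [Finset.mem_filter, Finset.mem_powerset, Finset.mem_powersetCard]
        constructor
        · exact fun h => ⟨h.1.1, h.2⟩
        · rintro ⟨h1, h2⟩
          exact ⟨⟨h1, by have := Finset.mem_range.1 hj; omega⟩, h2⟩
      rw [e, Finset.sum_congr rfl (fun T hT => by rw [(Finset.mem_powersetCard.1 hT).2]),
        Finset.sum_const, Finset.card_powersetCard, nsmul_eq_mul]
      ring
    · intro T hT
      have := (Finset.mem_filter.1 hT).2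
      simp only [Finset.mem_range]
      omega
  rw [h]
  rcases Nat.eq_zero_or_pos B.card with hB | hB
  · rw [hB, if_pos (Finset.card_eq_zero.1 hB)]
    rw [Finset.sum_range_succ']
    simp
  · rw [if_neg (Finset.card_pos.1 hB).ne_empty]
    obtain ⟨n, hn⟩ := Nat.exists_eq_succ_of_ne_zero hB.ne'
    have h3 := Int.alternating_sum_range_choose_eq_choose (n := n) (m := 2 * m)
    have h4 : ∑ j ∈ Finset.range (2 * m + 1), (-1 : ℝ) ^ j * (B.card.choose j : ℝ) =
        (n.choose (2 * m) : ℝ) := by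
      have h5 := congrArg (fun z : ℤ => (z : ℝ)) h3
      push_cast [pow_mul, neg_one_sq, one_pow, one_mul] at h5
      rw [hn]
      exact h5
    rw [h4]
    positivity

theorem sum_pow_card_le (P : Finset ℕ) (κ : ℝ) (hκ : 0 ≤ κ) (m : ℕ) :
    ∑ T ∈ P.powerset.filter (fun T => T.card ≤ 2 * m), κ ^ T.card ≤
      (3 * (κ * P.card + 1)) ^ (2 * m) := by
  rw [← Finset.sum_fiberwise_of_maps_to
    (g := fun T : Finset ℕ => T.card) (t := Finset.range (2 * m + 1))]
  · calc _ ≤ ∑ _j ∈ Finset.range (2 * m + 1), (κ * P.card + 1) ^ (2 * m) := by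
          refine Finset.sum_le_sum fun j hj => ?_
          have hj' : j ≤ 2 * m := by have := Finset.mem_range.1 hj; omega
          have hsub : (P.powerset.filter (fun T => T.card ≤ 2 * m)).filter
              (fun T => T.card = j) ⊆ Finset.powersetCard j P := by
            intro T hT
            simp only [Finset.mem_filter, Finset.mem_powerset] at hT
            exact Finset.mem_powersetCard.2 ⟨hT.1.1, hT.2⟩
          calc _ ≤ ∑ T ∈ Finset.powersetCard j P, κ ^ T.card :=
                Finset.sum_le_sum_of_subset_of_nonneg hsub fun _ _ _ => by positivity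
            _ = (P.card.choose j : ℝ) * κ ^ j := by
                rw [Finset.sum_congr rfl (fun T hT => by rw [(Finset.mem_powersetCard.1 hT).2]),
                  Finset.sum_const, Finset.card_powersetCard, nsmul_eq_mul]
            _ ≤ (P.card : ℝ) ^ j * κ ^ j := by
                gcongr
                exact_mod_cast Nat.choose_le_pow _ _
            _ = (κ * P.card) ^ j := by rw [mul_pow]; ring
            _ ≤ (κ * P.card + 1) ^ j := by gcongr; linarith
            _ ≤ (κ * P.card + 1) ^ (2 * m) := by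
                apply pow_le_pow_right₀ _ hj'
                have : 0 ≤ κ * P.card := by positivity
                linarith
    _ = ((2 * m + 1 : ℕ) : ℝ) * (κ * P.card + 1) ^ (2 * m) := by
          rw [Finset.sum_const, Finset.card_range, nsmul_eq_mul]
    _ ≤ (3 : ℝ) ^ (2 * m) * (κ * P.card + 1) ^ (2 * m) := by
          gcongr
          exact_mod_cast Nat.succ_le_of_lt ((2 * m).lt_pow_self (by norm_num : 1 < 3))
    _ = _ := by rw [mul_pow]
  · intro T hT
    have := (Finset.mem_filter.1 hT).2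
    simp only [Finset.mem_range]
    omega

/-- Pure Brun upper bound. -/
theorem brun_upper (P : Finset ℕ) (hP : ∀ p ∈ P, p.Prime) (hnu : ∀ p ∈ P, nu a b p ≤ k)
    (m N : ℕ) :
    (((Finset.range N).filter (fun w => ∀ p ∈ P, ¬ Bad a b p w)).card : ℝ) ≤
      (N : ℝ) * (Real.exp (-∑ p ∈ P, dens a b p) +
          Real.exp (2 * ∑ p ∈ P, dens a b p) / 4 ^ m) +
        (3 * ((k : ℝ) * P.card + 1)) ^ (2 * m) := by
  set F := P.powerset.filter (fun T => T.card ≤ 2 * m) with hF
  have hd0 : ∀ p, 0 ≤ dens a b p := fun p => by unfold dens; positivity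
  have hd1 : ∀ p ∈ P, dens a b p ≤ 1 := fun p hp => by
    have hp0 : (0 : ℝ) < (p : ℝ) := by exact_mod_cast (hP p hp).pos
    rw [dens, div_le_one hp0]
    exact_mod_cast nu_le_self a b p
  -- step 1: inclusion-exclusion
  have s1 : (((Finset.range N).filter (fun w => ∀ p ∈ P, ¬ Bad a b p w)).card : ℝ) ≤
      ∑ T ∈ F, (-1 : ℝ) ^ T.card * (((Finset.range N).filter (AllBad a b T)).card : ℝ) := by
    have hr : ∑ T ∈ F, (-1 : ℝ) ^ T.card * (((Finset.range N).filter (AllBad a b T)).card : ℝ)
        = ∑ w ∈ Finset.range N, ∑ T ∈ F.filter (fun T => AllBad a b T w), (-1 : ℝ) ^ T.card := by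
      rw [Finset.sum_congr rfl (g := fun T => ∑ w ∈ Finset.range N,
        if AllBad a b T w then (-1 : ℝ) ^ T.card else 0)]
      · rw [Finset.sum_comm]
        exact Finset.sum_congr rfl fun w _ => (Finset.sum_filter _ _).symm
      · intro T _
        rw [← Finset.sum_filter, Finset.sum_const, nsmul_eq_mul]
        ring
    rw [hr, Finset.card_filter, Nat.cast_sum]
    refine Finset.sum_le_sum fun w _ => ?_
    have hset : F.filter (fun T => AllBad a b T w) =
        (P.filter (fun p => Bad a b p w)).powerset.filter (fun T => T.card ≤ 2 * m) := by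
      ext T
      simp only [hF, Finset.mem_filter, Finset.mem_powerset, Finset.subset_iff, AllBad]
      constructor
      · exact fun h => ⟨fun p hp => ⟨h.1.1 hp, h.2 p hp⟩, h.1.2⟩
      · exact fun h => ⟨⟨fun p hp => (h.1 hp).1, h.2⟩, fun p hp => (h.1 hp).2⟩
    rw [hset]
    refine le_trans ?_ (alt_sum_nonneg _ m)
    by_cases hw : ∀ p ∈ P, ¬ Bad a b p w
    · rw [if_pos hw, if_pos (Finset.filter_false_of_mem hw)]
      simp
    · rw [if_neg hw]
      split <;> simp
  -- step 2: each count
  have s2 : ∑ T ∈ F, (-1 : ℝ) ^ T.card * (((Finset.range N).filter (AllBad a b T)).card : ℝ) ≤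
      (N : ℝ) * ∑ T ∈ F, ∏ p ∈ T, (-dens a b p) + ∑ T ∈ F, (k : ℝ) ^ T.card := by
    rw [Finset.mul_sum, ← Finset.sum_add_distrib]
    refine Finset.sum_le_sum fun T hT => ?_
    have hTP : T ⊆ P := Finset.mem_powerset.1 (Finset.mem_filter.1 hT).1
    have h := abs_card_allBad_sub a b T (fun p hp => hP p (hTP hp))
      (fun p hp => hnu p (hTP hp)) N
    rw [Finset.prod_neg]
    rw [abs_le] at h
    rcases neg_one_pow_eq_or ℝ T.card with e | e <;> rw [e] <;> linarith
  -- step 3: main term
  have s3 : ∑ T ∈ F, ∏ p ∈ T, (-dens a b p) ≤ Real.exp (-∑ p ∈ P, dens a b p) +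
      Real.exp (2 * ∑ p ∈ P, dens a b p) / 4 ^ m := by
    have hsplit := Finset.sum_filter_add_sum_filter_not P.powerset
      (fun T => T.card ≤ 2 * m) (fun T => ∏ p ∈ T, (-dens a b p))
    rw [← Finset.prod_one_add] at hsplit
    have hmain : ∏ p ∈ P, (1 + -dens a b p) ≤ Real.exp (-∑ p ∈ P, dens a b p) := by
      rw [← Finset.sum_neg_distrib, Real.exp_sum]
      refine Finset.prod_le_prod (fun p hp => by linarith [hd1 p hp]) fun p _ => ?_
      have := Real.add_one_le_exp (-dens a b p)
      linarith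
    have htail : -∑ T ∈ P.powerset.filter (fun T => ¬ T.card ≤ 2 * m),
        ∏ p ∈ T, (-dens a b p) ≤ Real.exp (2 * ∑ p ∈ P, dens a b p) / 4 ^ m := by
      rw [le_div_iff₀ (by positivity : (0 : ℝ) < 4 ^ m), ← Finset.sum_neg_distrib,
        Finset.sum_mul]
      calc _ ≤ ∑ T ∈ P.powerset.filter (fun T => ¬ T.card ≤ 2 * m),
            ∏ p ∈ T, (2 * dens a b p) := by
            refine Finset.sum_le_sum fun T hT => ?_
            have hc : 2 * m ≤ T.card := by
              have := (Finset.mem_filter.1 hT).2; omega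
            rw [Finset.prod_mul_distrib, Finset.prod_const, Finset.prod_neg]
            have h4 : (4 : ℝ) ^ m ≤ 2 ^ T.card := by
              calc (4 : ℝ) ^ m = 2 ^ (2 * m) := by rw [pow_mul]; norm_num
                _ ≤ 2 ^ T.card := pow_le_pow_right₀ (by norm_num) hc
            have hpr : 0 ≤ ∏ p ∈ T, dens a b p := Finset.prod_nonneg fun p _ => hd0 p
            have hpr4 : (∏ p ∈ T, dens a b p) * 4 ^ m ≤ 2 ^ T.card * ∏ p ∈ T, dens a b p := by
              rw [mul_comm _ ((4 : ℝ) ^ m)]; exact mul_le_mul_of_nonneg_right h4 hpr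
            rcases neg_one_pow_eq_or ℝ T.card with e | e <;> rw [e]
            · have h0 : 0 ≤ 2 ^ T.card * ∏ p ∈ T, dens a b p := by positivity
              have h1 : 0 ≤ (∏ p ∈ T, dens a b p) * 4 ^ m := by positivity
              linarith
            · linarith
        _ ≤ ∑ T ∈ P.powerset, ∏ p ∈ T, (2 * dens a b p) :=
            Finset.sum_le_sum_of_subset_of_nonneg (Finset.filter_subset _ _)
              fun T _ _ => Finset.prod_nonneg fun p _ => by linarith [hd0 p]
        _ = ∏ p ∈ P, (1 + 2 * dens a b p) := (Finset.prod_one_add P).symm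
        _ ≤ ∏ p ∈ P, Real.exp (2 * dens a b p) := by
            refine Finset.prod_le_prod (fun p _ => by linarith [hd0 p]) fun p _ => ?_
            have := Real.add_one_le_exp (2 * dens a b p)
            linarith
        _ = Real.exp (2 * ∑ p ∈ P, dens a b p) := by rw [← Real.exp_sum, Finset.mul_sum]
    linarith [hsplit]
  have s4 := sum_pow_card_le P (k : ℝ) (by positivity) m
  have hN0 : (0 : ℝ) ≤ (N : ℝ) := Nat.cast_nonneg N
  nlinarith [mul_le_mul_of_nonneg_left s3 hN0, s1, s2, s4]

/-- A prime not dividing `c` has a root of `c * w + d`. -/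
theorem exists_root {p c : ℕ} (hp : p.Prime) (hc : ¬ p ∣ c) (d : ℕ) :
    ∃ r < p, p ∣ c * r + d := by
  have := Fact.mk hp
  have hc' : (c : ZMod p) ≠ 0 := by rwa [Ne, ZMod.natCast_eq_zero_iff]
  refine ⟨((-(d : ZMod p)) / (c : ZMod p)).val, ZMod.val_lt _, ?_⟩
  rw [← ZMod.natCast_eq_zero_iff]
  push_cast
  rw [ZMod.natCast_val, ZMod.cast_id]
  field_simp
  ring_nf

theorem nu_le_of_primitive {p : ℕ} (hp : p.Prime) (h : ∀ i, ¬ (p ∣ a i ∧ p ∣ b i)) :
    nu a b p ≤ k := by
  have hsub : (Finset.range p).filter (Bad a b p) ⊆ Finset.univ.biUnion fun i =>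
      (Finset.range p).filter fun r => p ∣ a i * r + b i := by
    intro r hr
    simp only [Finset.mem_filter, Bad] at hr
    obtain ⟨hr1, i, hi⟩ := hr
    simp only [Finset.mem_biUnion, Finset.mem_filter]
    exact ⟨i, Finset.mem_univ i, hr1, hi⟩
  refine (Finset.card_le_card hsub).trans (Finset.card_biUnion_le.trans ?_)
  calc _ ≤ ∑ _i : Fin k, 1 := by
        refine Finset.sum_le_sum fun i _ => Finset.card_le_one.2 ?_
        intro r hr r' hr'
        simp only [Finset.mem_filter, Finset.mem_range] at hr hr'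
        by_cases hai : p ∣ a i
        · exact absurd ⟨hai, (Nat.dvd_add_right (hai.mul_right r)).1 hr.2⟩ (h i)
        · have e : a i * r ≡ a i * r' [MOD p] :=
            Nat.ModEq.add_right_cancel' (b i)
              ((Nat.modEq_zero_iff_dvd.2 hr.2).trans (Nat.modEq_zero_iff_dvd.2 hr'.2).symm)
          exact (Nat.ModEq.cancel_left_of_coprime
            ((Nat.coprime_comm.1 (hp.coprime_iff_not_dvd.2 hai)).symm) e).eq_of_lt_of_lt hr.1 hr'.1
    _ = k := by simp

theorem le_nu_of_generic {p : ℕ} (hp : p.Prime) (ha : ∀ i, ¬ p ∣ a i)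
    (hd : ∀ i j, i ≠ j → ¬ (p : ℤ) ∣ (a i : ℤ) * b j - (a j : ℤ) * b i) :
    k ≤ nu a b p := by
  choose r hr hr' using fun i => exists_root hp (ha i) (b i)
  have hinj : Function.Injective r := by
    intro i j hij
    by_contra hne
    apply hd i j hne
    have h1 : (p : ℤ) ∣ ((a i * r i + b i : ℕ) : ℤ) := Int.natCast_dvd_natCast.2 (hr' i)
    have h2 : (p : ℤ) ∣ ((a j * r j + b j : ℕ) : ℤ) := Int.natCast_dvd_natCast.2 (hr' j)
    push_cast at h1 h2
    rw [hij] at h1
    have h3 := dvd_sub (h2.mul_left (a i : ℤ)) (h1.mul_left (a j : ℤ))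
    rw [show (a i : ℤ) * b j - (a j : ℤ) * b i =
      (a i : ℤ) * ((a j : ℤ) * r j + b j) - (a j : ℤ) * ((a i : ℤ) * r j + b i) by ring]
    exact h3
  have hsub : Finset.univ.image r ⊆ (Finset.range p).filter (Bad a b p) := by
    intro x hx
    obtain ⟨i, -, rfl⟩ := Finset.mem_image.1 hx
    exact Finset.mem_filter.2 ⟨Finset.mem_range.2 (hr i), i, hr' i⟩
  have := Finset.card_le_card hsub
  rwa [Finset.card_image_of_injective _ hinj, Finset.card_univ, Fintype.card_fin] at this

end Vale.Agent.P031.Brun
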