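import Mathlib
import Vale.Agent.P031.Defs
import Vale.Agent.P031.Mertens
import Vale.Agent.P031.BrunSieve

/-!
# P031 Q2, section 1: the sieve bounds

Pure Brun for at most three linear forms, with losses a power of `L`.
-/

open scoped Classical
noncomputable section

namespace Vale.Agent.P031

open Real

theorem brun_card_primeFactors_le (n : ℕ) :
    (n.primeFactors.card : ℝ) ≤ 2 * Real.log n := by
  rcases Nat.eq_zero_or_pos n with rfl | hn
  · simp
  have h1 : 2 ^ n.primeFactors.card ≤ n :=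
    (Finset.pow_card_le_prod n.primeFactors id 2
      fun p hp => (Nat.prime_of_mem_primeFactors hp).two_le).trans
      (Nat.le_of_dvd hn (Nat.prod_primeFactors_dvd n))
  have h2 : (2 : ℝ) ^ n.primeFactors.card ≤ (n : ℝ) := by exact_mod_cast h1
  have h3 := Real.log_le_log (by positivity) h2
  rw [Real.log_pow] at h3
  have h4 : (1 / 2 : ℝ) ≤ Real.log 2 := by linarith [Real.log_two_gt_d9]
  have h5 := mul_le_mul_of_nonneg_left h4 (Nat.cast_nonneg (α := ℝ) n.primeFactors.card)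
  linarith

theorem brun_small_set_sum : ∃ C : ℝ, 0 ≤ C ∧ ∀ (L : ℝ) (T : Finset ℕ), 2 ≤ L →
    (∀ p ∈ T, p.Prime) → (T.card : ℝ) ≤ Real.exp (2 * L + 4) →
    ∑ p ∈ T, (1 : ℝ) / p ≤ Real.log L + C := by
  obtain ⟨C, hC0, hC⟩ := mertens_upTo
  refine ⟨C + Real.log 4 + 1,
    by linarith [Real.log_nonneg (by norm_num : (1 : ℝ) ≤ 4)], fun L T hL hT hc => ?_⟩
  set N := Real.exp (2 * L + 4)
  have hN2 : 2 ≤ N := le_trans (by linarith) (Real.add_one_le_exp (2 * L + 4))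
  have hN0 : 0 < N := Real.exp_pos _
  rw [← Finset.sum_filter_add_sum_filter_not T (fun p : ℕ => (p : ℝ) ≤ N)]
  have h1 : ∑ p ∈ T.filter (fun p : ℕ => (p : ℝ) ≤ N), (1 : ℝ) / p ≤
      Real.log L + Real.log 4 + C := by
    calc _ ≤ ∑ p ∈ primesUpTo N, (1 : ℝ) / p := by
          refine Finset.sum_le_sum_of_subset_of_nonneg (fun p hp => ?_) fun _ _ _ => by positivity
          rw [Finset.mem_filter] at hp
          exact (mem_primesUpTo hN0.le).2 ⟨hT p hp.1, hp.2⟩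
      _ ≤ lam N + C := by linarith [(abs_le.1 (hC N hN2)).2]
      _ ≤ _ := by
          unfold lam
          rw [Real.log_exp]
          have : Real.log (2 * L + 4) ≤ Real.log (4 * L) :=
            Real.log_le_log (by linarith) (by linarith)
          rw [Real.log_mul (by norm_num) (by linarith)] at this
          linarith
  have h2 : ∑ p ∈ T.filter (fun p : ℕ => ¬(p : ℝ) ≤ N), (1 : ℝ) / p ≤ 1 := by
    calc _ ≤ ∑ _p ∈ T.filter (fun p : ℕ => ¬(p : ℝ) ≤ N), 1 / N := by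
          refine Finset.sum_le_sum fun p hp => ?_
          exact one_div_le_one_div_of_le hN0 (not_le.1 (Finset.mem_filter.1 hp).2).le
      _ = ((T.filter (fun p : ℕ => ¬(p : ℝ) ≤ N)).card : ℝ) / N := by
          rw [Finset.sum_const, nsmul_eq_mul]; ring
      _ ≤ 1 := by
          rw [div_le_one hN0]
          exact le_trans (by exact_mod_cast Finset.card_filter_le _ _) hc
  linarith

theorem brun_primesUpTo_card_le {z : ℝ} (hz : 0 ≤ z) : ((primesUpTo z).card : ℝ) ≤ z := by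
  have h : primesUpTo z ⊆ Finset.Icc 1 ⌊z⌋₊ := by
    intro p hp
    obtain ⟨hp1, hp2⟩ := (mem_primesUpTo hz).1 hp
    exact Finset.mem_Icc.2 ⟨hp1.one_lt.le, Nat.le_floor hp2⟩
  have h' := Finset.card_le_card h
  simp only [Nat.card_Icc, add_tsub_cancel_right] at h'
  exact le_trans (Nat.cast_le.2 h') (Nat.floor_le hz)

theorem brun_log_pow_le_sqrt {X : ℝ} (hX : 1 ≤ X) {k : ℕ} (hk : k ≤ 3) :
    Real.log X ^ k ≤ 216 * Real.sqrt X := by
  have hX0 : (0 : ℝ) < X := by linarith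
  have h6 : Real.log X ≤ 6 * X ^ (1 / 6 : ℝ) := by
    have := Real.log_le_rpow_div hX0.le (by norm_num : (0 : ℝ) < 1 / 6)
    linarith [show X ^ (1 / 6 : ℝ) / (1 / 6) = 6 * X ^ (1 / 6 : ℝ) by ring]
  have hge : (1 : ℝ) ≤ X ^ (1 / 6 : ℝ) := Real.one_le_rpow hX (by norm_num)
  calc Real.log X ^ k ≤ (6 * X ^ (1 / 6 : ℝ)) ^ k := pow_le_pow_left₀ (Real.log_nonneg hX) h6 k
    _ ≤ (6 * X ^ (1 / 6 : ℝ)) ^ 3 := pow_le_pow_right₀ (by linarith) hk
    _ = 216 * Real.sqrt X := by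
        rw [mul_pow, ← Real.rpow_natCast (X ^ (1 / 6 : ℝ)) 3, ← Real.rpow_mul hX0.le,
          Real.sqrt_eq_rpow]
        norm_num

/-- Constants are absorbed by powers of `L ≥ 2`. -/
theorem brun_absorb {M E : ℝ} (hM : 1 ≤ M) (hE : 0 ≤ E) :
    ∃ C : ℝ, 0 ≤ C ∧ ∀ L : ℝ, 2 ≤ L → M * L ^ E ≤ L ^ C := by
  refine ⟨Real.log M / Real.log 2 + E,
    add_nonneg (div_nonneg (Real.log_nonneg hM) (Real.log_nonneg one_le_two)) hE, fun L hL => ?_⟩
  rw [Real.rpow_add (by linarith)]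
  refine mul_le_mul_of_nonneg_right ?_ (Real.rpow_nonneg (by linarith) _)
  rw [Real.rpow_def_of_pos (by linarith)]
  calc M = Real.exp (Real.log M) := (Real.exp_log (by linarith)).symm
    _ ≤ _ := by
        refine Real.exp_le_exp.2 ?_
        have h2 : (0 : ℝ) < Real.log 2 := Real.log_pos one_lt_two
        have h3 : Real.log 2 ≤ Real.log L := Real.log_le_log two_pos hL
        calc Real.log M = Real.log 2 * (Real.log M / Real.log 2) := by field_simp
          _ ≤ Real.log L * (Real.log M / Real.log 2) :=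
              mul_le_mul_of_nonneg_right h3 (div_nonneg (Real.log_nonneg hM) h2.le)

theorem brun_log_le_exp {X L : ℝ} (hX : 2 ≤ X) (h : lam X ≤ 2 * L) :
    Real.log X ≤ Real.exp (2 * L) := by
  unfold lam at h
  exact (Real.log_le_iff_le_exp (Real.log_pos (by linarith))).1 h

/-- The mean density of bad residues, from below. -/
theorem brun_dens_sum_ge : ∃ C : ℝ, 0 ≤ C ∧ ∀ (L z : ℝ) (k : ℕ) (a b : Fin k → ℕ), k ≤ 3 →
    2 ≤ L → 2 ≤ z →
    (∀ i, 1 ≤ a i ∧ (a i : ℝ) ≤ Real.exp (Real.exp (2 * L)) ∧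
      (b i : ℝ) ≤ Real.exp (Real.exp (2 * L))) →
    (Pairwise fun i j => a i * b j ≠ a j * b i) →
    (k : ℝ) * (lam z - Real.log L - C) ≤ ∑ p ∈ primesUpTo z, Brun.dens a b p := by
  obtain ⟨C1, hC10, hC1⟩ := mertens_upTo
  obtain ⟨C2, hC20, hC2⟩ := brun_small_set_sum
  refine ⟨C1 + C2, by linarith, fun L z k a b hk hL hz hab hdet => ?_⟩
  set E := Real.exp (Real.exp (2 * L)) with hE
  set T := (primesUpTo z).filter (fun p : ℕ => (∃ i, p ∣ a i) ∨
    ∃ i j, i ≠ j ∧ (p : ℤ) ∣ (a i : ℤ) * b j - (a j : ℤ) * b i) with hTdef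
  have hTcard : (T.card : ℝ) ≤ Real.exp (2 * L + 4) := by
    have hsub : T ⊆ (Finset.univ.biUnion fun i => (a i).primeFactors) ∪
        ((Finset.univ : Finset (Fin k × Fin k)).biUnion fun q =>
          ((a q.1 : ℤ) * b q.2 - (a q.2 : ℤ) * b q.1).natAbs.primeFactors) := by
      intro p hp
      obtain ⟨hp1, hp2⟩ := Finset.mem_filter.1 hp
      have hpp := primesUpTo_prime hp1
      rcases hp2 with ⟨i, hi⟩ | ⟨i, j, hij, hd⟩
      · exact Finset.mem_union_left _ (Finset.mem_biUnion.2 ⟨i, Finset.mem_univ _,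
          Nat.mem_primeFactors.2 ⟨hpp, hi, by have := (hab i).1; omega⟩⟩)
      · refine Finset.mem_union_right _ (Finset.mem_biUnion.2 ⟨(i, j), Finset.mem_univ _,
          Nat.mem_primeFactors.2 ⟨hpp, Int.natCast_dvd.1 hd, ?_⟩⟩)
        intro h0
        have := hdet hij
        apply this
        have h1 : (a i : ℤ) * b j = (a j : ℤ) * b i := sub_eq_zero.1 (Int.natAbs_eq_zero.1 h0)
        exact_mod_cast h1
    have hc : T.card ≤ ∑ i, (a i).primeFactors.card + ∑ q : Fin k × Fin k,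
        ((a q.1 : ℤ) * b q.2 - (a q.2 : ℤ) * b q.1).natAbs.primeFactors.card :=
      (Finset.card_le_card hsub).trans ((Finset.card_union_le _ _).trans
        (Nat.add_le_add Finset.card_biUnion_le Finset.card_biUnion_le))
    have hlogE : Real.log E = Real.exp (2 * L) := by rw [hE, Real.log_exp]
    have hk3 : (k : ℝ) ≤ 3 := by exact_mod_cast hk
    have he0 : 0 < Real.exp (2 * L) := Real.exp_pos _
    have h1 : ∀ i, ((a i).primeFactors.card : ℝ) ≤ 2 * Real.exp (2 * L) := fun i => by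
      refine (brun_card_primeFactors_le _).trans ?_
      have h := Real.log_le_log (by exact_mod_cast (hab i).1) (hab i).2.1
      linarith
    have h2 : ∀ q : Fin k × Fin k,
        ((((a q.1 : ℤ) * b q.2 - (a q.2 : ℤ) * b q.1).natAbs.primeFactors.card : ℕ) : ℝ) ≤
          4 * Real.exp (2 * L) := fun q => by
      refine (brun_card_primeFactors_le _).trans ?_
      have hEpos : 0 < E := Real.exp_pos _
      have hab1 : ((((a q.1 : ℤ) * b q.2 - (a q.2 : ℤ) * b q.1).natAbs : ℕ) : ℝ) ≤ E * E := by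
        rw [Nat.cast_natAbs]
        push_cast
        rw [abs_le]
        have x1 := (hab q.1).2
        have x2 := (hab q.2).2
        have y1 : (a q.1 : ℝ) * b q.2 ≤ E * E :=
          mul_le_mul x1.1 x2.2 (Nat.cast_nonneg _) hEpos.le
        have y2 : (a q.2 : ℝ) * b q.1 ≤ E * E :=
          mul_le_mul x2.1 x1.2 (Nat.cast_nonneg _) hEpos.le
        have y3 : 0 ≤ (a q.1 : ℝ) * b q.2 := by positivity
        have y4 : 0 ≤ (a q.2 : ℝ) * b q.1 := by positivity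
        constructor <;> linarith
      rcases Nat.eq_zero_or_pos ((a q.1 : ℤ) * b q.2 - (a q.2 : ℤ) * b q.1).natAbs with h0 | h0
      · rw [h0]; simp; positivity
      · have h := Real.log_le_log (by exact_mod_cast h0) hab1
        rw [Real.log_mul hEpos.ne' hEpos.ne'] at h
        linarith
    have hc' : (T.card : ℝ) ≤ (∑ i, ((a i).primeFactors.card : ℝ)) + ∑ q : Fin k × Fin k,
        ((((a q.1 : ℤ) * b q.2 - (a q.2 : ℤ) * b q.1).natAbs.primeFactors.card : ℕ) : ℝ) := by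
      exact_mod_cast hc
    have h3 := Finset.sum_le_sum (s := Finset.univ) fun i _ => h1 i
    have h4 := Finset.sum_le_sum (s := Finset.univ) fun q _ => h2 q
    simp only [Finset.sum_const, Finset.card_univ, Fintype.card_fin, Fintype.card_prod,
      nsmul_eq_mul, Nat.cast_mul] at h3 h4
    have h42 : (42 : ℝ) ≤ Real.exp 4 := by
      rw [show (4 : ℝ) = 1 * (4 : ℕ) by norm_num, mul_comm, Real.exp_nat_mul]
      exact le_trans (by norm_num)
        (pow_le_pow_left₀ (by norm_num) Real.exp_one_gt_d9.le 4)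
    have hk0 : (0 : ℝ) ≤ k := Nat.cast_nonneg k
    have hkk : (k : ℝ) * k ≤ 9 := by nlinarith
    have h5 : 42 * Real.exp (2 * L) ≤ Real.exp (2 * L + 4) := by
      rw [Real.exp_add, mul_comm (Real.exp (2 * L))]
      exact mul_le_mul_of_nonneg_right h42 he0.le
    nlinarith
  have hT := hC2 L T hL (fun p hp => primesUpTo_prime (Finset.mem_filter.1 hp).1) hTcard
  have hS := (abs_le.1 (hC1 z hz)).1
  have hdens : (k : ℝ) * ∑ p ∈ primesUpTo z, (1 : ℝ) / p - (k : ℝ) * ∑ p ∈ T, (1 : ℝ) / p ≤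
      ∑ p ∈ primesUpTo z, Brun.dens a b p := by
    rw [hTdef, Finset.sum_filter, Finset.mul_sum, Finset.mul_sum, ← Finset.sum_sub_distrib]
    refine Finset.sum_le_sum fun p hp => ?_
    split_ifs with h
    · have : (0 : ℝ) ≤ Brun.dens a b p := by unfold Brun.dens; positivity
      linarith
    · push Not at h
      have hn : (k : ℝ) ≤ (Brun.nu a b p : ℝ) := by
        exact_mod_cast Brun.le_nu_of_generic a b (primesUpTo_prime hp) h.1
          fun i j hij => h.2 i j hij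
      rw [mul_zero, sub_zero, Brun.dens, mul_one_div]
      gcongr
  nlinarith [Nat.cast_nonneg (α := ℝ) k]

theorem brun_err_le {X L Z P : ℝ} {k : ℕ} {m : ℕ} {C1 : ℝ} (hX : 2 ≤ X) (hk : k ≤ 3)
    (hL : 24 * (6 * C1 + 20) ≤ L) (hL2 : 2 ≤ L) (hC1 : 0 ≤ C1) (hZ : Z = X ^ (1 / L ^ 2))
    (hZ2 : 2 ≤ Z) (hP : 0 ≤ P) (hPZ : P ≤ Z) (hm : (m : ℝ) ≤ 18 * L + 6 * C1 + 1) :
    (3 * ((k : ℝ) * P + 1)) ^ (2 * m) ≤ 216 * (X / Real.log X ^ k) := by
  have hX0 : (0 : ℝ) < X := by linarith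
  have hlogXk : 0 < Real.log X ^ k := pow_pos (Real.log_pos (by linarith)) k
  have hk3 : (k : ℝ) ≤ 3 := by exact_mod_cast hk
  have h1 : 3 * ((k : ℝ) * P + 1) ≤ Z ^ 6 := by
    have h32 : (32 : ℝ) ≤ Z ^ 5 := by
      have := pow_le_pow_left₀ (by norm_num) hZ2 5
      linarith
    have h2 : (k : ℝ) * P ≤ 3 * Z := mul_le_mul hk3 hPZ hP (by norm_num)
    have h3 : 32 * Z ≤ Z ^ 5 * Z := mul_le_mul_of_nonneg_right h32 (by linarith)
    rw [pow_succ]
    linarith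
  have hm' : (m : ℝ) ≤ (6 * C1 + 20) * L := by
    have h2 : 6 * C1 * 1 ≤ 6 * C1 * L := mul_le_mul_of_nonneg_left (by linarith) (by linarith)
    linarith
  have h2 : (3 * ((k : ℝ) * P + 1)) ^ (2 * m) ≤ Real.sqrt X := by
    refine (pow_le_pow_left₀ (by positivity) h1 (2 * m)).trans ?_
    rw [← pow_mul, hZ, ← Real.rpow_natCast (X ^ (1 / L ^ 2)), ← Real.rpow_mul hX0.le,
      Real.sqrt_eq_rpow]
    refine Real.rpow_le_rpow_of_exponent_le (by linarith) ?_
    rw [div_mul_eq_mul_div, one_mul, div_le_iff₀ (by positivity)]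
    push_cast
    have h4 := mul_le_mul_of_nonneg_right hL (by linarith : (0 : ℝ) ≤ L)
    linarith
  refine h2.trans ?_
  rw [← mul_div_assoc, le_div_iff₀ hlogXk]
  calc Real.sqrt X * Real.log X ^ k ≤ Real.sqrt X * (216 * Real.sqrt X) :=
        mul_le_mul_of_nonneg_left (brun_log_pow_le_sqrt (by linarith) hk) (Real.sqrt_nonneg X)
    _ = 216 * X := by
        rw [show Real.sqrt X * (216 * Real.sqrt X) = 216 * (Real.sqrt X * Real.sqrt X) by ring,
          Real.mul_self_sqrt hX0.le]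

theorem brun_main_le {X L D C3 : ℝ} {k : ℕ} (hX : 2 ≤ X) (hk : k ≤ 3) (hL : 2 ≤ L) (hC3 : 0 ≤ C3)
    (h : (k : ℝ) * (lam X - 2 * Real.log L - Real.log L - C3) ≤ D) :
    Real.exp (-D) ≤ Real.exp (3 * C3) * L ^ 9 / Real.log X ^ k := by
  have hlogX : 0 < Real.log X := Real.log_pos (by linarith)
  have hk3 : (k : ℝ) ≤ 3 := by exact_mod_cast hk
  rw [le_div_iff₀ (pow_pos hlogX k)]
  have e1 : Real.log X ^ k = Real.exp ((k : ℝ) * lam X) := by
    unfold lam; rw [Real.exp_nat_mul, Real.exp_log hlogX]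
  have e2 : L ^ 9 = Real.exp (((9 : ℕ) : ℝ) * Real.log L) := by
    rw [Real.exp_nat_mul, Real.exp_log (by linarith : (0 : ℝ) < L)]
  rw [e1, e2, ← Real.exp_add, ← Real.exp_add]
  refine Real.exp_le_exp.2 ?_
  push_cast
  have h1 := mul_nonneg (sub_nonneg.2 hk3) hC3
  have h2 := mul_nonneg (sub_nonneg.2 hk3) (Real.log_nonneg (by linarith : (1 : ℝ) ≤ L))
  linarith

/-- Pure Brun for `k ≤ 3` linear forms. -/
theorem brun_forms : ∃ C : ℝ, 0 ≤ C ∧ ∀ (L X : ℝ) (k : ℕ) (a b : Fin k → ℕ), k ≤ 3 → 2 ≤ L →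
    2 ≤ X → lam X ≤ 2 * L →
    (∀ i, 1 ≤ a i ∧ (a i : ℝ) ≤ Real.exp (Real.exp (2 * L)) ∧
      (b i : ℝ) ≤ Real.exp (Real.exp (2 * L))) →
    (Pairwise fun i j => a i * b j ≠ a j * b i) →
    (((Finset.range (⌊X⌋₊ + 1)).filter fun w => ∀ i, ∀ p : ℕ, p.Prime →
      (p : ℝ) ≤ X ^ (1 / L ^ 2) → ¬ p ∣ a i * w + b i).card : ℝ) ≤
      L ^ C * X / Real.log X ^ k := by
  obtain ⟨C1, hC10, hC1⟩ := mertens_upTo
  obtain ⟨C3, hC30, hC3⟩ := brun_dens_sum_ge
  set L0 : ℝ := 24 * (6 * C1 + 20)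
  set M : ℝ := 2 * Real.exp (6 * L0) + 2 * Real.exp (3 * C3) + 2 + 216 + 2
  obtain ⟨C, hC0, hC⟩ := brun_absorb (M := M) (E := 9)
    (by have := Real.exp_pos (6 * L0); have := Real.exp_pos (3 * C3); linarith) (by norm_num)
  refine ⟨C, hC0, fun L X k a b hk hL hX hlam hab hdet => ?_⟩
  have hX0 : (0 : ℝ) < X := by linarith
  have hlogX : 0 < Real.log X := Real.log_pos (by linarith)
  have hlogXk : 0 < Real.log X ^ k := pow_pos hlogX k
  set S := (Finset.range (⌊X⌋₊ + 1)).filter fun w => ∀ i, ∀ p : ℕ, p.Prime →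
      (p : ℝ) ≤ X ^ (1 / L ^ 2) → ¬ p ∣ a i * w + b i with hS
  suffices h : (S.card : ℝ) ≤ M * L ^ (9 : ℝ) * X / Real.log X ^ k by
    refine h.trans ?_
    gcongr
    exact hC L hL
  rw [show (9 : ℝ) = ((9 : ℕ) : ℝ) by norm_num, Real.rpow_natCast]
  have hL9 : (1 : ℝ) ≤ L ^ 9 := one_le_pow₀ (by linarith)
  have hlogexp := brun_log_le_exp hX hlam
  have hN : ((⌊X⌋₊ + 1 : ℕ) : ℝ) ≤ 2 * X := by
    push_cast; linarith [Nat.floor_le hX0.le]
  have htriv : ∀ R : ℝ, Real.log X ^ k ≤ R →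
      (S.card : ℝ) ≤ 2 * R * X / Real.log X ^ k := by
    intro R hR
    have h1 : (S.card : ℝ) ≤ 2 * X := by
      refine le_trans ?_ hN
      exact_mod_cast le_trans (Finset.card_filter_le _ _) (Finset.card_range _).le
    rw [le_div_iff₀ hlogXk]
    calc (S.card : ℝ) * Real.log X ^ k ≤ 2 * X * R :=
          mul_le_mul h1 hR hlogXk.le (by linarith)
      _ = 2 * R * X := by ring
  have hpos1 := Real.exp_pos (6 * L0)
  have hpos3 := Real.exp_pos (3 * C3)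
  rcases lt_or_ge L L0 with hLL | hLL
  · have hR : Real.log X ^ k ≤ Real.exp (6 * L0) := by
      calc Real.log X ^ k ≤ Real.exp (2 * L0) ^ k := by
            refine pow_le_pow_left₀ hlogX.le (hlogexp.trans (Real.exp_le_exp.2 ?_)) k
            linarith
        _ ≤ Real.exp (2 * L0) ^ 3 := pow_le_pow_right₀ (Real.one_le_exp (by positivity)) hk
        _ = _ := by rw [← Real.exp_nat_mul]; ring_nf
    refine (htriv _ hR).trans ?_
    gcongr ?_ * X / _
    calc 2 * Real.exp (6 * L0) ≤ M * 1 := by linarith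
      _ ≤ M * L ^ 9 := mul_le_mul_of_nonneg_left hL9 (by linarith)
  set Z := X ^ (1 / L ^ 2) with hZ
  have hZ0 : 0 < Z := Real.rpow_pos_of_pos hX0 _
  have hlogZ : Real.log Z = Real.log X / L ^ 2 := by
    rw [hZ, Real.log_rpow hX0]; ring
  have hL2 : (0 : ℝ) < L ^ 2 := by positivity
  rcases lt_or_ge Z 2 with hZ2 | hZ2
  · have hlx : Real.log X ≤ L ^ 2 := by
      have h1 : Real.log Z ≤ 1 := by
        have := Real.log_le_log hZ0 hZ2.le
        linarith [Real.log_two_lt_d9]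
      rw [hlogZ, div_le_one hL2] at h1
      exact h1
    have hR : Real.log X ^ k ≤ L ^ 6 := by
      calc Real.log X ^ k ≤ (L ^ 2) ^ k := pow_le_pow_left₀ hlogX.le hlx k
        _ ≤ (L ^ 2) ^ 3 := pow_le_pow_right₀ (by nlinarith) hk
        _ = L ^ 6 := by ring
    refine (htriv _ hR).trans ?_
    gcongr ?_ * X / _
    calc 2 * L ^ 6 ≤ 2 * L ^ 9 := by gcongr <;> linarith
      _ ≤ M * L ^ 9 := mul_le_mul_of_nonneg_right (by linarith) (by positivity)
  by_cases hprim : ∀ p : ℕ, p.Prime → (p : ℝ) ≤ Z → ∀ i, ¬ (p ∣ a i ∧ p ∣ b i)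
  swap
  · push Not at hprim
    obtain ⟨p, hp, hpZ, i, h1, h2⟩ := hprim
    have hempty : S = ∅ := Finset.filter_false_of_mem fun w _ h =>
      h i p hp hpZ (dvd_add (h1.mul_right w) h2)
    have hM0 : 0 ≤ M := by linarith
    rw [hempty]; simp; positivity
  set P := primesUpTo Z with hP
  have hPp : ∀ p ∈ P, p.Prime := fun p hp => primesUpTo_prime hp
  have hPz : ∀ p ∈ P, (p : ℝ) ≤ Z := fun p hp => ((mem_primesUpTo hZ0.le).1 hp).2
  have hnu : ∀ p ∈ P, Brun.nu a b p ≤ k := fun p hp =>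
    Brun.nu_le_of_primitive a b (hPp p hp) (hprim p (hPp p hp) (hPz p hp))
  set m := ⌈18 * L + 6 * C1⌉₊
  have hmain := Brun.brun_upper a b P hPp hnu m (⌊X⌋₊ + 1)
  have hsub : (S.card : ℝ) ≤
      (((Finset.range (⌊X⌋₊ + 1)).filter fun w => ∀ p ∈ P, ¬ Brun.Bad a b p w).card : ℝ) := by
    refine Nat.cast_le.2 (Finset.card_le_card fun w hw => ?_)
    simp only [hS, Finset.mem_filter] at hw ⊢
    exact ⟨hw.1, fun p hp ⟨i, hi⟩ => hw.2 i p (hPp p hp) (hPz p hp) hi⟩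
  have hk3 : (k : ℝ) ≤ 3 := by exact_mod_cast hk
  have hk0 : (0 : ℝ) ≤ k := Nat.cast_nonneg k
  have hlamZ : lam Z = lam X - 2 * Real.log L := by
    unfold lam
    rw [hlogZ, Real.log_div hlogX.ne' hL2.ne', Real.log_pow]
    push_cast; ring
  have hlogL : 0 ≤ Real.log L := Real.log_nonneg (by linarith)
  -- main term
  have hE1 : Real.exp (-∑ p ∈ P, Brun.dens a b p) ≤
      Real.exp (3 * C3) * L ^ 9 / Real.log X ^ k := by
    have h := hC3 L Z k a b hk hL hZ2 hab hdet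
    rw [hlamZ] at h
    exact brun_main_le hX hk hL hC30 h
  -- tail
  have hE2 : Real.exp (2 * ∑ p ∈ P, Brun.dens a b p) / 4 ^ m ≤ 1 / Real.log X ^ k := by
    have h1 : ∑ p ∈ P, Brun.dens a b p ≤ 3 * (2 * L + C1) := by
      calc ∑ p ∈ P, Brun.dens a b p ≤ ∑ p ∈ P, 3 * ((1 : ℝ) / p) := by
            refine Finset.sum_le_sum fun p hp => ?_
            rw [Brun.dens, mul_one_div]
            gcongr
            exact le_trans (by exact_mod_cast hnu p hp) hk3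
        _ = 3 * ∑ p ∈ P, (1 : ℝ) / p := by rw [Finset.mul_sum]
        _ ≤ _ := by
            have := (abs_le.1 (hC1 Z hZ2)).2
            rw [hlamZ] at this
            linarith
    have h2 : Real.log X ^ k ≤ Real.exp (6 * L) := by
      calc Real.log X ^ k ≤ Real.exp (2 * L) ^ k := pow_le_pow_left₀ hlogX.le hlogexp k
        _ ≤ Real.exp (2 * L) ^ 3 := pow_le_pow_right₀ (Real.one_le_exp (by linarith)) hk
        _ = _ := by rw [← Real.exp_nat_mul]; ring_nf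
    have h3 : Real.exp (18 * L + 6 * C1) ≤ (4 : ℝ) ^ m := by
      refine (Real.exp_le_exp.2 (Nat.le_ceil _)).trans ?_
      rw [← mul_one (m : ℝ), Real.exp_nat_mul]
      exact pow_le_pow_left₀ (Real.exp_pos 1).le (by linarith [Real.exp_one_lt_d9]) m
    rw [div_le_div_iff₀ (by positivity) hlogXk, one_mul]
    calc Real.exp (2 * ∑ p ∈ P, Brun.dens a b p) * Real.log X ^ k ≤
        Real.exp (12 * L + 6 * C1) * Real.exp (6 * L) :=
          mul_le_mul (Real.exp_le_exp.2 (by linarith)) h2 hlogXk.le (Real.exp_pos _).le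
      _ = Real.exp (18 * L + 6 * C1) := by rw [← Real.exp_add]; ring_nf
      _ ≤ _ := h3
  -- error
  have hE3 : (3 * ((k : ℝ) * P.card + 1)) ^ (2 * m) ≤ 216 * (X / Real.log X ^ k) :=
    brun_err_le hX hk hLL hL hC10 hZ hZ2 (Nat.cast_nonneg _)
      (brun_primesUpTo_card_le hZ0.le) (Nat.ceil_lt_add_one (by positivity)).le
  refine hsub.trans (hmain.trans ?_)
  have hpos : 0 ≤ Real.exp (-∑ p ∈ P, Brun.dens a b p) +
      Real.exp (2 * ∑ p ∈ P, Brun.dens a b p) / 4 ^ m := by positivity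
  refine (add_le_add (mul_le_mul hN (add_le_add hE1 hE2) hpos (by linarith)) hE3).trans ?_
  rw [show 2 * X * (Real.exp (3 * C3) * L ^ 9 / Real.log X ^ k + 1 / Real.log X ^ k) +
      216 * (X / Real.log X ^ k) =
      (2 * Real.exp (3 * C3) * L ^ 9 + 218) * X / Real.log X ^ k by ring]
  gcongr ?_ * X / _
  calc _ ≤ (2 * Real.exp (3 * C3) + 218) * L ^ 9 := by linarith
    _ ≤ M * L ^ 9 := mul_le_mul_of_nonneg_right (by linarith) (by positivity)

/-- The same bound when each form is prime or free of small primes. -/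
theorem brun_forms_prime : ∃ C : ℝ, 0 ≤ C ∧ ∀ (L X : ℝ) (k : ℕ) (a b : Fin k → ℕ) (S : Finset ℕ),
    k ≤ 3 → 2 ≤ L → 2 ≤ X → lam X ≤ 2 * L →
    (∀ i, 1 ≤ a i ∧ (a i : ℝ) ≤ Real.exp (Real.exp (2 * L)) ∧
      (b i : ℝ) ≤ Real.exp (Real.exp (2 * L))) →
    (Pairwise fun i j => a i * b j ≠ a j * b i) →
    (∀ w ∈ S, (w : ℝ) ≤ X ∧ ∀ i, (a i * w + b i).Prime ∨ ∀ p : ℕ, p.Prime →
      (p : ℝ) ≤ X ^ (1 / L ^ 2) → ¬ p ∣ a i * w + b i) →
    (S.card : ℝ) ≤ L ^ C * X / Real.log X ^ k := by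
  obtain ⟨C0, hC00, hC0⟩ := brun_forms
  obtain ⟨C, hC0', hC⟩ := brun_absorb (M := 433) (E := C0) (by norm_num) hC00
  refine ⟨C, hC0', fun L X k a b S hk hL hX hlam hab hdet hS => ?_⟩
  have hX0 : (0 : ℝ) < X := by linarith
  have hlogXk : 0 < Real.log X ^ k := pow_pos (Real.log_pos (by linarith)) k
  set Z := X ^ (1 / L ^ 2) with hZ
  have hsub : S ⊆ ((Finset.range (⌊X⌋₊ + 1)).filter fun w => ∀ i, ∀ p : ℕ, p.Prime →
      (p : ℝ) ≤ Z → ¬ p ∣ a i * w + b i) ∪ Finset.range (⌊Z⌋₊ + 1) := by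
    intro w hw
    obtain ⟨hwX, hw2⟩ := hS w hw
    simp only [Finset.mem_union, Finset.mem_filter, Finset.mem_range, Nat.lt_succ_iff]
    by_cases hwZ : w ≤ ⌊Z⌋₊
    · exact Or.inr hwZ
    refine Or.inl ⟨Nat.le_floor hwX, fun i p hp hpZ hdvd => ?_⟩
    rcases hw2 i with h | h
    · have hpe : p = a i * w + b i := (Nat.prime_dvd_prime_iff_eq hp h).1 hdvd
      have h1 : p ≤ ⌊Z⌋₊ := Nat.le_floor hpZ
      have h2 : w ≤ a i * w := Nat.le_mul_of_pos_left w (hab i).1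
      omega
    · exact h p hp hpZ hdvd
  have hc : (S.card : ℝ) ≤ L ^ C0 * X / Real.log X ^ k + (Z + 1) := by
    have h1 := (Finset.card_le_card hsub).trans (Finset.card_union_le _ _)
    rw [Finset.card_range] at h1
    refine (Nat.cast_le.2 h1).trans ?_
    push_cast
    exact add_le_add (hC0 L X k a b hk hL hX hlam hab hdet)
      (by linarith [Nat.floor_le (Real.rpow_nonneg hX0.le (1 / L ^ 2))])
  have hZs : Z + 1 ≤ 432 * (X / Real.log X ^ k) := by
    have h1 : Z ≤ Real.sqrt X := by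
      rw [hZ, Real.sqrt_eq_rpow]
      refine Real.rpow_le_rpow_of_exponent_le (by linarith) ?_
      rw [div_le_div_iff₀ (by positivity) (by norm_num)]
      nlinarith
    have h2 : (1 : ℝ) ≤ Real.sqrt X := Real.one_le_sqrt.2 (by linarith)
    rw [← mul_div_assoc, le_div_iff₀ hlogXk]
    calc (Z + 1) * Real.log X ^ k ≤ (2 * Real.sqrt X) * (216 * Real.sqrt X) :=
          mul_le_mul (by linarith) (brun_log_pow_le_sqrt (by linarith) hk) hlogXk.le (by positivity)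
      _ = 432 * X := by
          rw [show (2 * Real.sqrt X) * (216 * Real.sqrt X) =
            432 * (Real.sqrt X * Real.sqrt X) by ring, Real.mul_self_sqrt hX0.le]
  have h1 : (1 : ℝ) ≤ L ^ C0 := Real.one_le_rpow (by linarith) hC00
  calc (S.card : ℝ) ≤ L ^ C0 * X / Real.log X ^ k + 432 * (X / Real.log X ^ k) := by linarith
    _ ≤ 433 * L ^ C0 * X / Real.log X ^ k := by
        rw [show L ^ C0 * X / Real.log X ^ k + 432 * (X / Real.log X ^ k) =
          (L ^ C0 + 432) * X / Real.log X ^ k by ring]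
        gcongr
        linarith
    _ ≤ _ := by gcongr; exact hC L hL

/-- Section 2: `w` rough and `s * w + 1` prime. -/
theorem brun_rough_prime : ∃ C : ℝ, 0 ≤ C ∧ ∀ (L X : ℝ) (s : ℕ) (S : Finset ℕ), 2 ≤ L → 4 ≤ X →
    lam X ≤ 2 * L → 1 ≤ s → (s : ℝ) ^ 2 ≤ X →
    (∀ w ∈ S, (s : ℝ) * w ≤ X ∧ (s * w + 1).Prime ∧ ∀ p : ℕ, p.Prime →
      (p : ℝ) ≤ X ^ (1 / L ^ 2) → ¬ p ∣ w) →
    (S.card : ℝ) ≤ L ^ C * X / ((s : ℝ) * Real.log X ^ 2) := by
  obtain ⟨C0, hC00, hC0⟩ := brun_forms_prime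
  obtain ⟨C, hC0', hC⟩ := brun_absorb (M := 4) (E := C0) (by norm_num) hC00
  refine ⟨C, hC0', fun L X s S hL hX hlam hs hs2 hS => ?_⟩
  have hs1 : (1 : ℝ) ≤ s := by exact_mod_cast hs
  have hX0 : (0 : ℝ) < X := by linarith
  have hlogX : 0 < Real.log X := Real.log_pos (by linarith)
  set Y := X / s with hY
  have hYX : Y ≤ X := div_le_self hX0.le hs1
  have hYsq : Real.sqrt X ≤ Y := by
    rw [hY, le_div_iff₀ (by linarith)]
    calc Real.sqrt X * s ≤ Real.sqrt X * Real.sqrt X :=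
          mul_le_mul_of_nonneg_left (Real.le_sqrt_of_sq_le hs2) (Real.sqrt_nonneg X)
      _ = X := Real.mul_self_sqrt hX0.le
  have hY2 : 2 ≤ Y := le_trans (Real.le_sqrt_of_sq_le (by linarith)) hYsq
  have hlogY : Real.log X / 2 ≤ Real.log Y := by
    rw [← Real.log_sqrt hX0.le]
    exact Real.log_le_log (Real.sqrt_pos.2 hX0) hYsq
  have hlamY : lam Y ≤ 2 * L := by
    refine le_trans ?_ hlam
    exact Real.log_le_log (by linarith) (Real.log_le_log (by linarith) hYX)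
  have hsE : (s : ℝ) ≤ Real.exp (Real.exp (2 * L)) := by
    refine le_trans ?_ ((Real.log_le_iff_le_exp hX0).1
      (brun_log_le_exp (by linarith) hlam))
    nlinarith
  have hE1 : (1 : ℝ) ≤ Real.exp (Real.exp (2 * L)) := Real.one_le_exp (Real.exp_pos _).le
  have h := hC0 L Y 2 ![1, s] ![0, 1] S (by norm_num) hL hY2 hlamY
    (by
      intro i; fin_cases i <;> simp [hs, hsE, hE1, (zero_le_one' ℝ).trans hE1])
    (by intro i j hij; fin_cases i <;> fin_cases j <;> simp at hij ⊢)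
    (by
      intro w hw
      obtain ⟨h1, h2, h3⟩ := hS w hw
      refine ⟨by rw [hY, le_div_iff₀ (by linarith)]; linarith, fun i => ?_⟩
      fin_cases i
      · right
        intro p hp hpY
        simpa using h3 p hp (hpY.trans (Real.rpow_le_rpow (by linarith) hYX (by positivity)))
      · left; simpa using h2)
  calc (S.card : ℝ) ≤ L ^ C0 * Y / Real.log Y ^ 2 := h
    _ ≤ L ^ C0 * Y / (Real.log X / 2) ^ 2 := by gcongr
    _ = 4 * L ^ C0 * X / ((s : ℝ) * Real.log X ^ 2) := by rw [hY]; field_simp; ring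
    _ ≤ _ := by gcongr; exact hC L hL

theorem brun_pairwise_cons {k : ℕ} {a : Fin k → ℕ} (hinj : Function.Injective a) :
    Pairwise fun i j : Fin (k + 1) =>
      (Fin.cons 1 a : Fin (k + 1) → ℕ) i * (Fin.cons 0 fun _ => 1 : Fin (k + 1) → ℕ) j ≠
      (Fin.cons 1 a : Fin (k + 1) → ℕ) j * (Fin.cons 0 fun _ => 1 : Fin (k + 1) → ℕ) i := by
  intro i j hij
  induction i using Fin.cases <;> induction j using Fin.cases <;>
    simp_all [hinj.ne_iff]

theorem brun_pair_ok {A B : ℕ} (hA : 1 ≤ A) (hB : 1 ≤ B) (hAB : A ≠ B) :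
    (∀ i, 1 ≤ (![A, B] : Fin 2 → ℕ) i) ∧ Function.Injective (![A, B] : Fin 2 → ℕ) :=
  ⟨fun i => by fin_cases i <;> simpa,
    fun i j hij => by fin_cases i <;> fin_cases j <;> simp_all⟩

/-- Prime tuples below `X` and above double-log scale `s'`, general form. -/
theorem brun_count_tuple : ∃ C : ℝ, 0 ≤ C ∧ ∀ (L s' s X : ℝ) (k : ℕ) (a : Fin k → ℕ)
    (S : Finset ℕ), k ≤ 2 → 2 ≤ L → 0 ≤ s' → s ≤ 2 * L → 0 ≤ X → (∀ i, 1 ≤ a i) →
    Function.Injective a →
    (∀ r ∈ S, r.Prime ∧ s' < lam (r : ℝ) ∧ (r : ℝ) ≤ X ∧ lam (r : ℝ) ≤ s ∧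
      ∀ i, (a i * r + 1).Prime ∧ lam ((a i * r + 1 : ℕ) : ℝ) ≤ s) →
    (S.card : ℝ) ≤ L ^ C * X * Real.exp (-(((k + 1 : ℕ) : ℝ) * s')) := by
  obtain ⟨C, hC0, hC⟩ := brun_forms_prime
  refine ⟨C, hC0, fun L s' s X k a S hk hL hs' hs hX0 ha hinj hS => ?_⟩
  rcases S.eq_empty_or_nonempty with rfl | ⟨r0, hr0⟩
  · simp; positivity
  set E := Real.exp (Real.exp s) with hE
  have bound : ∀ n : ℕ, 2 ≤ n → lam (n : ℝ) ≤ s → (n : ℝ) ≤ E := by
    intro n hn h
    have hn1 : (1 : ℝ) < n := by exact_mod_cast hn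
    exact (Real.log_le_iff_le_exp (by linarith)).1
      ((Real.log_le_iff_le_exp (Real.log_pos hn1)).1 h)
  obtain ⟨h1, h2, h3, h4, h5⟩ := hS r0 hr0
  set Y := min X E
  have hrY : ∀ r ∈ S, (r : ℝ) ≤ Y := fun r hr =>
    le_min (hS r hr).2.2.1 (bound r (hS r hr).1.two_le (hS r hr).2.2.2.1)
  have hr2 : (2 : ℝ) ≤ r0 := by exact_mod_cast h1.two_le
  have hY2 : 2 ≤ Y := hr2.trans (hrY r0 hr0)
  have hlogY : Real.exp s' ≤ Real.log Y := by
    refine le_trans ?_ (Real.log_le_log (by linarith) (hrY r0 hr0))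
    exact ((Real.lt_log_iff_exp_lt (Real.log_pos (by linarith))).1 h2).le
  have hlamY : lam Y ≤ 2 * L := by
    refine le_trans ?_ hs
    calc lam Y ≤ lam E :=
          Real.log_le_log (Real.log_pos (by linarith))
            (Real.log_le_log (by linarith) (min_le_right _ _))
      _ = s := by simp [lam, hE]
  have hE1 : (1 : ℝ) ≤ Real.exp (Real.exp (2 * L)) := Real.one_le_exp (Real.exp_pos _).le
  have h := hC L Y (k + 1) (Fin.cons 1 a) (Fin.cons 0 fun _ => 1) S (by omega) hL hY2 hlamY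
    (by
      intro i
      refine Fin.cases ?_ (fun j => ?_) i
      · simp [hE1, (zero_le_one' ℝ).trans hE1]
      · simp only [Fin.cons_succ]
        refine ⟨ha j, ?_, by simpa using hE1⟩
        calc (a j : ℝ) ≤ ((a j * r0 + 1 : ℕ) : ℝ) := by
              exact_mod_cast le_trans (Nat.le_mul_of_pos_right _ h1.pos) (Nat.le_succ _)
          _ ≤ E := bound _ (h5 j).1.two_le (h5 j).2
          _ ≤ _ := by rw [hE]; gcongr)
    (brun_pairwise_cons hinj)
    (by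
      intro r hr
      refine ⟨hrY r hr, fun i => Or.inl ?_⟩
      induction i using Fin.cases with
      | zero => simpa using (hS r hr).1
      | succ j => simpa using ((hS r hr).2.2.2.2 j).1)
  refine h.trans ?_
  rw [Real.exp_neg, Real.exp_nat_mul, ← div_eq_mul_inv]
  gcongr
  exact min_le_left _ _

/-- Weighted version of `brun_count_tuple`. -/
theorem brun_weight_tuple : ∃ C : ℝ, 0 ≤ C ∧ ∀ (L s' s : ℝ) (k : ℕ) (a : Fin k → ℕ)
    (S : Finset ℕ), k ≤ 2 → 2 ≤ L → 0 ≤ s' → s ≤ 2 * L → (∀ i, 1 ≤ a i) →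
    Function.Injective a →
    (∀ r ∈ S, r.Prime ∧ s' < lam (r : ℝ) ∧ lam (r : ℝ) ≤ s ∧
      ∀ i, (a i * r + 1).Prime ∧ lam ((a i * r + 1 : ℕ) : ℝ) ≤ s) →
    ∑ r ∈ S, (1 : ℝ) / r ≤ L ^ C * Real.exp (s - ((k + 1 : ℕ) : ℝ) * s') := by
  obtain ⟨C0, hC00, hC0⟩ := brun_count_tuple
  obtain ⟨C, hC0', hC⟩ := brun_absorb (M := 6) (E := C0) (by norm_num) hC00
  refine ⟨C, hC0', fun L s' s k a S hk hL hs' hs ha hinj hS => ?_⟩
  rcases S.eq_empty_or_nonempty with rfl | ⟨r0, hr0⟩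
  · simp; positivity
  have hs0 : 0 ≤ s := by linarith [(hS r0 hr0).2.1, (hS r0 hr0).2.2.1]
  set J := ⌊2 * Real.exp s⌋₊
  have hmaps : ∀ r ∈ S, Nat.log 2 r ∈ Finset.range (J + 1) := by
    intro r hr
    obtain ⟨h1, h2, h3, -⟩ := hS r hr
    rw [Finset.mem_range, Nat.lt_succ_iff]
    refine Nat.le_floor ?_
    have hr2 : (1 : ℝ) < r := by exact_mod_cast h1.one_lt
    have hlog : Real.log r ≤ Real.exp s := (Real.log_le_iff_le_exp (Real.log_pos hr2)).1 h3
    have hpow : ((2 : ℝ)) ^ Nat.log 2 r ≤ r := by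
      exact_mod_cast Nat.pow_log_le_self 2 h1.ne_zero
    have h4 := Real.log_le_log (by positivity) hpow
    rw [Real.log_pow] at h4
    have h5 : (1 / 2 : ℝ) ≤ Real.log 2 := by linarith [Real.log_two_gt_d9]
    have h6 := mul_le_mul_of_nonneg_left h5 (Nat.cast_nonneg (α := ℝ) (Nat.log 2 r))
    linarith
  rw [← Finset.sum_fiberwise_of_maps_to hmaps]
  have hfib : ∀ j ∈ Finset.range (J + 1), ∑ r ∈ S.filter (fun r => Nat.log 2 r = j), (1 : ℝ) / r ≤
      2 * (L ^ C0 * Real.exp (-(((k + 1 : ℕ) : ℝ) * s'))) := by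
    intro j _
    have h2j : (0 : ℝ) < 2 ^ j := by positivity
    have hcard := hC0 L s' s (2 ^ (j + 1)) k a (S.filter (fun r => Nat.log 2 r = j)) hk hL hs' hs
      (by positivity) ha hinj (by
        intro r hr
        obtain ⟨hr1, hr2⟩ := Finset.mem_filter.1 hr
        obtain ⟨h1, h2, h3, h4⟩ := hS r hr1
        refine ⟨h1, h2, ?_, h3, h4⟩
        have := (Nat.lt_pow_succ_log_self (by norm_num : 1 < 2) r).le
        rw [hr2] at this
        exact_mod_cast this)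
    calc ∑ r ∈ S.filter (fun r => Nat.log 2 r = j), (1 : ℝ) / r
        ≤ ∑ _r ∈ S.filter (fun r => Nat.log 2 r = j), 1 / (2 : ℝ) ^ j := by
          refine Finset.sum_le_sum fun r hr => ?_
          obtain ⟨hr1, hr2⟩ := Finset.mem_filter.1 hr
          refine one_div_le_one_div_of_le h2j ?_
          rw [← hr2]
          exact_mod_cast Nat.pow_log_le_self 2 (hS r hr1).1.ne_zero
      _ = ((S.filter (fun r => Nat.log 2 r = j)).card : ℝ) / 2 ^ j := by
          rw [Finset.sum_const, nsmul_eq_mul]; ring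
      _ ≤ L ^ C0 * 2 ^ (j + 1) * Real.exp (-(((k + 1 : ℕ) : ℝ) * s')) / 2 ^ j := by gcongr
      _ = _ := by rw [pow_succ]; field_simp
  refine (Finset.sum_le_sum hfib).trans ?_
  rw [Finset.sum_const, Finset.card_range, nsmul_eq_mul]
  have hJ : ((J + 1 : ℕ) : ℝ) ≤ 3 * Real.exp s := by
    push_cast
    have h1 : (J : ℝ) ≤ 2 * Real.exp s := Nat.floor_le (by positivity)
    linarith [Real.one_le_exp hs0]
  calc ((J + 1 : ℕ) : ℝ) * (2 * (L ^ C0 * Real.exp (-(((k + 1 : ℕ) : ℝ) * s'))))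
      ≤ 3 * Real.exp s * (2 * (L ^ C0 * Real.exp (-(((k + 1 : ℕ) : ℝ) * s')))) := by gcongr
    _ = 6 * L ^ C0 * Real.exp (s - ((k + 1 : ℕ) : ℝ) * s') := by
        rw [sub_eq_add_neg, Real.exp_add]; ring
    _ ≤ _ := by gcongr; exact hC L hL

theorem brun_lam_le_of_mul {A r : ℕ} {s : ℝ} (hr : r.Prime) (hA : 1 ≤ A)
    (h : lam ((A * r + 1 : ℕ) : ℝ) ≤ s) : lam (r : ℝ) ≤ s := by
  refine le_trans ?_ h
  have hr1 : (1 : ℝ) < r := by exact_mod_cast hr.one_lt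
  refine Real.log_le_log (Real.log_pos hr1) (Real.log_le_log (by linarith) ?_)
  exact_mod_cast le_trans (Nat.le_mul_of_pos_left r hA) (Nat.le_succ _)

theorem brun_count2 : ∃ C : ℝ, 0 ≤ C ∧ ∀ (L s' s : ℝ) (A : ℕ) (S : Finset ℕ) (X : ℝ),
    2 ≤ L → 0 ≤ s' → s ≤ 2 * L → 1 ≤ A → 0 ≤ X →
    (∀ r ∈ S, r.Prime ∧ s' < lam (r : ℝ) ∧ (A * r + 1).Prime ∧
      lam ((A * r + 1 : ℕ) : ℝ) ≤ s ∧ (r : ℝ) ≤ X) →
    (S.card : ℝ) ≤ L ^ C * X * Real.exp (-(2 * s')) := by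
  obtain ⟨C, hC0, hC⟩ := brun_count_tuple
  refine ⟨C, hC0, fun L s' s A S X hL hs' hs hA hX hS => ?_⟩
  have h := hC L s' s X 1 (fun _ => A) S (by norm_num) hL hs' hs hX (fun _ => hA)
    (fun i j _ => Subsingleton.elim i j)
    (fun r hr => by
      obtain ⟨h1, h2, h3, h4, h5⟩ := hS r hr
      exact ⟨h1, h2, h5, brun_lam_le_of_mul h1 hA h4, fun _ => ⟨h3, h4⟩⟩)
  norm_num at h ⊢
  exact h

theorem brun_count3 : ∃ C : ℝ, 0 ≤ C ∧ ∀ (L s' s : ℝ) (A B : ℕ) (S : Finset ℕ) (X : ℝ),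
    2 ≤ L → 0 ≤ s' → s ≤ 2 * L → 1 ≤ A → 1 ≤ B → A ≠ B → 0 ≤ X →
    (∀ r ∈ S, r.Prime ∧ s' < lam (r : ℝ) ∧ (A * r + 1).Prime ∧
      lam ((A * r + 1 : ℕ) : ℝ) ≤ s ∧ (B * r + 1).Prime ∧
      lam ((B * r + 1 : ℕ) : ℝ) ≤ s ∧ (r : ℝ) ≤ X) →
    (S.card : ℝ) ≤ L ^ C * X * Real.exp (-(3 * s')) := by
  obtain ⟨C, hC0, hC⟩ := brun_count_tuple
  refine ⟨C, hC0, fun L s' s A B S X hL hs' hs hA hB hAB hX hS => ?_⟩
  have h := hC L s' s X 2 ![A, B] S (by norm_num) hL hs' hs hX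
    (brun_pair_ok hA hB hAB).1 (brun_pair_ok hA hB hAB).2
    (fun r hr => by
      obtain ⟨h1, h2, h3, h4, h5, h6, h7⟩ := hS r hr
      refine ⟨h1, h2, h7, brun_lam_le_of_mul h1 hA h4, fun i => ?_⟩
      fin_cases i
      · exact ⟨h3, h4⟩
      · exact ⟨h5, h6⟩)
  norm_num at h ⊢
  exact h

theorem brun_weight2 : ∃ C : ℝ, 0 ≤ C ∧ ∀ (L s' s : ℝ) (A : ℕ) (S : Finset ℕ),
    2 ≤ L → 0 ≤ s' → s ≤ 2 * L → 1 ≤ A →
    (∀ r ∈ S, r.Prime ∧ s' < lam (r : ℝ) ∧ (A * r + 1).Prime ∧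
      lam ((A * r + 1 : ℕ) : ℝ) ≤ s) →
    ∑ r ∈ S, (1 : ℝ) / r ≤ L ^ C * Real.exp (s - 2 * s') := by
  obtain ⟨C, hC0, hC⟩ := brun_weight_tuple
  refine ⟨C, hC0, fun L s' s A S hL hs' hs hA hS => ?_⟩
  have h := hC L s' s 1 (fun _ => A) S (by norm_num) hL hs' hs (fun _ => hA)
    (fun i j _ => Subsingleton.elim i j)
    (fun r hr => by
      obtain ⟨h1, h2, h3, h4⟩ := hS r hr
      exact ⟨h1, h2, brun_lam_le_of_mul h1 hA h4, fun _ => ⟨h3, h4⟩⟩)
  norm_num at h ⊢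
  exact h

theorem brun_weight3 : ∃ C : ℝ, 0 ≤ C ∧ ∀ (L s' s : ℝ) (A B : ℕ) (S : Finset ℕ),
    2 ≤ L → 0 ≤ s' → s ≤ 2 * L → 1 ≤ A → 1 ≤ B → A ≠ B →
    (∀ r ∈ S, r.Prime ∧ s' < lam (r : ℝ) ∧ (A * r + 1).Prime ∧
      lam ((A * r + 1 : ℕ) : ℝ) ≤ s ∧ (B * r + 1).Prime ∧
      lam ((B * r + 1 : ℕ) : ℝ) ≤ s) →
    ∑ r ∈ S, (1 : ℝ) / r ≤ L ^ C * Real.exp (s - 3 * s') := by
  obtain ⟨C, hC0, hC⟩ := brun_weight_tuple
  refine ⟨C, hC0, fun L s' s A B S hL hs' hs hA hB hAB hS => ?_⟩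
  have h := hC L s' s 2 ![A, B] S (by norm_num) hL hs' hs
    (brun_pair_ok hA hB hAB).1 (brun_pair_ok hA hB hAB).2
    (fun r hr => by
      obtain ⟨h1, h2, h3, h4, h5, h6⟩ := hS r hr
      refine ⟨h1, h2, brun_lam_le_of_mul h1 hA h4, fun i => ?_⟩
      fin_cases i
      · exact ⟨h3, h4⟩
      · exact ⟨h5, h6⟩)
  norm_num at h ⊢
  exact h

end Vale.Agent.P031
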