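import Vale.Agent.P031.Collision.Residual
import Vale.Agent.P031.Collision.Split
import Vale.Agent.P031.Collision.Bigness
import Vale.Agent.P031.Collision.Count

/-!
# P031 Q2, section 7: collisions are negligible

`collision_negligible` bounds the number of profiles, recorded as the value with the first `K`
levels, that share their value with a profile having other first levels.
-/

open scoped Classical
noncomputable section

namespace Vale.Agent.P031

open Finset Real

namespace Collision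

/-- The possible sets of common primes. -/
def commons (P : Params) : Finset (Finset ℕ) :=
  (primesLam P.Tb (P.L + 1)).powerset.filter fun C => C.card ≤ P.K'

/-- A configuration: a signature with a matrix. -/
abbrev Conf (P : Params) := Σ σ : Sig P, (sigFrame P σ).Mat

/-- The configurations with top scale at least `lo`. -/
def confs (P : Params) (lo : ℝ) : Finset (Conf P) :=
  (univ.filter fun σ : Sig P => GoodSig P lo σ).sigma fun σ => (sigFrame P σ).Adm univ univ

/-- The residual value of a configuration. -/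
def val {P : Params} (x : Conf P) : ℕ := (sigFrame P x.1).total x.2

/-- The profile read from the rows. -/
def readRow {P : Params} (x : Finset ℕ × Conf P) : ℕ × List ℕ :=
  (shiftProd x.1 * val x.2, ((x.1 ∪ rowSet _ x.2.2).sort (· ≥ ·)).take P.K)

/-- The profile read from the columns. -/
def readCol {P : Params} (x : Finset ℕ × Conf P) : ℕ × List ℕ :=
  (shiftProd x.1 * val x.2, ((x.1 ∪ colSet _ x.2.2).sort (· ≥ ·)).take P.K)

theorem resid_conf {P : Params} (hP : Big P) {lo : ℝ} {A B : Finset ℕ} {v : ℕ}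
    (h : Resid P lo A B v) :
    ∃ x ∈ confs P lo, val x = v ∧ rowSet _ x.2 = A ∧ colSet _ x.2 = B := by
  obtain ⟨σ, hσ, w, hw, h1, h2, h3⟩ := exists_sig hP h
  exact ⟨⟨σ, w⟩, mem_sigma.2 ⟨mem_filter.2 ⟨mem_univ _, hσ⟩, hw⟩, h1, h2, h3⟩

theorem scale_range {P : Params} {C : ℝ} (hP : Usable P C) (σ : Sig P) {s : ℝ}
    (hs : (sigFrame P σ).IsScale s) : P.D + 3 * log P.L + 1 ≤ s ∧ s ≤ 2 * P.L := by
  have hD := hP.big.D1
  have key : ∀ e : Fin (gridN P), P.D + 3 * log P.L + 1 ≤ scaleOf P e ∧ scaleOf P e ≤ 2 * P.L := by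
    intro e
    have h1 : ((e : ℕ) : ℝ) + 1 ≤ (gridN P : ℝ) := by exact_mod_cast e.isLt
    have h2 : (0 : ℝ) ≤ ((e : ℕ) : ℝ) := Nat.cast_nonneg _
    have hND : (gridN P : ℝ) * P.D = P.L + P.D := by
      unfold gridN Params.D
      have : (P.J : ℝ) ≠ 0 := by unfold Params.J; positivity
      push_cast
      field_simp
    have h3 := mul_le_mul_of_nonneg_right h1 (show (0 : ℝ) ≤ P.D by linarith)
    have h4 := mul_nonneg h2 (show (0 : ℝ) ≤ P.D by linarith)
    unfold scaleOf
    constructor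
    · linarith [hP.lowTb]
    · linarith [hP.topTb]
  rcases hs with ⟨i, rfl⟩ | ⟨i, rfl⟩
  · exact key _
  · exact key _

theorem sigErr_mono {P : Params} {κ C C' : ℝ} (h : C ≤ C') : sigErr P κ C ≤ sigErr P κ C' := by
  unfold sigErr
  gcongr

/-- The sum over all configurations. -/
theorem conf_sum : ∃ C1 : ℝ, 0 ≤ C1 ∧ ∀ C : ℝ, C1 ≤ C → ∀ P : Params, Usable P C →
    (∑ x ∈ confs P 0, 1 / (val x : ℝ) ≤
      exp (sigErr P (stepErr P C) C - P.eta * P.L
        + (2 * ((P.K' : ℝ) + 1) + 2 * (P.K' : ℝ) * log (gridN P)))) ∧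
    ∀ Z : ℝ, 0 < Z → ∑ x ∈ confs P (P.L - 3 * log P.L), countWeight P.L Z (val x) ≤
      exp (sigErr P (stepErr P C) C - P.eta * P.L
        + (2 * ((P.K' : ℝ) + 1) + 2 * (P.K' : ℝ) * log (gridN P))) := by
  obtain ⟨Cf, hCf0, hCf⟩ := sig_sum
  obtain ⟨Cs, hCs0, hCs⟩ := sieveBounds_exists
  refine ⟨max Cf Cs, le_max_of_le_left hCf0, fun C hC P hP => ?_⟩
  have hl0 := hP.big.logL
  have hD := hP.big.D1
  have hCsC : Cs * log P.L ≤ C * log P.L :=
    mul_le_mul_of_nonneg_right ((le_max_right _ _).trans hC) hl0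
  have hinv : ∀ σ : Sig P, ∀ s, (sigFrame P σ).IsScale s →
      (sigFrame P σ).StepAt s (fun v => 1 / (v : ℝ)) (stepErr P C) := by
    intro σ s hs
    obtain ⟨h1, h2⟩ := scale_range hP σ hs
    refine (sigFrame P σ).step_inv hCs hP.two h2 h1 ?_ ?_
    · show 0 ≤ P.D + 3 * log P.L + 1
      linarith
    · show Cs * log P.L + 3 * (P.D + 3 * log P.L + 1) ≤ stepErr P C
      unfold stepErr
      linarith
  have main : ∀ (lo : ℝ) (f : ℕ → ℝ), (∀ v, 0 ≤ f v) →
      (∀ σ : Sig P, ∀ s, (sigFrame P σ).IsScale s → lo ≤ s →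
        (sigFrame P σ).StepAt s f (stepErr P C)) →
      ∑ x ∈ confs P lo, f (val x) ≤ exp (sigErr P (stepErr P C) C - P.eta * P.L
        + (2 * ((P.K' : ℝ) + 1) + 2 * (P.K' : ℝ) * log (gridN P))) := by
    intro lo f hf0 hf
    rw [confs, sum_sigma]
    refine (sum_le_card_nsmul _ _ (exp (sigErr P (stepErr P C) C - P.eta * P.L)) fun σ hσ => ?_).trans ?_
    · refine (hCf P hP.big lo σ (mem_filter.1 hσ).2 f (stepErr P C) hP.step_nonneg hf0
        (hinv σ) (hf σ)).trans ?_
      refine exp_le_exp.2 ?_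
      have := sigErr_mono (P := P) (κ := stepErr P C) ((le_max_left _ _).trans hC)
      unfold sigErr at this ⊢
      linarith
    · rw [nsmul_eq_mul, exp_add, mul_comm (exp _)]
      refine mul_le_mul_of_nonneg_right (le_trans ?_ (card_sig_le P)) (exp_pos _).le
      exact_mod_cast card_le_univ _
  refine ⟨main 0 (fun v => 1 / (v : ℝ)) (fun v => by positivity) fun σ s hs _ => hinv σ s hs,
    fun Z hZ => main _ _ (countWeight_nonneg hZ.le) fun σ s hs hlo => ?_⟩
  obtain ⟨h1, h2⟩ := scale_range hP σ hs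
  refine (sigFrame P σ).step_count hCs hP.two hZ h2 h1 ?_ ?_
  · show 0 ≤ P.D + 3 * log P.L + 1
    linarith
  · show Cs * log P.L + 3 * (P.D + 3 * log P.L + 1) + (P.L - s) ≤ stepErr P C
    unfold stepErr
    linarith

/-- The sum over the possible common sets. -/
theorem commons_sum : ∃ C1 : ℝ, 0 ≤ C1 ∧ ∀ C : ℝ, C1 ≤ C → ∀ P : Params, Usable P C →
    ∑ S ∈ commons P, 1 / (shiftProd S : ℝ) ≤ exp ((P.K' : ℝ) * (C + log P.L)) := by
  obtain ⟨Cm, hCm0, hCm⟩ := mertens_lam_pred
  refine ⟨Cm + 3, by linarith, fun C hC P hP => ?_⟩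
  have hTb := hP.big.Tb0
  have hD := hP.big.D1
  have hL := hP.two
  have hab : P.Tb ≤ P.L + 1 := by linarith [hP.topTb]
  have hM := (abs_le.1 (hCm P.Tb (P.L + 1) hTb.le hab)).2
  have hnn : ∀ p ∈ primesLam P.Tb (P.L + 1), (0 : ℝ) ≤ 1 / ((p : ℝ) - 1) := by
    intro p hp
    have : (1 : ℝ) ≤ p := by exact_mod_cast (mem_primesLam.1 hp).1.one_le
    exact div_nonneg zero_le_one (by linarith)
  have hs := sum_nonneg hnn
  have hkey := sum_subsets_le (fun p : ℕ => (1 : ℝ) / ((p : ℝ) - 1)) _ hnn P.K'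
  calc ∑ S ∈ commons P, 1 / (shiftProd S : ℝ)
      = ∑ S ∈ commons P, ∏ p ∈ S, (1 : ℝ) / ((p : ℝ) - 1) := by
        refine sum_congr rfl fun S hS => (inv_shiftWeight S fun r hr => ?_).symm
        exact (mem_primesLam.1 (mem_powerset.1 (mem_filter.1 hS).1 hr)).1
    _ ≤ (1 + ∑ p ∈ primesLam P.Tb (P.L + 1), (1 : ℝ) / ((p : ℝ) - 1)) ^ P.K' := hkey
    _ ≤ exp (C + log P.L) ^ P.K' := by
        gcongr
        rw [exp_add, exp_log (by linarith)]
        have := mul_le_mul_of_nonneg_right (add_one_le_exp C) (show (0 : ℝ) ≤ P.L by linarith)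
        nlinarith
    _ = exp ((P.K' : ℝ) * (C + log P.L)) := by rw [← exp_nat_mul]

theorem val_pos {P : Params} {lo : ℝ} {x : Conf P} (hx : x ∈ confs P lo) : 0 < (val x : ℝ) := by
  obtain ⟨-, hw⟩ := mem_sigma.1 hx
  exact_mod_cast Nat.pos_of_ne_zero
    (Frame.total_ne_zero _ ((sigFrame P x.1).mem_Adm.1 hw).1)

theorem shiftProd_pos {P : Params} {S : Finset ℕ} (hS : S ∈ commons P) :
    0 < (shiftProd S : ℝ) := by
  exact_mod_cast Nat.pos_of_ne_zero (shiftProd_ne_zero fun r hr =>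
    (mem_primesLam.1 (mem_powerset.1 (mem_filter.1 hS).1 hr)).1)

/-- Configurations whose top residual prime is the top prime. -/
def topConfs (P : Params) (y : ℝ) : Finset (Finset ℕ × Conf P) :=
  (commons P ×ˢ confs P (P.L - 3 * log P.L)).filter fun x =>
    ((shiftProd x.1 * val x.2 : ℕ) : ℝ) ≤ y

/-- Configurations whose top prime is common. -/
def lowConfs (P : Params) (y : ℝ) : Finset (Finset ℕ × Conf P) :=
  (commons P ×ˢ confs P 0).filter fun x =>
    (∃ r ∈ x.1, P.L - 3 * log P.L ≤ lam (r : ℝ)) ∧ ((shiftProd x.1 * val x.2 : ℕ) : ℝ) ≤ y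

theorem card_top_confs {P : Params} {y W1 W2 : ℝ} (hy : 0 < y)
    (h1 : ∑ S ∈ commons P, 1 / (shiftProd S : ℝ) ≤ W1) (hW2 : 0 ≤ W2)
    (h2 : ∀ Z : ℝ, 0 < Z → ∑ x ∈ confs P (P.L - 3 * log P.L), countWeight P.L Z (val x) ≤ W2) :
    ((topConfs P y).card : ℝ) ≤ y * exp (-P.L) * (W1 * W2) := by
  have hind : ∀ S ∈ commons P, ∀ x : Conf P,
      (if ((shiftProd S * val x : ℕ) : ℝ) ≤ y then (1 : ℝ) else 0)
        = y * exp (-P.L) / shiftProd S * countWeight P.L (y / shiftProd S) (val x) := by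
    intro S hS x
    have hc := shiftProd_pos hS
    unfold countWeight
    have : ((val x : ℕ) : ℝ) ≤ y / shiftProd S ↔ ((shiftProd S * val x : ℕ) : ℝ) ≤ y := by
      rw [le_div_iff₀ hc]; push_cast; rw [mul_comm]
    simp only [this]
    split
    · rw [exp_neg]; field_simp
    · simp
  calc ((topConfs P y).card : ℝ)
      = ∑ S ∈ commons P, ∑ x ∈ confs P (P.L - 3 * log P.L),
          (if ((shiftProd S * val x : ℕ) : ℝ) ≤ y then (1 : ℝ) else 0) := by
        rw [← sum_product', sum_boole]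
        rfl
    _ ≤ ∑ S ∈ commons P, y * exp (-P.L) / shiftProd S * W2 := by
        refine sum_le_sum fun S hS => ?_
        have hc := shiftProd_pos hS
        rw [sum_congr rfl fun x _ => hind S hS x, ← mul_sum]
        exact mul_le_mul_of_nonneg_left (h2 _ (by positivity)) (by positivity)
    _ = y * exp (-P.L) * W2 * ∑ S ∈ commons P, 1 / (shiftProd S : ℝ) := by
        rw [mul_sum]; exact sum_congr rfl fun S _ => by ring
    _ ≤ y * exp (-P.L) * W2 * W1 := mul_le_mul_of_nonneg_left h1 (by positivity)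
    _ = _ := by ring

theorem card_low_confs {P : Params} {y W1 W2 : ℝ} (hy : 0 < y) (hL : 1 ≤ P.L)
    (h1 : ∑ S ∈ commons P, 1 / (shiftProd S : ℝ) ≤ W1) (hW1 : 0 ≤ W1)
    (h2 : ∑ x ∈ confs P 0, 1 / (val x : ℝ) ≤ W2) :
    ((lowConfs P y).card : ℝ) ≤ 12 * P.L ^ 3 * (y * exp (-P.L) * (W1 * W2)) := by
  set lo := P.L - 3 * log P.L with hlo
  set U := primesLam P.Tb (P.L + 1) with hU
  let T := fun (S : Finset ℕ) (x : Conf P) => U.filter fun p : ℕ =>
    lo ≤ lam (p : ℝ) ∧ ((p - 1 : ℕ) : ℝ) ≤ y / (shiftProd S * val x)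
  let W : Finset (Σ _ : Finset ℕ × Conf P, ℕ) :=
    (commons P ×ˢ confs P 0).sigma fun z => T z.1 z.2
  let pick : Finset ℕ × Conf P → ℕ := fun z =>
    if h : ∃ r ∈ z.1, lo ≤ lam (r : ℝ) then h.choose else 0
  have hmap : (lowConfs P y).card ≤ W.card := by
    refine card_le_card_of_injOn (fun z => ⟨(z.1.erase (pick z), z.2), pick z⟩) ?_ ?_
    · intro z hz
      obtain ⟨hz1, hex, hzy⟩ := mem_filter.1 hz
      obtain ⟨hzS, hzx⟩ := mem_product.1 hz1
      have hex' : ∃ r ∈ z.1, lo ≤ lam (r : ℝ) := hex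
      have hp : pick z ∈ z.1 ∧ lo ≤ lam (pick z : ℝ) := by
        simp only [pick, dif_pos hex']; exact hex'.choose_spec
      obtain ⟨hsub, hcard⟩ := mem_filter.1 hzS
      have hsub' := mem_powerset.1 hsub
      have hS' : z.1.erase (pick z) ∈ commons P :=
        mem_filter.2 ⟨mem_powerset.2 ((erase_subset _ _).trans hsub'),
          (card_erase_le).trans hcard⟩
      refine mem_sigma.2 ⟨mem_product.2 ⟨hS', hzx⟩, mem_filter.2 ⟨hsub' hp.1, hp.2, ?_⟩⟩
      rw [le_div_iff₀ (mul_pos (shiftProd_pos hS') (val_pos hzx))]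
      refine le_trans (le_of_eq ?_) hzy
      have : shiftProd z.1 = (pick z - 1) * shiftProd (z.1.erase (pick z)) :=
        (mul_prod_erase _ (fun r => r - 1) hp.1).symm
      rw [this]; push_cast; ring
    · intro z hz z' hz' he
      obtain ⟨-, hex, -⟩ := mem_filter.1 hz
      obtain ⟨-, hex', -⟩ := mem_filter.1 hz'
      replace hex : ∃ r ∈ z.1, lo ≤ lam (r : ℝ) := hex
      replace hex' : ∃ r ∈ z'.1, lo ≤ lam (r : ℝ) := hex'
      have hp : pick z ∈ z.1 := by simp only [pick, dif_pos hex]; exact hex.choose_spec.1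
      have hp' : pick z' ∈ z'.1 := by simp only [pick, dif_pos hex']; exact hex'.choose_spec.1
      simp only [Sigma.mk.injEq, heq_eq_eq, Prod.mk.injEq] at he
      obtain ⟨⟨he1, he2⟩, he3⟩ := he
      refine Prod.ext ?_ he2
      rw [← insert_erase hp, ← insert_erase hp', he1, he3]
  have hexp : exp (-lo) = P.L ^ 3 * exp (-P.L) := by
    rw [hlo, show -(P.L - 3 * log P.L) = (3 : ℕ) * log P.L + -P.L by push_cast; ring, exp_add,
      exp_nat_mul, exp_log (by linarith)]
  have hT : ∀ S ∈ commons P, ∀ x ∈ confs P 0, ((T S x).card : ℝ)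
      ≤ 12 * P.L ^ 3 * (y * exp (-P.L)) * (1 / (shiftProd S : ℝ) * (1 / (val x : ℝ))) := by
    intro S hS x hx
    have hcv := mul_pos (shiftProd_pos hS) (val_pos hx)
    refine (card_top_le _ (lo := lo) (Z := y / (shiftProd S * val x)) (fun p hp => ?_)
      (by positivity)).trans ?_
    · obtain ⟨hpU, h⟩ := mem_filter.1 hp
      exact ⟨(mem_primesLam.1 hpU).1, h⟩
    · rw [hexp]
      exact le_of_eq (by field_simp)
  calc ((lowConfs P y).card : ℝ) ≤ (W.card : ℝ) := by exact_mod_cast hmap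
    _ = ∑ S ∈ commons P, ∑ x ∈ confs P 0, ((T S x).card : ℝ) := by
        rw [← sum_product']; simp only [W, card_sigma]; push_cast; rfl
    _ ≤ ∑ S ∈ commons P, ∑ x ∈ confs P 0,
          12 * P.L ^ 3 * (y * exp (-P.L)) * (1 / (shiftProd S : ℝ) * (1 / (val x : ℝ))) :=
        sum_le_sum fun S hS => sum_le_sum fun x hx => hT S hS x hx
    _ = 12 * P.L ^ 3 * (y * exp (-P.L)) *
          ((∑ S ∈ commons P, 1 / (shiftProd S : ℝ)) * ∑ x ∈ confs P 0, 1 / (val x : ℝ)) := by
        rw [sum_mul_sum, mul_sum]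
        exact sum_congr rfl fun S _ => by rw [mul_sum]
    _ ≤ 12 * P.L ^ 3 * (y * exp (-P.L)) * (W1 * W2) := by
        have hs : 0 ≤ ∑ x ∈ confs P 0, 1 / (val x : ℝ) := sum_nonneg fun x _ => by positivity
        gcongr
    _ = _ := by ring

/-- Every collision is read from a configuration. -/
theorem mem_images {P : Params} (hP : Big P) {y : ℝ} {e : ℕ × List ℕ}
    (he : (e.1 : ℝ) ≤ y) {p q : List ℕ} (hp : Prof P e.1 p) (hq : Prof P e.1 q)
    (hpe : p.take P.K = e.2) (hne : p.take P.K ≠ q.take P.K) :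
    e ∈ (topConfs P y ∪ lowConfs P y).image readRow
      ∪ (topConfs P y ∪ lowConfs P y).image readCol := by
  have key : ∀ (p q : List ℕ), Prof P e.1 p → Prof P e.1 q → ∀ l, l < P.K →
      q.getD l 0 < p.getD l 0 → (∀ k < l, p.getD k 0 = q.getD k 0) →
      ∃ z ∈ topConfs P y ∪ lowConfs P y, readRow z = (e.1, p.take P.K) ∧
        readCol z = (e.1, q.take P.K) := by
    intro p q hp hq l hl hlt heq
    obtain ⟨S, A, B, v', hA, hB, hcard, hlev, hv, hres⟩ := split hP.Tb0.le hp hq hl hlt heq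
    have hS : S ∈ commons P :=
      mem_filter.2 ⟨mem_powerset.2 fun r hr => mem_primesLam.2 (hlev r hr), hcard⟩
    have fin : ∀ x : Conf P, val x = v' → rowSet _ x.2 = A → colSet _ x.2 = B →
        readRow (S, x) = (e.1, p.take P.K) ∧ readCol (S, x) = (e.1, q.take P.K) := by
      intro x h1 h2 h3
      unfold readRow readCol
      simp only
      rw [h1, h2, h3, ← hA, ← hB, prof_sort hp, prof_sort hq, ← hv]
      exact ⟨rfl, rfl⟩
    rcases hres with ⟨hex, hR⟩ | hR
    · obtain ⟨x, hx, h1, h2, h3⟩ := resid_conf hP hR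
      refine ⟨(S, x), mem_union_right _ (mem_filter.2 ⟨mem_product.2 ⟨hS, hx⟩, hex, ?_⟩),
        fin x h1 h2 h3⟩
      show ((shiftProd S * val x : ℕ) : ℝ) ≤ y
      rwa [h1, ← hv]
    · obtain ⟨x, hx, h1, h2, h3⟩ := resid_conf hP hR
      refine ⟨(S, x), mem_union_left _ (mem_filter.2 ⟨mem_product.2 ⟨hS, hx⟩, ?_⟩),
        fin x h1 h2 h3⟩
      show ((shiftProd S * val x : ℕ) : ℝ) ≤ y
      rwa [h1, ← hv]
  obtain ⟨l, hl, hd, heq⟩ := first_diff (prof_prime_ne_zero hp) (prof_prime_ne_zero hq) hne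
  have hee : e = (e.1, p.take P.K) := Prod.ext rfl hpe.symm
  rcases lt_or_gt_of_ne hd with h | h
  · obtain ⟨z, hz, -, h2⟩ := key q p hq hp l hl h fun k hk => (heq k hk).symm
    exact mem_union_right _ (mem_image.2 ⟨z, hz, h2.trans hee.symm⟩)
  · obtain ⟨z, hz, h1, -⟩ := key p q hp hq l hl h heq
    exact mem_union_left _ (mem_image.2 ⟨z, hz, h1.trans hee.symm⟩)

end Collision

open Collision in
/-- Section 7: profiles sharing their value with another profile are negligible. -/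
theorem collision_negligible : ∃ L0 : ℝ, ∀ P : Params, L0 ≤ P.L → P.Admissible →
    ∀ y : ℝ, 1 ≤ y → y ≤ Real.exp (Real.exp (P.L + 1)) →
    ∀ S : Finset (ℕ × List ℕ),
      (∀ e ∈ S, (e.1 : ℝ) ≤ y ∧ ∃ p q, Prof P e.1 p ∧ Prof P e.1 q ∧
        p.take P.K = e.2 ∧ p.take P.K ≠ q.take P.K) →
      (S.card : ℝ) ≤ y * Real.exp (-P.L) * Real.exp (-(P.L ^ (0.9 : ℝ))) := by
  obtain ⟨C1, hC1, hconf⟩ := conf_sum
  obtain ⟨C2, hC2, hcom⟩ := commons_sum
  set C := C1 + C2 + 26 with hC
  obtain ⟨L0, hL0⟩ := exists_usable C (by linarith)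
  refine ⟨L0, fun P hL hA y hy _ S hS => ?_⟩
  have hP := hL0 P hL hA
  have hy0 : 0 < y := by linarith
  have hL1 : 1 ≤ P.L := by linarith [hP.two]
  obtain ⟨hlow, htop⟩ := hconf C (by linarith) P hP
  have hW := hcom C (by linarith) P hP
  have ht := card_top_confs hy0 hW (exp_pos _).le htop
  have hl := card_low_confs hy0 hL1 hW (exp_pos _).le hlow
  have hsub : S.card ≤ 2 * ((topConfs P y).card + (lowConfs P y).card) := by
    have h1 : S ⊆ (topConfs P y ∪ lowConfs P y).image readRow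
        ∪ (topConfs P y ∪ lowConfs P y).image readCol := by
      intro e he
      obtain ⟨hey, p, q, hp, hq, hpe, hne⟩ := hS e he
      exact mem_images hP.big hey hp hq hpe hne
    refine (card_le_card h1).trans ((card_union_le _ _).trans ?_)
    have h2 := card_union_le (topConfs P y) (lowConfs P y)
    have h3 := card_image_le (s := topConfs P y ∪ lowConfs P y) (f := readRow (P := P))
    have h4 := card_image_le (s := topConfs P y ∪ lowConfs P y) (f := readCol (P := P))
    omega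
  set B := y * exp (-P.L) * (exp ((P.K' : ℝ) * (C + log P.L)) *
    exp (sigErr P (stepErr P C) C - P.eta * P.L
      + (2 * ((P.K' : ℝ) + 1) + 2 * (P.K' : ℝ) * log (gridN P)))) with hB
  have hB0 : 0 ≤ B := by positivity
  have hcast : (S.card : ℝ) ≤ 2 * ((topConfs P y).card + (lowConfs P y).card : ℝ) := by
    exact_mod_cast hsub
  have h26 : 2 * (1 + 12 * P.L ^ 3) ≤ exp (C + 3 * log P.L) := by
    have h3 : (1 : ℝ) ≤ P.L ^ 3 := one_le_pow₀ hL1
    rw [exp_add, show (3 : ℝ) * log P.L = ((3 : ℕ) : ℝ) * log P.L by norm_num, exp_nat_mul,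
      exp_log (by linarith)]
    have h4 : (26 : ℝ) ≤ exp C := by linarith [add_one_le_exp C]
    nlinarith
  calc (S.card : ℝ) ≤ 2 * (1 + 12 * P.L ^ 3) * B := by linarith
    _ ≤ exp (C + 3 * log P.L) * B := mul_le_mul_of_nonneg_right h26 hB0
    _ = y * exp (-P.L) * exp (sigErr P (stepErr P C) C + choiceErr P C - P.eta * P.L) := by
        rw [hB, ← exp_add]
        rw [mul_left_comm, ← exp_add]
        congr 2
        unfold choiceErr
        ring
    _ ≤ _ := by gcongr; exact hP.total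

end Vale.Agent.P031
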