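import Vale.Agent.P031.ValuesProfile

/-!
# P031 Q2, section 3: values with a too heavy profile
-/

open scoped Classical
open Finset Real

noncomputable section

namespace Vale.Agent.P031

/-- `w` is a value with a too heavy profile: it is divisible by `∏ (pr_i - 1)` for decreasing normal
primes `pr_0 ≥ ... ≥ pr_N` with `∑ a_i lam pr_i > lam pr_0 + mu`, all its primes being at most `pr_0`. -/
def HeavyValue (P : Params) (mu lo : ℝ) (w : ℕ) : Prop :=
  w ≠ 0 ∧ ∃ N : ℕ, N < P.K' ∧ ∃ pr : ℕ → ℕ,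
    (∀ i ≤ N, (pr i).Prime ∧ P.Normal (pr i) ∧ P.Te ≤ lam (pr i : ℝ)) ∧
    (∀ i < N, pr (i + 1) ≤ pr i) ∧
    (∀ r ∈ w.primeFactors, r ≤ pr 0) ∧
    lo ≤ lam (pr 0 : ℝ) ∧ lam (pr 0 : ℝ) ≤ P.L + 1 ∧
    (∏ i ∈ Finset.range (N + 1), (pr i - 1)) ∣ w ∧
    lam (pr 0 : ℝ) + mu < ∑ i ∈ Finset.Icc 1 N, fordA i * lam (pr i : ℝ)

theorem profile_weight_le : ∃ C : ℝ, 0 ≤ C ∧ ∀ P : Params, ValBig P → ∀ N : ℕ, N < P.K' →
    ∀ k : ℕ → ℕ, (∀ i < N, k (i + 1) ≤ k i) → k 0 ≤ 2 * P.J → ∀ s : ℝ, 0 ≤ s →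
    ∀ S : Finset ℕ, (∀ w ∈ S, SmoothLam s w ∧ HasProfile P N k w) →
    ∑ w ∈ S, (1 : ℝ) / w
      ≤ Real.exp (s - ∑ i ∈ Finset.Icc 1 N, fordA i * ((k i : ℝ) * P.D) + C * P.valErr) := by
  obtain ⟨C, hC, hexp⟩ := profile_exponent
  refine ⟨C, hC, fun P hP N hN k hanti hk0 s hs S hS => ?_⟩
  have hb := fun p hp => profWeight_bounds hP hN k (p := p) hp
  have h1 := euler_smoothLam s (P.K' : ℝ) (profWeight P N k)
    (fun p hp _ => ⟨(hb p hp).1, (hb p hp).2.1, (hb p hp).2.2.2⟩) S (fun w hw => (hS w hw).1)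
  calc ∑ w ∈ S, (1 : ℝ) / w
      ≤ Real.exp (-profGain P N k) * ∑ w ∈ S, cmul (profWeight P N k) w / w := by
        rw [Finset.mul_sum]
        refine Finset.sum_le_sum fun w hw => ?_
        rw [mul_div_assoc']
        refine div_le_div_of_nonneg_right ?_ (Nat.cast_nonneg w)
        rw [Real.exp_neg, inv_mul_eq_div, one_le_div (Real.exp_pos _)]
        exact exp_profGain_le (hS w hw).2
    _ ≤ Real.exp (-profGain P N k) * _ := mul_le_mul_of_nonneg_left h1 (Real.exp_pos _).le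
    _ ≤ _ := by
        rw [← Real.exp_add]
        refine Real.exp_le_exp.2 ?_
        have := hexp P hP N hN k hanti hk0 s hs
        linarith

theorem profile_card_le : ∃ C : ℝ, 0 ≤ C ∧ ∀ P : Params, ValBig P → ∀ N : ℕ, N < P.K' →
    ∀ k : ℕ → ℕ, (∀ i < N, k (i + 1) ≤ k i) → k 0 ≤ 2 * P.J →
    ∀ y : ℝ, Real.exp (Real.exp P.L) ≤ y → lam y ≤ P.L + 1 →
    ∀ S : Finset ℕ, (∀ w ∈ S, w ≠ 0 ∧ (w : ℝ) ≤ y ∧ HasProfile P N k w) →
    (S.card : ℝ) ≤ y / Real.exp P.L
      * Real.exp (P.L - ∑ i ∈ Finset.Icc 1 N, fordA i * ((k i : ℝ) * P.D) + C * P.valErr) := by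
  obtain ⟨C, hC, hexp⟩ := profile_exponent
  refine ⟨C + 3, by linarith, fun P hP N hN k hanti hk0 y hy hly S hS => ?_⟩
  have hb := fun p hp => profWeight_bounds hP hN k (p := p) hp
  obtain ⟨hK, hL, hTe, hKT⟩ := hP
  have hK20 := P.one_le_K' hK
  have hee : (2 : ℝ) ≤ Real.exp (Real.exp P.L) := by
    linarith [Real.add_one_le_exp (Real.exp P.L), Real.one_le_exp (show (0 : ℝ) ≤ P.L by linarith)]
  have hy2 : (2 : ℝ) ≤ y := hee.trans hy
  have hlogy : Real.exp P.L ≤ Real.log y := by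
    simpa using Real.log_le_log (by linarith) hy
  have hlamy : P.L ≤ lam y := by
    simpa [lam] using Real.log_le_log (Real.exp_pos _) hlogy
  have hlog0 : 0 < Real.log y := lt_of_lt_of_le (Real.exp_pos _) hlogy
  have h2 := sum_cmul_le hy2 (P.K' : ℝ) (by linarith) (profWeight P N k)
    (fun p hp => ⟨(hb p hp).1, (hb p hp).2.1, (hb p hp).2.2.1⟩) S
    (fun w hw => ⟨(hS w hw).1, (hS w hw).2.1⟩)
  have h3 := euler_smoothLam (lam y) (P.K' : ℝ) (profWeight P N k)
    (fun p hp _ => ⟨(hb p hp).1, (hb p hp).2.1, (hb p hp).2.2.2⟩) (Finset.Ioc 0 ⌊y⌋₊) (by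
      intro m hm
      obtain ⟨hm0, hm1⟩ := Finset.mem_Ioc.1 hm
      refine ⟨by omega, fun r hr => ?_⟩
      have hr2 := (Nat.prime_of_mem_primeFactors hr).two_le
      have hry : (r : ℝ) ≤ y := (Nat.cast_le.2
        ((Nat.le_of_dvd hm0 (Nat.dvd_of_mem_primeFactors hr)).trans hm1)).trans
          (Nat.floor_le (by linarith))
      have hr2' : (2 : ℝ) ≤ r := by exact_mod_cast hr2
      unfold lam
      exact Real.log_le_log (Real.log_pos (by linarith)) (Real.log_le_log (by linarith) hry))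
  have h4 : (S.card : ℝ) * Real.exp (profGain P N k) ≤ ∑ w ∈ S, cmul (profWeight P N k) w := by
    rw [← nsmul_eq_mul, ← Finset.sum_const]
    exact Finset.sum_le_sum fun w hw => exp_profGain_le (hS w hw).2.2
  have h5 := hexp P ⟨hK, hL, hTe, hKT⟩ N hN k hanti hk0 (lam y) (by linarith)
  have hne : 0 ≤ y / Real.log y := by positivity
  have h30 : 30 * (P.K' : ℝ) ≤ Real.exp (2 * P.valErr) := by
    have hv : (P.K' : ℝ) ^ 3 ≤ P.valErr := by
      unfold Params.valErr
      refine le_mul_of_one_le_right (by positivity) ?_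
      have : 0 ≤ P.theta * P.L := mul_nonneg (by unfold Params.theta; positivity) (by linarith)
      linarith [P.J_pos]
    have : (30 : ℝ) * (P.K' : ℝ) ≤ 2 * (P.K' : ℝ) ^ 3 := by nlinarith
    linarith [Real.add_one_le_exp (2 * P.valErr)]
  have hve : 1 ≤ P.valErr := by
    unfold Params.valErr
    refine one_le_mul_of_one_le_of_one_le (one_le_pow₀ (by linarith)) ?_
    have : 0 ≤ P.theta * P.L := mul_nonneg (by unfold Params.theta; positivity) (by linarith)
    linarith [P.J_pos]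
  have hchain : (S.card : ℝ) ≤ 30 * (P.K' : ℝ) * (y / Real.log y)
      * Real.exp (lam y - ∑ i ∈ Finset.Icc 1 N, fordA i * ((k i : ℝ) * P.D) + C * P.valErr) := by
    calc (S.card : ℝ)
        = (S.card : ℝ) * Real.exp (profGain P N k) * Real.exp (-profGain P N k) := by
          rw [mul_assoc, ← Real.exp_add]; simp
      _ ≤ (30 * (P.K' : ℝ) * (y / Real.log y) *
            ∑ m ∈ Finset.Ioc 0 ⌊y⌋₊, cmul (profWeight P N k) m / m) *
            Real.exp (-profGain P N k) :=
          mul_le_mul_of_nonneg_right (h4.trans h2) (Real.exp_pos _).le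
      _ ≤ (30 * (P.K' : ℝ) * (y / Real.log y) *
            Real.exp (∑ p ∈ primesUpTo (Real.exp (Real.exp (lam y))), profWeight P N k p / p
              + 8 * (P.K' : ℝ) ^ 2)) * Real.exp (-profGain P N k) :=
          mul_le_mul_of_nonneg_right (mul_le_mul_of_nonneg_left h3 (by positivity))
            (Real.exp_pos _).le
      _ ≤ _ := by
          rw [mul_assoc, ← Real.exp_add]
          exact mul_le_mul_of_nonneg_left (Real.exp_le_exp.2 (by linarith)) (by positivity)
  refine hchain.trans ?_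
  have : y / Real.log y ≤ y / Real.exp P.L :=
    div_le_div_of_nonneg_left (by linarith) (Real.exp_pos _) hlogy
  calc 30 * (P.K' : ℝ) * (y / Real.log y) * Real.exp _
      ≤ Real.exp (2 * P.valErr) * (y / Real.exp P.L) * Real.exp _ := by gcongr
    _ = y / Real.exp P.L * Real.exp (2 * P.valErr + (lam y
          - ∑ i ∈ Finset.Icc 1 N, fordA i * ((k i : ℝ) * P.D) + C * P.valErr)) := by
        rw [Real.exp_add (2 * P.valErr)]; ring
    _ ≤ _ := by
        refine mul_le_mul_of_nonneg_left (Real.exp_le_exp.2 ?_) (by positivity)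
        nlinarith

/-- A heavy value lies in one of the finitely many profile classes. -/
theorem heavy_to_profile {P : Params} (hP : ValBig P) {mu lo : ℝ} {w : ℕ}
    (h : HeavyValue P mu lo w) :
    ∃ q : (Fin P.K') × (Fin P.K' → Fin (2 * P.J + 1)),
      let k : ℕ → ℕ := fun i => if h : i ≤ (q.1 : ℕ) then ((q.2 ⟨i, lt_of_le_of_lt h q.1.2⟩ : Fin _) : ℕ) else 0
      (∀ i < (q.1 : ℕ), k (i + 1) ≤ k i) ∧ k 0 ≤ 2 * P.J ∧
      SmoothLam (((k 0 : ℝ) + 1) * P.D) w ∧ HasProfile P q.1 k w ∧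
      (k 0 : ℝ) * P.D + mu
        ≤ ∑ i ∈ Finset.Icc 1 (q.1 : ℕ), fordA i * (((k i : ℝ) + 1) * P.D) ∧
      lo + mu ≤ ∑ i ∈ Finset.Icc 1 (q.1 : ℕ), fordA i * (((k i : ℝ) + 1) * P.D) := by
  obtain ⟨hw0, N, hN, pr, hpr, hanti, hsm, hlo, hhi, hdvd, hheavy⟩ := h
  obtain ⟨hK, hL, hTe, hKT⟩ := hP
  have hD := P.D_pos (by linarith)
  have hpos : ∀ i ≤ N, 0 ≤ lam (pr i : ℝ) := fun i hi => le_trans (by linarith) (hpr i hi).2.2
  have hmono : ∀ i ≤ N, pr i ≤ pr 0 := by
    intro i hi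
    induction i with
    | zero => exact le_rfl
    | succ i ih => exact (hanti i (by omega)).trans (ih (by omega))
  set κ : ℕ → ℕ := fun i => ⌊lam (pr i : ℝ) / P.D⌋₊ with hκ
  have hκ1 : ∀ i ≤ N, (κ i : ℝ) * P.D ≤ lam (pr i : ℝ) := fun i hi => by
    rw [← le_div_iff₀ hD]; exact Nat.floor_le (div_nonneg (hpos i hi) hD.le)
  have hκ2 : ∀ i, lam (pr i : ℝ) ≤ ((κ i : ℝ) + 1) * P.D := fun i => by
    rw [← div_le_iff₀ hD]; exact (Nat.lt_floor_add_one _).le
  have hκm : ∀ i ≤ N, κ i < 2 * P.J + 1 := by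
    intro i hi
    have h1 : (κ i : ℝ) * P.D ≤ (2 * P.J : ℕ) * P.D := by
      refine (hκ1 i hi).trans ?_
      push_cast
      rw [mul_assoc, P.J_mul_D]
      linarith [lam_le_lam_nat (hpr i hi).1.two_le (hmono i hi)]
    have : (κ i : ℝ) ≤ ((2 * P.J : ℕ) : ℝ) := le_of_mul_le_mul_right h1 hD
    exact Nat.lt_succ_of_le (by exact_mod_cast this)
  refine ⟨(⟨N, hN⟩, fun i => if hi : (i : ℕ) ≤ N then ⟨κ i, hκm i hi⟩ else ⟨0, Nat.succ_pos _⟩),
    ?_⟩
  intro k
  have hk : ∀ i ≤ N, k i = κ i := fun i hi => by simp [k, hi]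
  refine ⟨fun i hi => ?_, ?_, ⟨hw0, fun r hr => ?_⟩, fun j hj => ?_, ?_, ?_⟩
  · simp only [Fin.val_mk] at hi
    rw [hk i (by omega), hk (i + 1) hi]
    exact Nat.floor_le_floor (div_le_div_of_nonneg_right
      (lam_le_lam_nat (hpr (i + 1) hi).1.two_le (hanti i hi)) hD.le)
  · rw [hk 0 (Nat.zero_le _)]; exact Nat.le_of_lt_succ (hκm 0 (Nat.zero_le _))
  · rw [hk 0 (Nat.zero_le _)]
    exact (lam_le_lam_nat (Nat.prime_of_mem_primeFactors hr).two_le (hsm r hr)).trans (hκ2 0)
  · simp only [Fin.val_mk]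
    obtain ⟨hj1, hj2⟩ := mem_profWin_iff.1 hj
    have hne : ∀ i ∈ Finset.range (N + 1), pr i - 1 ≠ 0 := fun i hi => by
      have := (hpr i (Nat.lt_succ_iff.1 (Finset.mem_range.1 hi))).1.two_le; omega
    have hTj : P.Te ≤ (j : ℝ) * P.D := by
      rw [← P.two_pow_mul_D]; exact mul_le_mul_of_nonneg_right (by exact_mod_cast hj1) hD.le
    refine le_trans ?_ (Nat.cast_le.2 (omegaIoc_le_of_dvd _ _ hdvd hw0))
    rw [omegaIoc_prod _ _ _ _ hne, Nat.cast_sum, profCnt, ← nsmul_eq_mul, ← Finset.sum_const]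
    refine (Finset.sum_le_sum fun i hi => ?_).trans
      (Finset.sum_le_sum_of_subset_of_nonneg (Finset.filter_subset _ _)
        fun i _ _ => Nat.cast_nonneg _)
    obtain ⟨hi1, hi2⟩ := Finset.mem_filter.1 hi
    have hiN : i ≤ N := Nat.lt_succ_iff.1 (Finset.mem_range.1 hi1)
    rw [hk i hiN] at hi2
    exact ((hpr i hiN).2.1.2 j hTj).2
      ((mul_le_mul_of_nonneg_right (by exact_mod_cast hi2) hD.le).trans (hκ1 i hiN))
  all_goals
    simp only [Fin.val_mk]
    have e : ∑ i ∈ Finset.Icc 1 N, fordA i * lam (pr i : ℝ)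
        ≤ ∑ i ∈ Finset.Icc 1 N, fordA i * (((k i : ℝ) + 1) * P.D) :=
      Finset.sum_le_sum fun i hi => by
        obtain ⟨hi0, hi1⟩ := Finset.mem_Icc.1 hi
        rw [hk i hi1]
        exact mul_le_mul_of_nonneg_left (hκ2 i) (fordA_nonneg_of_pos hi0)
  · rw [hk 0 (Nat.zero_le _)]; linarith [hκ1 0 (Nat.zero_le _)]
  · linarith

theorem valErr_count {P : Params} (hP : ValBig P) :
    (P.K' : ℝ) * ((2 * P.J + 1 : ℕ) : ℝ) ^ P.K' ≤ Real.exp (4 * P.valErr) ∧
    P.D * (∑ i ∈ Finset.range P.K', |fordA i|) + P.D ≤ 3 * P.valErr := by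
  obtain ⟨hK, hL, hTe, hKT⟩ := hP
  have hK20 := P.one_le_K' hK
  have hJ := P.J_pos
  have hv1 : (P.K' : ℝ) ^ 3 * (P.J : ℝ) ≤ P.valErr := by
    unfold Params.valErr
    refine mul_le_mul_of_nonneg_left ?_ (by positivity)
    have : 0 ≤ P.theta * P.L := mul_nonneg (by unfold Params.theta; positivity) (by linarith)
    linarith
  have hv2 : (P.K' : ℝ) ^ 3 * P.Te ≤ P.valErr := by
    unfold Params.valErr
    refine mul_le_mul_of_nonneg_left ?_ (by positivity)
    have : 0 ≤ P.theta * P.L := mul_nonneg (by unfold Params.theta; positivity) (by linarith)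
    linarith
  constructor
  · have a1 : (P.K' : ℝ) ≤ Real.exp (P.K' : ℝ) := by linarith [Real.add_one_le_exp (P.K' : ℝ)]
    have a2 : ((2 * P.J + 1 : ℕ) : ℝ) ≤ Real.exp (3 * (P.J : ℝ)) := by
      push_cast; linarith [Real.add_one_le_exp (3 * (P.J : ℝ))]
    calc _ ≤ Real.exp (P.K' : ℝ) * Real.exp (3 * (P.J : ℝ)) ^ P.K' := by
          gcongr
      _ = Real.exp ((P.K' : ℝ) + (P.K' : ℝ) * (3 * (P.J : ℝ))) := by
          rw [← Real.exp_nat_mul, ← Real.exp_add]
      _ ≤ _ := by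
          refine Real.exp_le_exp.2 ?_
          have : (P.K' : ℝ) * (P.J : ℝ) ≤ (P.K' : ℝ) ^ 3 * (P.J : ℝ) :=
            mul_le_mul_of_nonneg_right (le_self_pow₀ (by linarith) (by norm_num)) (by linarith)
          nlinarith
  · have ha : ∑ i ∈ Finset.range P.K', |fordA i| ≤ 2 * (P.K' : ℝ) ^ 2 := by
      calc _ ≤ ∑ i ∈ Finset.range P.K', 2 * (P.K' : ℝ) := by
            refine Finset.sum_le_sum fun i hi => ?_
            have hi' : ((i : ℝ) + 1) ≤ (P.K' : ℝ) := by exact_mod_cast Finset.mem_range.1 hi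
            rcases Nat.eq_zero_or_pos i with rfl | h0
            · unfold fordA; norm_num; linarith
            rw [abs_of_nonneg (fordA_nonneg_of_pos h0)]
            have hi1 : (1 : ℝ) ≤ (i : ℝ) := by exact_mod_cast h0
            have hl : Real.log ((i : ℝ) + 1) ≤ Real.log (i : ℝ) + 1 / (i : ℝ) := by
              have := Real.log_le_sub_one_of_pos (show (0 : ℝ) < ((i : ℝ) + 1) / i by positivity)
              rw [Real.log_div (by positivity) (by positivity)] at this
              rw [add_div, div_self (by positivity : (i : ℝ) ≠ 0)] at this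
              linarith
            have hm : (i : ℝ) * (Real.log ((i : ℝ) + 1) - Real.log (i : ℝ)) ≤ 1 := by
              have := mul_le_mul_of_nonneg_left hl (show (0 : ℝ) ≤ i by linarith)
              rw [mul_add, mul_one_div_cancel (by positivity : (i : ℝ) ≠ 0)] at this
              linarith
            have hlog := Real.log_le_sub_one_of_pos (show (0 : ℝ) < (i : ℝ) + 1 by linarith)
            unfold fordA; linarith
        _ = 2 * (P.K' : ℝ) ^ 2 := by rw [Finset.sum_const, Finset.card_range, nsmul_eq_mul]; ring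
    have hDT := P.D_le_Te (by linarith)
    have hD0 := P.D_nonneg (by linarith)
    calc _ ≤ P.D * (2 * (P.K' : ℝ) ^ 2) + P.D := by gcongr
      _ ≤ 3 * ((P.K' : ℝ) ^ 3 * P.Te) := by
          have : (P.K' : ℝ) ^ 2 ≤ (P.K' : ℝ) ^ 3 := pow_le_pow_right₀ (by linarith) (by norm_num)
          have h2 : (1 : ℝ) ≤ (P.K' : ℝ) ^ 3 := one_le_pow₀ (by linarith)
          have := mul_le_mul hDT this (by positivity) (by linarith)
          have := mul_le_mul hDT h2 zero_le_one (by linarith)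
          linarith
      _ ≤ _ := by linarith

/-- Weight of the values with a too heavy profile. -/
theorem heavy_weight_le : ∃ C : ℝ, 0 ≤ C ∧ ∀ P : Params, ValBig P → ∀ mu lo : ℝ,
    ∀ S : Finset ℕ, (∀ w ∈ S, HeavyValue P mu lo w) →
    ∑ w ∈ S, (1 : ℝ) / w ≤ Real.exp (-mu + C * P.valErr) := by
  obtain ⟨C, hC, hprof⟩ := profile_weight_le
  refine ⟨C + 7, by linarith, fun P hP mu lo S hS => ?_⟩
  choose q hq using fun w : {w // w ∈ S} => heavy_to_profile hP (hS w.1 w.2)
  obtain ⟨hcnt, herr⟩ := valErr_count hP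
  have hD := P.D_pos (by linarith [hP.2.1])
  rw [← Finset.sum_coe_sort, ← Finset.sum_fiberwise (g := q)]
  calc ∑ z : (Fin P.K') × (Fin P.K' → Fin (2 * P.J + 1)),
        ∑ w : {w // w ∈ S} with q w = z, (1 : ℝ) / (w : ℕ)
      ≤ ∑ _z : (Fin P.K') × (Fin P.K' → Fin (2 * P.J + 1)),
          Real.exp (-mu + (C + 3) * P.valErr) := by
        refine Finset.sum_le_sum fun z _ => ?_
        rcases Finset.eq_empty_or_nonempty
          ((Finset.univ : Finset {w // w ∈ S}).filter fun w => q w = z) with h0 | ⟨w0, hw0⟩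
        · rw [h0, Finset.sum_empty]; exact (Real.exp_pos _).le
        have hz := hq w0
        rw [(Finset.mem_filter.1 hw0).2] at hz
        revert hz
        intro hz
        set k : ℕ → ℕ := fun i => if h : i ≤ (z.1 : ℕ) then
          ((z.2 ⟨i, lt_of_le_of_lt h z.1.2⟩ : Fin _) : ℕ) else 0 with hk
        obtain ⟨hanti, hk0, -, -, hbig, -⟩ := hz
        have := hprof P hP z.1 z.1.2 k hanti hk0 (((k 0 : ℝ) + 1) * P.D) (by positivity)
          (((Finset.univ : Finset {w // w ∈ S}).filter fun w => q w = z).image Subtype.val) (by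
            intro w hw
            obtain ⟨v, hv, rfl⟩ := Finset.mem_image.1 hw
            have hv' := hq v
            rw [(Finset.mem_filter.1 hv).2] at hv'
            exact ⟨hv'.2.2.1, hv'.2.2.2.1⟩)
        rw [Finset.sum_image fun a _ b _ h => Subtype.ext h] at this
        refine this.trans (Real.exp_le_exp.2 ?_)
        have hs : ∑ i ∈ Finset.Icc 1 (z.1 : ℕ), fordA i * (((k i : ℝ) + 1) * P.D)
            = ∑ i ∈ Finset.Icc 1 (z.1 : ℕ), fordA i * ((k i : ℝ) * P.D)
              + P.D * ∑ i ∈ Finset.Icc 1 (z.1 : ℕ), fordA i := by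
          rw [Finset.mul_sum, ← Finset.sum_add_distrib]
          exact Finset.sum_congr rfl fun i _ => by ring
        have hsub : ∑ i ∈ Finset.Icc 1 (z.1 : ℕ), fordA i
            ≤ ∑ i ∈ Finset.range P.K', |fordA i| :=
          (Finset.sum_le_sum fun i _ => le_abs_self _).trans
            (Finset.sum_le_sum_of_subset_of_nonneg (fun i hi => Finset.mem_range.2
              (lt_of_le_of_lt (Finset.mem_Icc.1 hi).2 z.1.2)) fun i _ _ => abs_nonneg _)
        have := mul_le_mul_of_nonneg_left hsub hD.le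
        change (k 0 : ℝ) * P.D + mu ≤ _ at hbig
        linarith
    _ = ((P.K' : ℝ) * ((2 * P.J + 1 : ℕ) : ℝ) ^ P.K') * Real.exp (-mu + (C + 3) * P.valErr) := by
        rw [Finset.sum_const, Finset.card_univ, Fintype.card_prod, Fintype.card_pi, Finset.prod_const,
          Finset.card_univ, Fintype.card_fin, Fintype.card_fin, nsmul_eq_mul, Nat.cast_mul,
          Nat.cast_pow]
    _ ≤ Real.exp (4 * P.valErr) * Real.exp (-mu + (C + 3) * P.valErr) :=
        mul_le_mul_of_nonneg_right hcnt (Real.exp_pos _).le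
    _ = _ := by rw [← Real.exp_add]; ring_nf

/-- Number of values `≤ y` with a too heavy profile. -/
theorem heavy_card_le : ∃ C : ℝ, 0 ≤ C ∧ ∀ P : Params, ValBig P → ∀ mu lo : ℝ,
    ∀ y : ℝ, Real.exp (Real.exp P.L) ≤ y → lam y ≤ P.L + 1 →
    ∀ S : Finset ℕ, (∀ w ∈ S, HeavyValue P mu lo w ∧ (w : ℝ) ≤ y) →
    (S.card : ℝ) ≤ y / Real.exp P.L * Real.exp (P.L - lo - mu + C * P.valErr) := by
  obtain ⟨C, hC, hprof⟩ := profile_card_le
  refine ⟨C + 7, by linarith, fun P hP mu lo y hy hly S hS => ?_⟩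
  choose q hq using fun w : {w // w ∈ S} => heavy_to_profile hP (hS w.1 w.2).1
  obtain ⟨hcnt, herr⟩ := valErr_count hP
  have hD := P.D_pos (by linarith [hP.2.1])
  have hy0 : 0 ≤ y / Real.exp P.L :=
    div_nonneg ((Real.exp_pos _).le.trans hy) (Real.exp_pos _).le
  rw [← Fintype.card_coe, ← Finset.card_univ,
    Finset.card_eq_sum_card_fiberwise (f := q) (t := Finset.univ) (fun _ _ => Finset.mem_univ _),
    Nat.cast_sum]
  calc _ ≤ ∑ _z : (Fin P.K') × (Fin P.K' → Fin (2 * P.J + 1)),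
          y / Real.exp P.L * Real.exp (P.L - lo - mu + (C + 3) * P.valErr) := by
        refine Finset.sum_le_sum fun z _ => ?_
        rcases Finset.eq_empty_or_nonempty
          ((Finset.univ : Finset {w // w ∈ S}).filter fun w => q w = z) with h0 | ⟨w0, hw0⟩
        · rw [h0, Finset.card_empty, Nat.cast_zero]; exact mul_nonneg hy0 (Real.exp_pos _).le
        have hz := hq w0
        rw [(Finset.mem_filter.1 hw0).2] at hz
        revert hz
        intro hz
        set k : ℕ → ℕ := fun i => if h : i ≤ (z.1 : ℕ) then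
          ((z.2 ⟨i, lt_of_le_of_lt h z.1.2⟩ : Fin _) : ℕ) else 0 with hk
        obtain ⟨hanti, hk0, -, -, -, hbig⟩ := hz
        have := hprof P hP z.1 z.1.2 k hanti hk0 y hy hly
          (((Finset.univ : Finset {w // w ∈ S}).filter fun w => q w = z).image Subtype.val) (by
            intro w hw
            obtain ⟨v, hv, rfl⟩ := Finset.mem_image.1 hw
            have hv' := hq v
            rw [(Finset.mem_filter.1 hv).2] at hv'
            exact ⟨(hS v.1 v.2).1.1, (hS v.1 v.2).2, hv'.2.2.2.1⟩)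
        rw [Finset.card_image_of_injective _ Subtype.val_injective] at this
        refine this.trans (mul_le_mul_of_nonneg_left (Real.exp_le_exp.2 ?_) hy0)
        have hs : ∑ i ∈ Finset.Icc 1 (z.1 : ℕ), fordA i * (((k i : ℝ) + 1) * P.D)
            = ∑ i ∈ Finset.Icc 1 (z.1 : ℕ), fordA i * ((k i : ℝ) * P.D)
              + P.D * ∑ i ∈ Finset.Icc 1 (z.1 : ℕ), fordA i := by
          rw [Finset.mul_sum, ← Finset.sum_add_distrib]
          exact Finset.sum_congr rfl fun i _ => by ring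
        have hsub : ∑ i ∈ Finset.Icc 1 (z.1 : ℕ), fordA i
            ≤ ∑ i ∈ Finset.range P.K', |fordA i| :=
          (Finset.sum_le_sum fun i _ => le_abs_self _).trans
            (Finset.sum_le_sum_of_subset_of_nonneg (fun i hi => Finset.mem_range.2
              (lt_of_le_of_lt (Finset.mem_Icc.1 hi).2 z.1.2)) fun i _ _ => abs_nonneg _)
        have := mul_le_mul_of_nonneg_left hsub hD.le
        linarith
    _ = ((P.K' : ℝ) * ((2 * P.J + 1 : ℕ) : ℝ) ^ P.K') *
          (y / Real.exp P.L * Real.exp (P.L - lo - mu + (C + 3) * P.valErr)) := by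
        rw [Finset.sum_const, Finset.card_univ, Fintype.card_prod, Fintype.card_pi, Finset.prod_const,
          Finset.card_univ, Fintype.card_fin, Fintype.card_fin, nsmul_eq_mul, Nat.cast_mul,
          Nat.cast_pow]
    _ ≤ Real.exp (4 * P.valErr) *
          (y / Real.exp P.L * Real.exp (P.L - lo - mu + (C + 3) * P.valErr)) :=
        mul_le_mul_of_nonneg_right hcnt (mul_nonneg hy0 (Real.exp_pos _).le)
    _ = _ := by rw [mul_left_comm, ← Real.exp_add]; ring_nf

end Vale.Agent.P031
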