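import Vale.Agent.P031.Normal
import Vale.Agent.P031.Values
import Vale.Agent.P031.RepBasics

/-!
# P031 Q2, section 4: the crude bound for the mass of totient values of bounded scale

`valueMass s ≤ exp (C (log s) ^ 2)`: preimages with at most three distinct primes above `0.45 s`
reduce to the scale `0.45 s`, a non-normal large prime costs a small factor, and four normal large
primes give a too heavy profile.
-/

open scoped Classical
noncomputable section

namespace Vale.Agent.P031

open Real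

theorem smoothValues_smoothLam {s : ℝ} {m : ℕ} (h : m ∈ smoothValues s) : SmoothLam s m := by
  obtain ⟨n, hn, rfl⟩ := h
  exact smoothLam_totient hn

theorem one_mem_smoothValues (s : ℝ) : 1 ∈ smoothValues s :=
  ⟨1, ⟨one_ne_zero, by simp⟩, Nat.totient_one⟩

theorem smoothValues_mono {s t : ℝ} (h : s ≤ t) : smoothValues s ⊆ smoothValues t := by
  rintro m ⟨n, hn, rfl⟩
  exact ⟨n, ⟨hn.1, fun r hr => (hn.2 r hr).trans h⟩, rfl⟩

theorem valueMass_summable (s : ℝ) :
    Summable (fun m : smoothValues s => (1 : ℝ) / ((m : ℕ) : ℝ)) := by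
  have h := (euler_smoothLam_tsum s 1 (fun _ => 1)
    (fun p hp _ => ⟨zero_le_one, le_rfl, by
      have : (2 : ℝ) ≤ p := by exact_mod_cast hp.two_le
      linarith⟩)
    (smoothValues s) (fun n hn => smoothValues_smoothLam hn)).1
  simpa only [cmul_const_one] using h

theorem sum_inv_le_valueMass (s : ℝ) (S : Finset ℕ) (h : ∀ m ∈ S, m ∈ smoothValues s) :
    ∑ m ∈ S, (1 : ℝ) / m ≤ valueMass s := by
  unfold valueMass
  refine le_trans (le_of_eq ?_) ((valueMass_summable s).sum_le_tsum (S.subtype (· ∈ smoothValues s))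
    (fun i _ => by positivity))
  rw [Finset.sum_subtype_eq_sum_filter (fun m : ℕ => (1 : ℝ) / m)]
  exact Finset.sum_congr (Finset.filter_true_of_mem h).symm fun _ _ => rfl

theorem valueMass_le_of_sum_le {s B : ℝ}
    (h : ∀ S : Finset ℕ, (∀ m ∈ S, m ∈ smoothValues s) → ∑ m ∈ S, (1 : ℝ) / m ≤ B) :
    valueMass s ≤ B := by
  unfold valueMass
  refine Real.tsum_le_of_sum_le (fun m => by positivity) fun u => ?_
  have := h (u.map (Function.Embedding.subtype _)) (by
    intro m hm
    obtain ⟨z, -, rfl⟩ := Finset.mem_map.mp hm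
    exact z.2)
  rwa [Finset.sum_map] at this

theorem one_le_valueMass (s : ℝ) : 1 ≤ valueMass s := by
  have := sum_inv_le_valueMass s {1} (fun m hm => by
    rw [Finset.mem_singleton] at hm
    subst hm
    exact one_mem_smoothValues s)
  simpa using this

theorem valueMass_mono : Monotone valueMass := fun _ t hst =>
  valueMass_le_of_sum_le fun S hS =>
    sum_inv_le_valueMass t S fun m hm => smoothValues_mono hst (hS m hm)

namespace Crude

theorem geom_le {x : ℝ} (h0 : 0 ≤ x) (h1 : x ≤ 1 / 2) (M : ℕ) :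
    ∑ k ∈ Finset.range M, x ^ k ≤ 2 := by
  refine (geom_sum_le h0 (by linarith) M).trans ?_
  rw [inv_le_iff_one_le_mul₀ (by linarith)]
  linarith

/-- Splitting off one prime of the preimage out of a given set. -/
theorem peel (Q S : Finset ℕ) (p n : ℕ → ℕ) (B : ℝ) (hQ : ∀ q ∈ Q, q.Prime)
    (hS : ∀ m ∈ S, p m ∈ Q ∧ p m ∈ (n m).primeFactors ∧ Nat.totient (n m) = m)
    (hB : ∑ b ∈ S.image (fun m => Nat.totient (part (n m) fun r => r ≠ p m)), (1 : ℝ) / b ≤ B) :
    ∑ m ∈ S, (1 : ℝ) / m ≤ (2 * ∑ q ∈ Q, (1 : ℝ) / ((q : ℝ) - 1)) * B := by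
  have hB0 : 0 ≤ B := le_trans (Finset.sum_nonneg fun _ _ => by positivity) hB
  set M := S.sup (fun m => (n m).factorization (p m)) with hM
  set A := (Q ×ˢ Finset.range M).image (fun z : ℕ × ℕ => z.1 ^ z.2 * (z.1 - 1)) with hA
  set A' := S.image (fun m => Nat.totient (part (n m) fun r => r = p m)) with hA'
  refine (sum_inv_le_mul S A' (S.image (fun m => Nat.totient (part (n m) fun r => r ≠ p m)))
    fun m hm => ⟨_, Finset.mem_image_of_mem _ hm, _, Finset.mem_image_of_mem _ hm, ?_⟩).trans ?_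
  · obtain ⟨-, hp, ht⟩ := hS m hm
    conv_lhs => rw [← ht, totient_split (Nat.mem_primeFactors.1 hp).2.2 (fun r => r = p m)]
  have hAA : A' ⊆ A := by
    intro a ha
    obtain ⟨m, hm, rfl⟩ := Finset.mem_image.1 ha
    obtain ⟨hq, hp, -⟩ := hS m hm
    have hn := (Nat.mem_primeFactors.1 hp).2.2
    have hpp := Nat.prime_of_mem_primeFactors hp
    have hpos := hpp.factorization_pos_of_dvd hn (Nat.dvd_of_mem_primeFactors hp)
    have he : part (n m) (fun r => r = p m) = p m ^ (n m).factorization (p m) := by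
      unfold part
      refine Finset.prod_eq_single_of_mem _ ?_ fun r hr hne => ?_
      · simp [hp]
      · simp only [Finset.mem_filter] at hr
        exact absurd hr.2 hne
    rw [he, Nat.totient_prime_pow hpp hpos]
    refine Finset.mem_image.2 ⟨(p m, (n m).factorization (p m) - 1),
      Finset.mem_product.2 ⟨hq, Finset.mem_range.2 ?_⟩, rfl⟩
    have : (n m).factorization (p m) ≤ M := Finset.le_sup (f := fun m => (n m).factorization (p m)) hm
    omega
  have hAsum : ∑ a ∈ A', (1 : ℝ) / a ≤ 2 * ∑ q ∈ Q, (1 : ℝ) / ((q : ℝ) - 1) := by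
    refine (Finset.sum_le_sum_of_subset_of_nonneg hAA fun _ _ _ => by positivity).trans ?_
    refine (Finset.sum_image_le_of_nonneg fun _ _ => by positivity).trans ?_
    rw [Finset.sum_product, Finset.mul_sum]
    refine Finset.sum_le_sum fun q hq => ?_
    have h2 : (2 : ℝ) ≤ q := by exact_mod_cast (hQ q hq).two_le
    have hterm : ∀ k : ℕ, (1 : ℝ) / ((q ^ k * (q - 1) : ℕ) : ℝ)
        = (1 / (q : ℝ)) ^ k * (1 / ((q : ℝ) - 1)) := fun k => by
      rw [Nat.cast_mul, Nat.cast_pow, Nat.cast_sub (hQ q hq).one_le, Nat.cast_one, div_pow,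
        one_pow, one_div_mul_one_div]
    simp only [hterm]
    rw [← Finset.sum_mul]
    refine mul_le_mul_of_nonneg_right
      (geom_le (by positivity) (one_div_le_one_div_of_le two_pos h2) M) ?_
    exact div_nonneg zero_le_one (by linarith)
  refine mul_le_mul hAsum hB (Finset.sum_nonneg fun _ _ => by positivity) ?_
  exact le_trans (Finset.sum_nonneg fun _ _ => by positivity) hAsum

/-- Values with few primes above the scale `u`. -/
theorem few_big {u s : ℝ} (j : ℕ) : ∀ S : Finset ℕ,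
    (∀ m ∈ S, ∃ n : ℕ, SmoothLam s n ∧ Nat.totient n = m ∧
      (n.primeFactors.filter fun r : ℕ => u < lam (r : ℝ)).card ≤ j) →
    ∑ m ∈ S, (1 : ℝ) / m ≤
      (1 + 2 * ∑ q ∈ primesLam u s, (1 : ℝ) / ((q : ℝ) - 1)) ^ j * valueMass u := by
  set R := 2 * ∑ q ∈ primesLam u s, (1 : ℝ) / ((q : ℝ) - 1) with hR
  have hR0 : 0 ≤ R := by
    refine mul_nonneg two_pos.le (Finset.sum_nonneg fun q hq => div_nonneg zero_le_one ?_)
    have : (1 : ℝ) ≤ q := by exact_mod_cast (mem_primesLam.1 hq).1.one_le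
    linarith
  induction j with
  | zero =>
    intro S hS
    rw [pow_zero, one_mul]
    refine sum_inv_le_valueMass u S fun m hm => ?_
    obtain ⟨n, hn, ht, hc⟩ := hS m hm
    refine ⟨n, ⟨hn.1, fun r hr => ?_⟩, ht⟩
    by_contra h
    rw [Nat.le_zero, Finset.card_eq_zero, Finset.filter_eq_empty_iff] at hc
    exact hc hr (lt_of_not_ge h)
  | succ j ih =>
    intro S hS
    set S0 := S.filter fun m => ∃ n : ℕ, SmoothLam s n ∧ Nat.totient n = m ∧
      (n.primeFactors.filter fun r : ℕ => u < lam (r : ℝ)).card ≤ j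
    have h0 : ∑ m ∈ S0, (1 : ℝ) / m ≤ (1 + R) ^ j * valueMass u :=
      ih S0 fun m hm => (Finset.mem_filter.1 hm).2
    have h1 : ∑ m ∈ S \ S0, (1 : ℝ) / m ≤ R * ((1 + R) ^ j * valueMass u) := by
      have hex : ∀ m, m ∈ S \ S0 → ∃ n p : ℕ, SmoothLam s n ∧ Nat.totient n = m ∧
          (n.primeFactors.filter fun r : ℕ => u < lam (r : ℝ)).card ≤ j + 1 ∧
          p ∈ n.primeFactors ∧ u < lam (p : ℝ) := by
        intro m hm
        obtain ⟨hmS, hm0⟩ := Finset.mem_sdiff.1 hm
        obtain ⟨n, hn, ht, hc⟩ := hS m hmS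
        have hne : (n.primeFactors.filter fun r : ℕ => u < lam (r : ℝ)).Nonempty := by
          rw [← Finset.card_pos]
          by_contra h
          exact hm0 (Finset.mem_filter.2 ⟨hmS, n, hn, ht, by omega⟩)
        obtain ⟨p, hp⟩ := hne
        obtain ⟨hp1, hp2⟩ := Finset.mem_filter.1 hp
        exact ⟨n, p, hn, ht, hc, hp1, hp2⟩
      choose! n p hn ht hc hp hpu using hex
      refine peel (primesLam u s) (S \ S0) p n _ (fun q hq => (mem_primesLam.1 hq).1)
        (fun m hm => ⟨mem_primesLam.2 ⟨Nat.prime_of_mem_primeFactors (hp m hm), hpu m hm,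
          (hn m hm).2 _ (hp m hm)⟩, hp m hm, ht m hm⟩) (ih _ ?_)
      intro b hb
      obtain ⟨m, hm, rfl⟩ := Finset.mem_image.1 hb
      refine ⟨_, smoothLam_part (hn m hm) _, rfl, ?_⟩
      have hsub : ((part (n m) fun r => r ≠ p m).primeFactors.filter
          fun r : ℕ => u < lam (r : ℝ)) ⊆
          ((n m).primeFactors.filter fun r : ℕ => u < lam (r : ℝ)).erase (p m) := by
        intro r hr
        obtain ⟨h1, h2⟩ := Finset.mem_filter.1 hr
        obtain ⟨h3, h4⟩ := mem_primeFactors_part.1 h1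
        exact Finset.mem_erase.2 ⟨h4, Finset.mem_filter.2 ⟨h3, h2⟩⟩
      have hmem : p m ∈ (n m).primeFactors.filter fun r : ℕ => u < lam (r : ℝ) :=
        Finset.mem_filter.2 ⟨hp m hm, hpu m hm⟩
      have := Finset.card_le_card hsub
      rw [Finset.card_erase_of_mem hmem] at this
      have := hc m hm
      omega
    rw [← Finset.sum_sdiff (Finset.filter_subset _ S : S0 ⊆ S)]
    calc ∑ m ∈ S \ S0, (1 : ℝ) / m + ∑ m ∈ S0, (1 : ℝ) / m
        ≤ R * ((1 + R) ^ j * valueMass u) + (1 + R) ^ j * valueMass u := add_le_add h1 h0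
      _ = (1 + R) ^ (j + 1) * valueMass u := by ring

/-- Four large normal primes give a heavy value. -/
theorem heavy_of_four {P : Params} (hK : 1 ≤ P.K) (hL : 0 < P.L) {n : ℕ}
    (hn : SmoothLam P.L n) (hTe : P.Te ≤ 0.45 * P.L)
    (hcard : 4 ≤ (n.primeFactors.filter fun r : ℕ => 0.45 * P.L < lam (r : ℝ)).card)
    (hnorm : ∀ r ∈ n.primeFactors, 0.45 * P.L < lam (r : ℝ) → P.Normal r) :
    HeavyValue P (0.1 * P.L) 0 (Nat.totient n) := by
  set Bg := n.primeFactors.filter fun r : ℕ => 0.45 * P.L < lam (r : ℝ) with hBg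
  set e := Bg.orderEmbOfFin (rfl : Bg.card = Bg.card) with he
  set pr : ℕ → ℕ := fun i => if h : i < Bg.card then e ⟨Bg.card - 1 - i, by omega⟩ else 0 with hpr
  have hmem : ∀ i ≤ 3, pr i ∈ Bg := by
    intro i hi
    simp only [hpr, dif_pos (show i < Bg.card by omega)]
    exact Finset.orderEmbOfFin_mem _ _ _
  have hinj : Set.InjOn pr ↑(Finset.range 4) := by
    intro i hi k hk hik
    simp only [Finset.coe_range, Set.mem_Iio] at hi hk
    simp only [hpr, dif_pos (show i < Bg.card by omega), dif_pos (show k < Bg.card by omega)] at hik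
    have := Fin.ext_iff.1 (e.injective hik)
    simp only at this
    omega
  have hp0 : ∀ r ∈ n.primeFactors, r ≤ pr 0 := by
    intro r hr
    by_cases h : 0.45 * P.L < lam (r : ℝ)
    · have hrB : r ∈ Bg := Finset.mem_filter.2 ⟨hr, h⟩
      simp only [hpr, dif_pos (show 0 < Bg.card by omega)]
      rw [← Finset.mem_coe, ← Finset.range_orderEmbOfFin Bg rfl] at hrB
      obtain ⟨k, rfl⟩ := hrB
      refine e.monotone ?_
      rw [Fin.le_def]
      simp only
      omega
    · push Not at h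
      by_contra hlt
      push Not at hlt
      obtain ⟨h1, h2⟩ := Finset.mem_filter.1 (hmem 0 (by norm_num))
      have := lam_mono (Nat.prime_of_mem_primeFactors h1).two_le hlt.le
      linarith
  have hlo : ∀ i ≤ 3, 0.45 * P.L < lam (pr i : ℝ) ∧ lam (pr i : ℝ) ≤ P.L := fun i hi => by
    obtain ⟨h1, h2⟩ := Finset.mem_filter.1 (hmem i hi)
    exact ⟨h2, hn.2 _ h1⟩
  refine ⟨fun h => hn.1 (Nat.totient_eq_zero.1 h), 3, ?_, pr, ?_, ?_, ?_, ?_, ?_, ?_, ?_⟩
  · unfold Params.K'; omega
  · intro i hi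
    obtain ⟨h1, h2⟩ := Finset.mem_filter.1 (hmem i hi)
    exact ⟨Nat.prime_of_mem_primeFactors h1, hnorm _ h1 h2, hTe.trans h2.le⟩
  · intro i hi
    simp only [hpr, dif_pos (show i < Bg.card by omega),
      dif_pos (show i + 1 < Bg.card by omega)]
    refine e.monotone ?_
    rw [Fin.le_def]
    simp only
    omega
  · intro r hr
    obtain ⟨q, hq, hrq⟩ := le_primeFactor_of_mem_totient hr
    exact hrq.trans (hp0 q hq)
  · linarith [(hlo 0 (by norm_num)).1]
  · linarith [(hlo 0 (by norm_num)).2]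
  · rw [← Finset.prod_image (f := fun r => r - 1) hinj]
    refine prod_sub_one_dvd_totient fun r hr => ?_
    obtain ⟨i, hi, rfl⟩ := Finset.mem_image.1 hr
    exact (Finset.mem_filter.1 (hmem i (by simp at hi; omega))).1
  · have hA : ∑ i ∈ Finset.Icc 1 3, fordA i * (0.45 * P.L)
        ≤ ∑ i ∈ Finset.Icc 1 3, fordA i * lam (pr i : ℝ) :=
      Finset.sum_le_sum fun i hi => mul_le_mul_of_nonneg_left
        (hlo i (Finset.mem_Icc.1 hi).2).1.le (fordA_nonneg_of_pos (Finset.mem_Icc.1 hi).1)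
    have hS : (2.5 : ℝ) ≤ ∑ i ∈ Finset.Icc 1 3, fordA i := by
      rw [sum_fordA_Icc]
      norm_num
      rw [show (4 : ℝ) = 2 ^ 2 by norm_num, Real.log_pow]
      have := Real.log_two_gt_d9
      push_cast
      linarith
    rw [← Finset.sum_mul] at hA
    have h0 := (hlo 0 (by norm_num)).2
    nlinarith

/-- One step of the descent in the scale. -/
theorem step : ∃ s0 : ℝ, 7 ≤ s0 ∧ ∀ s, s0 ≤ s →
    valueMass s ≤ s ^ 4 * valueMass (0.45 * s) := by
  obtain ⟨C2, hC2, hm2⟩ := mertens_lam_pred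
  obtain ⟨CV, hCV, hheavy⟩ := heavy_weight_le
  obtain ⟨L1, hnw⟩ := normal_weight_mild
  have hK : ∃ K : ℕ, 1 ≤ K ∧ CV * 16000 * ((K : ℝ) ^ 3 / 2 ^ K) ≤ 0.05 := by
    have h := (tendsto_pow_const_div_const_pow_of_one_lt 3
      (show (1 : ℝ) < 2 by norm_num)).const_mul (CV * 16000)
    rw [mul_zero] at h
    obtain ⟨N, hN⟩ := Filter.eventually_atTop.1 (h.eventually_le_const (by norm_num : (0:ℝ) < 0.05))
    exact ⟨max N 1, le_max_right _ _, hN _ (le_max_left _ _)⟩
  obtain ⟨K, hK1, hKsmall⟩ := hK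
  set T17 : ℝ := 2 ^ (17 * K) with hT17
  set c0 : ℝ := CV * ((20 * K : ℕ) : ℝ) ^ 3 * (2 : ℝ) ^ (18 * K) with hc0
  refine ⟨7 + max 0 L1 + exp (250 * K) + 6 * T17 + 40 * (K : ℝ) * T17 + 20 * c0
    + 16 * (C2 + 1) + 200, ?_, fun s hs => ?_⟩
  · have : 0 ≤ 6 * T17 + 40 * (K : ℝ) * T17 + 20 * c0 := by positivity
    have : 0 ≤ max 0 L1 := le_max_left _ _
    linarith [exp_pos (250 * (K : ℝ))]
  have hT1 : (1 : ℝ) ≤ T17 := one_le_pow₀ one_le_two
  have hc00 : 0 ≤ c0 := by positivity
  have hKT : 0 ≤ 40 * (K : ℝ) * T17 := by positivity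
  have hmax : 0 ≤ max 0 L1 := le_max_left _ _
  have hmax' : L1 ≤ max 0 L1 := le_max_right _ _
  have hexp : 0 < exp (250 * (K : ℝ)) := exp_pos _
  have hs200 : 200 ≤ s := by linarith
  have hs0 : 0 < s := by linarith
  set P : Params := ⟨s, K⟩ with hP
  have hTeq : P.Te = s / T17 := rfl
  have hTe45 : P.Te ≤ 0.45 * P.L := by
    rw [hTeq]
    change s / T17 ≤ 0.45 * s
    have h4 : (4 : ℝ) ≤ T17 := by
      calc (4 : ℝ) = 2 ^ 2 := by norm_num
        _ ≤ 2 ^ (17 * K) := pow_le_pow_right₀ one_le_two (by omega)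
    rw [div_le_iff₀ (by linarith)]
    nlinarith
  have hlog : (P.K : ℝ) ≤ Real.log P.L / 250 := by
    change (K : ℝ) ≤ Real.log s / 250
    rw [le_div_iff₀ (by norm_num), ← log_exp ((K : ℝ) * 250)]
    refine log_le_log (exp_pos _) ?_
    rw [mul_comm]
    linarith
  have hVB : ValBig P := by
    refine ⟨hK1, show (1 : ℝ) ≤ s by linarith, ?_, ?_⟩
    · rw [hTeq, le_div_iff₀ (by linarith)]; linarith
    · rw [hTeq, le_div_iff₀ (by linarith)]
      unfold Params.K'
      push_cast
      change 2 * (20 * (K : ℝ)) * T17 ≤ s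
      linarith
  have herr : CV * P.valErr ≤ 0.05 * s + c0 := by
    have h1 : P.Te + P.theta * P.L ≤ 2 * s / 2 ^ K := by
      rw [hTeq]
      unfold Params.theta
      change s / T17 + 1 / 2 ^ (20 * K) * s ≤ 2 * s / 2 ^ K
      have e1 : s / T17 ≤ s / 2 ^ K := by
        rw [hT17]
        exact div_le_div_of_nonneg_left hs0.le (by positivity)
          (pow_le_pow_right₀ one_le_two (by omega))
      have e2 : 1 / 2 ^ (20 * K) * s ≤ s / 2 ^ K := by
        rw [div_mul_eq_mul_div, one_mul]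
        exact div_le_div_of_nonneg_left hs0.le (by positivity)
          (pow_le_pow_right₀ one_le_two (by omega))
      have e3 : s / 2 ^ K + s / 2 ^ K = 2 * s / 2 ^ K := by ring
      linarith
    have h2 : CV * P.valErr = CV * ((20 * K : ℕ) : ℝ) ^ 3 * (P.Te + P.theta * P.L) + c0 := by
      unfold Params.valErr Params.K' Params.J
      rw [hc0]
      push_cast
      ring
    rw [h2]
    have h3 : CV * ((20 * K : ℕ) : ℝ) ^ 3 * (2 * s / 2 ^ K)
        = CV * 16000 * ((K : ℝ) ^ 3 / 2 ^ K) * s := by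
      push_cast; ring
    have h4 := mul_le_mul_of_nonneg_left h1
      (show 0 ≤ CV * ((20 * K : ℕ) : ℝ) ^ 3 by positivity)
    have h5 := mul_le_mul_of_nonneg_right hKsmall hs0.le
    linarith
  set u := 0.45 * s with hu
  have hu0 : 0 ≤ u := by positivity
  have hus : u ≤ s := by linarith
  have hR : ∑ q ∈ primesLam u s, (1 : ℝ) / ((q : ℝ) - 1) ≤ s + C2 := by
    linarith [(abs_le.1 (hm2 u s hu0 hus)).2]
  have key : valueMass s ≤
      (1 + 2 * (s + C2)) ^ 3 * valueMass u + valueMass s / 2 + 1 := by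
    refine valueMass_le_of_sum_le fun S hS => ?_
    set SA := S.filter fun m => ∃ n : ℕ, SmoothLam s n ∧ Nat.totient n = m ∧
      (n.primeFactors.filter fun r : ℕ => u < lam (r : ℝ)).card ≤ 3
    set SB := (S \ SA).filter fun m => ∃ n p : ℕ, SmoothLam s n ∧ Nat.totient n = m ∧
      p ∈ n.primeFactors ∧ u < lam (p : ℝ) ∧ ¬ P.Normal p with hSB
    have hA : ∑ m ∈ SA, (1 : ℝ) / m ≤ (1 + 2 * (s + C2)) ^ 3 * valueMass u := by
      refine (few_big 3 SA fun m hm => (Finset.mem_filter.1 hm).2).trans ?_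
      have hnn : 0 ≤ ∑ q ∈ primesLam u s, (1 : ℝ) / ((q : ℝ) - 1) := by
        refine Finset.sum_nonneg fun q hq => div_nonneg zero_le_one ?_
        have : (1 : ℝ) ≤ q := by exact_mod_cast (mem_primesLam.1 hq).1.one_le
        linarith
      exact mul_le_mul_of_nonneg_right (pow_le_pow_left₀ (by linarith) (by linarith) 3)
        (by linarith [one_le_valueMass u])
    have hB : ∑ m ∈ SB, (1 : ℝ) / m ≤ valueMass s / 2 := by
      set Q := (primesLam u s).filter fun p => ¬ P.Normal p
      have hex : ∀ m, m ∈ SB → ∃ n p : ℕ, SmoothLam s n ∧ Nat.totient n = m ∧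
          p ∈ n.primeFactors ∧ u < lam (p : ℝ) ∧ ¬ P.Normal p :=
        fun m hm => (Finset.mem_filter.1 hm).2
      choose! n p hn ht hp hpu hpN using hex
      have hQsum : ∑ q ∈ Q, (1 : ℝ) / ((q : ℝ) - 1) ≤ 1 / 4 := by
        refine (hnw P (show L1 ≤ s by linarith) hK1 hlog Q fun q hq => ?_).trans ?_
        · obtain ⟨h1, h2⟩ := Finset.mem_filter.1 hq
          obtain ⟨hqp, hq1, hq2⟩ := mem_primesLam.1 h1
          exact ⟨hqp, hTe45.trans (show 0.45 * P.L ≤ lam (q : ℝ) from hq1.le),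
            show lam (q : ℝ) ≤ s + 1 by linarith, h2⟩
        · change exp (-(s ^ (0.65 : ℝ))) ≤ 1 / 4
          have h1 : (200 : ℝ) ^ (0.5 : ℝ) ≤ s ^ (0.65 : ℝ) :=
            le_trans (rpow_le_rpow (by norm_num) hs200 (by norm_num))
              (rpow_le_rpow_of_exponent_le (by linarith) (by norm_num))
          have h2 : (3 : ℝ) ≤ (200 : ℝ) ^ (0.5 : ℝ) := by
            rw [show (0.5 : ℝ) = 1 / 2 by norm_num, ← sqrt_eq_rpow]
            exact Real.le_sqrt_of_sq_le (by norm_num)
          rw [exp_neg, one_div]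
          apply inv_anti₀ (by norm_num)
          linarith [add_one_le_exp (s ^ (0.65 : ℝ))]
      refine (peel Q SB p n (valueMass s) (fun q hq => (mem_primesLam.1
        (Finset.mem_filter.1 hq).1).1) (fun m hm => ⟨Finset.mem_filter.2 ⟨mem_primesLam.2
          ⟨Nat.prime_of_mem_primeFactors (hp m hm), hpu m hm, (hn m hm).2 _ (hp m hm)⟩,
          hpN m hm⟩, hp m hm, ht m hm⟩) (sum_inv_le_valueMass s _ fun b hb => ?_)).trans ?_
      · obtain ⟨m, hm, rfl⟩ := Finset.mem_image.1 hb
        exact mem_smoothValues_part (hn m hm) _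
      · nlinarith [one_le_valueMass s]
    have hC : ∑ m ∈ (S \ SA) \ SB, (1 : ℝ) / m ≤ 1 := by
      refine (hheavy P hVB (0.1 * P.L) 0 _ fun m hm => ?_).trans ?_
      · obtain ⟨hm1, hm2'⟩ := Finset.mem_sdiff.1 hm
        obtain ⟨hmS, hmA⟩ := Finset.mem_sdiff.1 hm1
        obtain ⟨n, hn, ht⟩ := hS m hmS
        rw [← ht]
        refine heavy_of_four hK1 hs0 hn hTe45 ?_ ?_
        · by_contra h
          refine hmA (Finset.mem_filter.2 ⟨hmS, n, hn, ht, ?_⟩)
          change (n.primeFactors.filter fun r : ℕ => 0.45 * P.L < lam (r : ℝ)).card ≤ 3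
          omega
        · intro r hr hru
          by_contra hN
          exact hm2' (Finset.mem_filter.2 ⟨hm1, n, r, hn, ht, hr, hru, hN⟩)
      · rw [← exp_zero]
        refine exp_le_exp.2 ?_
        change -(0.1 * s) + CV * P.valErr ≤ 0
        linarith
    have hsplit1 := Finset.sum_sdiff (f := fun m : ℕ => (1 : ℝ) / m)
      (Finset.filter_subset _ S : SA ⊆ S)
    have hsplit2 := Finset.sum_sdiff (f := fun m : ℕ => (1 : ℝ) / m)
      (Finset.filter_subset _ (S \ SA) : SB ⊆ S \ SA)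
    linarith
  have hG := one_le_valueMass u
  have hbase : 1 + 2 * (s + C2) ≤ 4 * s := by linarith
  have h3 : (1 + 2 * (s + C2)) ^ 3 ≤ (4 * s) ^ 3 := pow_le_pow_left₀ (by linarith) hbase 3
  have h4 : valueMass s ≤ 2 * ((1 + 2 * (s + C2)) ^ 3 * valueMass u + 1) := by linarith
  have hs3 : 0 ≤ s ^ 3 := by positivity
  calc valueMass s ≤ 2 * ((4 * s) ^ 3 * valueMass u + 1) := by
        have := mul_le_mul_of_nonneg_right h3 (zero_le_one.trans hG)
        linarith
    _ ≤ 130 * s ^ 3 * valueMass u := by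
        have h5 : (1 : ℝ) ≤ s ^ 3 := one_le_pow₀ (by linarith)
        have h6 := one_le_mul_of_one_le_of_one_le h5 hG
        nlinarith
    _ ≤ s ^ 4 * valueMass u := by
        refine mul_le_mul_of_nonneg_right ?_ (zero_le_one.trans hG)
        nlinarith

end Crude

/-- Section 4: the crude bound. -/
theorem valueMass_crude : ∃ C : ℝ, ∀ s : ℝ, 3 ≤ s →
    valueMass s ≤ exp (C * (log s) ^ 2) := by
  obtain ⟨s0, hs7, hstep⟩ := Crude.step
  set A := max 16 (log (valueMass s0)) with hA
  have hA16 : 16 ≤ A := le_max_left _ _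
  refine ⟨A, ?_⟩
  have hlog3 : ∀ s : ℝ, 3 ≤ s → 1 ≤ log s := fun s hs => by
    rw [← log_exp 1]
    exact log_le_log (exp_pos 1) (exp_one_lt_three.le.trans hs)
  suffices H : ∀ (N : ℕ) (s : ℝ), 3 ≤ s → s ≤ N → valueMass s ≤ exp (A * (log s) ^ 2) from
    fun s hs => H ⌈s⌉₊ s hs (Nat.le_ceil s)
  intro N
  induction N with
  | zero => intro s hs hs'; norm_num at hs'; linarith
  | succ N ih =>
    intro s hs hsN
    by_cases hle : s ≤ s0
    · calc valueMass s ≤ valueMass s0 := valueMass_mono hle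
        _ = exp (log (valueMass s0)) :=
            (exp_log (lt_of_lt_of_le one_pos (one_le_valueMass s0))).symm
        _ ≤ _ := exp_le_exp.2 (by
            have h1 := hlog3 s hs
            have h2 : log (valueMass s0) ≤ A := le_max_right _ _
            have h3 : A * 1 ≤ A * (log s) ^ 2 :=
              mul_le_mul_of_nonneg_left (one_le_pow₀ h1) (by linarith)
            linarith)
    · push Not at hle
      push_cast at hsN
      have hrec := ih (0.45 * s) (by linarith) (by linarith)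
      refine (hstep s hle.le).trans ?_
      refine (mul_le_mul_of_nonneg_left hrec (by positivity)).trans ?_
      rw [← exp_log (show (0 : ℝ) < s ^ 4 by positivity), ← exp_add, Real.log_pow]
      refine exp_le_exp.2 ?_
      have h1 : 1 ≤ log s := hlog3 s (by linarith)
      have h2 : log (0.45 * s) ≤ log s - 0.55 := by
        rw [log_mul (by norm_num) (by linarith)]
        linarith [Real.log_le_sub_one_of_pos (show (0 : ℝ) < 0.45 by norm_num)]
      have h3 : 0 ≤ log (0.45 * s) := log_nonneg (by linarith)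
      have h4 : (log (0.45 * s)) ^ 2 ≤ (log s - 0.55) ^ 2 := pow_le_pow_left₀ h3 h2 2
      have h5 := mul_le_mul_of_nonneg_left h4 (show (0 : ℝ) ≤ A by linarith)
      have h6 : 16 * log s ≤ A * log s := mul_le_mul_of_nonneg_right hA16 (by linarith)
      have h7 : A * 1 ≤ A * log s := mul_le_mul_of_nonneg_left h1 (by linarith)
      push_cast
      nlinarith

end Vale.Agent.P031
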