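import Vale.Agent.P031.Defs

/-!
# P031 Q2: deterministic geometry of the profiles (section 6 of the notes)

Facts on Ford's coefficients, the downward recursion `qfix`, the interior point, the affine map
between the two profile polytopes, the thin-fibre bound, the box, and the pigeonhole choice of `K`.
-/

open MeasureTheory Finset
open scoped Classical
noncomputable section

namespace Vale.Agent.P031

/-! ## Ford's coefficients -/

lemma fordA_eq {n : ℕ} (hn : 1 ≤ n) :
    fordA n = Real.log ((n : ℝ) + 1) + (n : ℝ) * Real.log (1 + 1 / (n : ℝ)) - 1 := by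
  have h0 : (0 : ℝ) < n := by exact_mod_cast hn
  have : (1 : ℝ) + 1 / n = ((n : ℝ) + 1) / n := by field_simp
  rw [fordA, this, Real.log_div (by positivity) h0.ne']
  ring

theorem fordA_le_log (n : ℕ) : fordA n ≤ Real.log ((n : ℝ) + 1) := by
  rcases Nat.eq_zero_or_pos n with rfl | hn
  · simp [fordA]
  have h0 : (0 : ℝ) < n := by exact_mod_cast hn
  have h := Real.log_le_sub_one_of_pos (show (0 : ℝ) < 1 + 1 / (n : ℝ) by positivity)
  have h2 : (n : ℝ) * Real.log (1 + 1 / (n : ℝ)) ≤ 1 := by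
    calc (n : ℝ) * Real.log (1 + 1 / (n : ℝ)) ≤ (n : ℝ) * (1 / n) := by
          apply mul_le_mul_of_nonneg_left _ h0.le; linarith
      _ = 1 := by field_simp
  rw [fordA_eq hn]
  linarith

theorem fordA_ge_log {n : ℕ} (hn : 1 ≤ n) :
    Real.log ((n : ℝ) + 1) + Real.log 2 - 1 ≤ fordA n := by
  have h0 : (1 : ℝ) ≤ n := by exact_mod_cast hn
  -- `(1 + 1/n)^n ≥ 2`
  have hb : (2 : ℝ) ≤ (1 + 1 / (n : ℝ)) ^ n := by
    have h := one_add_mul_le_pow (a := 1 / (n : ℝ)) (by
      have : 0 ≤ 1 / (n : ℝ) := by positivity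
      linarith) n
    have h1 : (n : ℝ) * (1 / n) = 1 := by field_simp
    linarith
  have := Real.log_le_log (by norm_num) hb
  rw [Real.log_pow] at this
  rw [fordA_eq hn]
  linarith

theorem fordA_nonneg {n : ℕ} (hn : 1 ≤ n) : 0 ≤ fordA n := by
  have h0 : (1 : ℝ) ≤ n := by exact_mod_cast hn
  have h := fordA_ge_log hn
  have h2 : Real.log 2 ≤ Real.log ((n : ℝ) + 1) := Real.log_le_log (by norm_num) (by linarith)
  have := Real.log_two_gt_d9
  linarith

/-- Increments of `fordA` lie in `[0, 1]`. -/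
theorem fordA_succ_sub (n : ℕ) (hn : 1 ≤ n) :
    0 ≤ fordA (n + 1) - fordA n ∧ fordA (n + 1) - fordA n ≤ 1 := by
  have h0 : (1 : ℝ) ≤ n := by exact_mod_cast hn
  set x : ℝ := (n : ℝ)
  have e : fordA (n + 1) - fordA n
      = (x + 2) * Real.log (x + 2) - 2 * ((x + 1) * Real.log (x + 1)) + x * Real.log x := by
    simp only [fordA, Nat.cast_add, Nat.cast_one, x]
    rw [show ((n : ℝ) + 1 + 1) = (n : ℝ) + 2 by ring]
    ring
  constructor
  · have hc := Real.convexOn_mul_log.2 (show x ∈ Set.Ici (0:ℝ) by simp [x])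
      (show x + 2 ∈ Set.Ici (0:ℝ) by simp only [Set.mem_Ici]; linarith)
      (show (0:ℝ) ≤ 1/2 by norm_num) (show (0:ℝ) ≤ 1/2 by norm_num) (by norm_num)
    simp only [smul_eq_mul] at hc
    rw [show (1:ℝ)/2 * x + 1/2 * (x + 2) = x + 1 by ring] at hc
    rw [e]; linarith
  · have u := fordA_le_log (n + 1)
    have l := fordA_ge_log hn
    push_cast at u
    have h3 : Real.log (x + 1 + 1) ≤ Real.log (x + 1) + Real.log (3/2) := by
      rw [← Real.log_mul (by positivity) (by norm_num)]
      exact Real.log_le_log (by positivity) (by linarith)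
    have h32 : Real.log (3/2 : ℝ) ≤ 1/2 := by
      have := Real.log_le_sub_one_of_pos (show (0:ℝ) < 3/2 by norm_num); linarith
    have := Real.log_two_gt_d9
    linarith

theorem fordA_mono {m n : ℕ} (hm : 1 ≤ m) (hmn : m ≤ n) : fordA m ≤ fordA n := by
  induction n, hmn using Nat.le_induction with
  | base => rfl
  | succ k hk ih => linarith [(fordA_succ_sub k (le_trans hm hk)).1]

theorem fordA_add_le {m : ℕ} (hm : 1 ≤ m) (n : ℕ) : fordA (m + n) ≤ fordA m + n := by
  induction n with
  | zero => simp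
  | succ k ih =>
    have := (fordA_succ_sub (m + k) (by omega)).2
    rw [← Nat.add_assoc]; push_cast; linarith

theorem sum_fordA (N : ℕ) :
    ∑ j ∈ Finset.Icc 1 N, fordA j = ((N : ℝ) + 1) * Real.log ((N : ℝ) + 1) - N := by
  induction N with
  | zero => simp
  | succ k ih =>
    rw [Finset.sum_Icc_succ_top (by omega), ih, fordA]
    push_cast; ring

lemma fordA_one : (38 / 100 : ℝ) ≤ fordA 1 ∧ fordA 1 ≤ 39 / 100 := by
  have h1 := Real.log_two_gt_d9
  have h2 := Real.log_two_lt_d9
  constructor <;> norm_num [fordA] <;> linarith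

lemma log_three_bounds : (1089/1000 : ℝ) ≤ Real.log 3 ∧ Real.log 3 ≤ 11/10 := by
  have h1 := Real.log_two_gt_d9
  have h2 := Real.log_two_lt_d9
  have e1 : (11:ℝ) * Real.log 2 ≤ 7 * Real.log 3 := by
    have := Real.log_le_log (by norm_num) (show ((2:ℝ)^11) ≤ 3^7 by norm_num)
    rwa [Real.log_pow, Real.log_pow] at this
  have e2 : (12:ℝ) * Real.log 3 ≤ 19 * Real.log 2 + 2/100 := by
    have h := Real.log_le_log (by norm_num) (show ((3:ℝ)^12) ≤ 2^19 * (102/100) by norm_num)
    rw [Real.log_mul (by norm_num) (by norm_num), Real.log_pow, Real.log_pow] at h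
    have := Real.log_le_sub_one_of_pos (show (0:ℝ) < 102/100 by norm_num)
    push_cast at h
    linarith
  constructor <;> linarith

lemma fordA_two : (88 / 100 : ℝ) ≤ fordA 2 ∧ fordA 2 ≤ 92 / 100 := by
  have h1 := Real.log_two_gt_d9
  have h2 := Real.log_two_lt_d9
  have ⟨h3, h4⟩ := log_three_bounds
  constructor <;> norm_num [fordA] <;> linarith

lemma fordA_three : (106 / 100 : ℝ) ≤ fordA 3 := by
  have h1 := Real.log_two_gt_d9
  have := fordA_ge_log (show 1 ≤ 3 by norm_num)
  push_cast at this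
  rw [show (3:ℝ) + 1 = 2 ^ 2 by norm_num, Real.log_pow] at this
  push_cast at this
  linarith

lemma fordA_four : (125 / 100 : ℝ) ≤ fordA 4 := by
  have h1 := Real.log_two_gt_d9
  have := fordA_ge_log (show 1 ≤ 4 by norm_num)
  push_cast at this
  have h5 : 9 * Real.log 2 ≤ 4 * Real.log (5:ℝ) := by
    have := Real.log_le_log (by norm_num) (show ((2:ℝ)^9) ≤ 5^4 by norm_num)
    rwa [Real.log_pow, Real.log_pow] at this
  rw [show (4:ℝ) + 1 = 5 by norm_num] at this
  linarith

/-- Linear majorant used in geometric sums. -/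
lemma fordA_le_lin {n : ℕ} (hn : 3 ≤ n) : fordA n ≤ 139/100 + ((n:ℝ) - 3) / 4 := by
  have h0 : (3 : ℝ) ≤ n := by exact_mod_cast hn
  have u := fordA_le_log n
  have h := Real.log_le_sub_one_of_pos (show (0:ℝ) < ((n:ℝ) + 1) / 4 by positivity)
  rw [Real.log_div (by positivity) (by norm_num)] at h
  have h4 : Real.log (4:ℝ) ≤ 139/100 := by
    rw [show (4:ℝ) = 2^2 by norm_num, Real.log_pow]
    have := Real.log_two_lt_d9
    push_cast; linarith
  linarith

theorem sum_fordA_two_pow_le (N : ℕ) :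
    ∑ j ∈ Finset.Ioo 0 N, fordA j / 2 ^ j ≤ 9 / 10 := by
  -- telescoping potential
  have key : ∀ M : ℕ, 3 ≤ M → ∑ j ∈ Finset.Ioo 0 M, fordA j / 2 ^ j
      + (139/100 + ((M:ℝ) - 2) / 4) * (2 / 2 ^ M) ≤ 9/10 := by
    intro M hM
    induction M, hM using Nat.le_induction with
    | base =>
      have e : Finset.Ioo 0 3 = {1, 2} := by decide
      rw [e, Finset.sum_insert (by decide), Finset.sum_singleton]
      have := fordA_one; have := fordA_two
      norm_num
      linarith
    | succ M hM ih =>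
      have e : Finset.Ioo 0 (M+1) = insert M (Finset.Ioo 0 M) := by
        ext j; simp; omega
      rw [e, Finset.sum_insert (by simp)]
      have h := fordA_le_lin hM
      have h2 : fordA M / 2 ^ M ≤ (139/100 + ((M:ℝ) - 3) / 4) / 2 ^ M := by gcongr
      push_cast
      rw [pow_succ]
      have eM : (139/100 + ((M:ℝ) - 2) / 4) * (2 / 2 ^ M)
          = (139/100 + ((M:ℝ) - 3) / 4) / 2 ^ M
            + (139/100 + ((M:ℝ) + 1 - 2) / 4) * (2 / (2 ^ M * 2)) := by
        field_simp; ring
      linarith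
  have hM := key (N + 3) (by omega)
  have hpos : (0:ℝ) ≤ (139/100 + (((N+3:ℕ):ℝ) - 2) / 4) * (2 / 2 ^ (N+3)) := by
    push_cast
    have : (0:ℝ) ≤ (N:ℝ) := Nat.cast_nonneg N
    have : (0:ℝ) ≤ 139/100 + ((N:ℝ) + 3 - 2) / 4 := by linarith
    positivity
  calc ∑ j ∈ Finset.Ioo 0 N, fordA j / 2 ^ j
      ≤ ∑ j ∈ Finset.Ioo 0 (N+3), fordA j / 2 ^ j := by
        apply Finset.sum_le_sum_of_subset_of_nonneg
        · intro j; simp; omega
        · intro j hj _
          have := fordA_nonneg (n := j) (by simp at hj; omega)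
          positivity
    _ ≤ 9/10 := by linarith

/-- Sums `∑ a_j z_j` against a geometric majorant. -/
lemma sum_fordA_le_two_pow (N : ℕ) (z : ℕ → ℝ) (c : ℝ) (hc : 0 ≤ c)
    (hz : ∀ j ∈ Finset.Ioo 0 N, z j ≤ c / 2 ^ j) :
    ∑ j ∈ Finset.Ioo 0 N, fordA j * z j ≤ 9 / 10 * c := by
  calc ∑ j ∈ Finset.Ioo 0 N, fordA j * z j
      ≤ ∑ j ∈ Finset.Ioo 0 N, c * (fordA j / 2 ^ j) := by
        apply Finset.sum_le_sum
        intro j hj
        have h0 := fordA_nonneg (n := j) (by simp at hj; omega)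
        calc fordA j * z j ≤ fordA j * (c / 2 ^ j) := by gcongr; exact hz j hj
          _ = c * (fordA j / 2 ^ j) := by ring
    _ = c * ∑ j ∈ Finset.Ioo 0 N, fordA j / 2 ^ j := by rw [Finset.mul_sum]
    _ ≤ c * (9/10) := by gcongr; exact sum_fordA_two_pow_le N
    _ = 9 / 10 * c := by ring

/-! ## The comparison sequence `hRec` -/

/-- The recursion from the data `(1, 0, 0, ...)`. -/
def hRec : ℕ → ℝ
  | 0 => 1
  | 1 => 1
  | n + 2 => ∑ j ∈ (Finset.Icc 1 (n + 2)).attach, fordA j.1 * hRec (n + 2 - j.1)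
  termination_by m => m
  decreasing_by
    have := Finset.mem_Icc.1 j.2; omega

@[simp] theorem hRec_zero : hRec 0 = 1 := by rw [hRec]
@[simp] theorem hRec_one : hRec 1 = 1 := by rw [hRec]

theorem hRec_eq {n : ℕ} (hn : 2 ≤ n) :
    hRec n = ∑ j ∈ Finset.Icc 1 n, fordA j * hRec (n - j) := by
  obtain ⟨k, rfl⟩ : ∃ k, n = k + 2 := ⟨n - 2, by omega⟩
  rw [hRec, Finset.sum_attach (Finset.Icc 1 (k+2)) (fun j => fordA j * hRec (k + 2 - j))]

theorem hRec_pos : ∀ n, 0 < hRec n := by
  intro n
  induction n using Nat.strong_induction_on with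
  | _ n ih =>
    rcases lt_or_ge n 2 with h | h
    · interval_cases n <;> simp
    · rw [hRec_eq h]
      have h1 : (1:ℕ) ∈ Finset.Icc 1 n := by simp; omega
      apply Finset.sum_pos'
      · intro j hj
        simp at hj
        exact mul_nonneg (fordA_nonneg hj.1) (ih _ (by omega)).le
      · exact ⟨1, h1, mul_pos (by linarith [fordA_one.1]) (ih _ (by omega))⟩

theorem hRec_succ_ge {n : ℕ} (hn : 1 ≤ n) : 5 / 4 * hRec n ≤ hRec (n + 1) := by
  rcases Nat.lt_or_ge n 2 with h | h
  · obtain rfl : n = 1 := by omega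
    rw [hRec_eq (n := 1 + 1) (by norm_num), hRec_one, show Finset.Icc 1 (1+1) = {1, 2} by decide,
      Finset.sum_insert (by decide), Finset.sum_singleton]
    have := fordA_one; have := fordA_two
    norm_num
    linarith
  · rw [hRec_eq (show 2 ≤ n + 1 by omega)]
    have e : Finset.Icc 1 (n+1) = insert 1 ((Finset.Icc 1 n).image (· + 1)) := by
      ext j; simp only [Finset.mem_insert, Finset.mem_image, Finset.mem_Icc]
      constructor
      · intro hj; by_cases h1 : j = 1
        · exact Or.inl h1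
        · exact Or.inr ⟨j - 1, by omega, by omega⟩
      · rintro (rfl | ⟨a, ha, rfl⟩) <;> omega
    rw [e, Finset.sum_insert (by simp), Finset.sum_image (by intro a _ b _ h; simp at h; omega)]
    have hle : hRec n ≤ ∑ j ∈ Finset.Icc 1 n, fordA (j + 1) * hRec (n + 1 - (j + 1)) := by
      conv_lhs => rw [hRec_eq h]
      apply Finset.sum_le_sum
      intro j hj
      simp at hj
      rw [show n + 1 - (j + 1) = n - j by omega]
      exact mul_le_mul_of_nonneg_right (fordA_mono hj.1 (by omega)) (hRec_pos _).le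
    have := hRec_pos n
    have := fordA_one.1
    simp only [Nat.add_sub_cancel]
    nlinarith

theorem hRec_add_ge {n : ℕ} (hn : 1 ≤ n) (d : ℕ) : (5 / 4) ^ d * hRec n ≤ hRec (n + d) := by
  induction d with
  | zero => simp
  | succ k ih =>
    have := hRec_succ_ge (n := n + k) (by omega)
    rw [pow_succ, ← Nat.add_assoc]
    nlinarith

theorem one_le_hRec (n : ℕ) : 1 ≤ hRec n := by
  rcases Nat.eq_zero_or_pos n with rfl | hn
  · simp
  · have := hRec_add_ge (n := 1) le_rfl (n - 1)
    rw [hRec_one, show 1 + (n - 1) = n by omega, mul_one] at this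
    exact le_trans (one_le_pow₀ (by norm_num)) this

namespace Params

variable (P : Params)

/-! ## Profiles -/

/-- Downward recursion: the least profile with the given tail. -/
def qfix (b : ℕ → ℝ) (i : ℕ) : ℝ :=
  if P.K ≤ i then b i else
    if i + 1 = P.K then
      max (b P.K) (∑ j ∈ (Finset.Ioo 0 (P.K' - i)).attach, fordA j.1 * qfix b (i + j.1))
    else ∑ j ∈ (Finset.Ioo 0 (P.K' - i)).attach, fordA j.1 * qfix b (i + j.1)
  termination_by P.K - i
  decreasing_by all_goals (have := Finset.mem_Ioo.1 j.2; omega)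

lemma qfix_of_ge {b : ℕ → ℝ} {i : ℕ} (h : P.K ≤ i) : P.qfix b i = b i := by
  rw [qfix, if_pos h]

lemma qfix_top {b : ℕ → ℝ} {i : ℕ} (h : i + 1 = P.K) :
    P.qfix b i = max (b P.K) (∑ j ∈ Finset.Ioo 0 (P.K' - i), fordA j * P.qfix b (i + j)) := by
  rw [qfix, if_neg (by omega), if_pos h,
    Finset.sum_attach (Finset.Ioo 0 (P.K' - i)) (fun j => fordA j * P.qfix b (i + j))]

lemma qfix_low {b : ℕ → ℝ} {i : ℕ} (h : i + 1 < P.K) :
    P.qfix b i = ∑ j ∈ Finset.Ioo 0 (P.K' - i), fordA j * P.qfix b (i + j) := by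
  rw [qfix, if_neg (by omega), if_neg (by omega),
    Finset.sum_attach (Finset.Ioo 0 (P.K' - i)) (fun j => fordA j * P.qfix b (i + j))]

/-- `1 - q_0`. -/
def beta (b : ℕ → ℝ) : ℝ := 1 - P.qfix b 0

/-- The profile with free coordinates at the levels `1, ..., K-1`. -/
def profile (b : ℕ → ℝ) (x : Fin (P.K - 1) → ℝ) (i : ℕ) : ℝ :=
  if h : 1 ≤ i ∧ i < P.K then x ⟨i - 1, by omega⟩ else if i = 0 then 1 else b i

lemma profile_zero (b : ℕ → ℝ) (x : Fin (P.K - 1) → ℝ) : P.profile b x 0 = 1 := by
  simp [profile]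

lemma profile_of_ge {b : ℕ → ℝ} {x : Fin (P.K - 1) → ℝ} {i : ℕ} (hK : 1 ≤ P.K) (h : P.K ≤ i) :
    P.profile b x i = b i := by
  rw [profile, dif_neg (by omega), if_neg (by omega)]

lemma profile_mid {b : ℕ → ℝ} {x : Fin (P.K - 1) → ℝ} {i : ℕ} (h1 : 1 ≤ i) (h2 : i < P.K) :
    P.profile b x i = x ⟨i - 1, by omega⟩ := by
  rw [profile, dif_pos ⟨h1, h2⟩]

/-- The admissible tails (levels `K ≤ i < K'`). -/
structure TailOk (b : ℕ → ℝ) : Prop where
  nonneg : ∀ i, P.K ≤ i → i < P.K' → 0 ≤ b i
  anti : ∀ i, P.K ≤ i → i + 1 < P.K' → b (i + 1) ≤ b i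
  slack : ∀ i, P.K ≤ i → i < P.K' → -P.etap ≤ P.slack b i

/-- The outer polytope. Both the slacks and the gaps are relaxed by `e`. -/
def PPlus (e : ℝ) (b : ℕ → ℝ) : Set (Fin (P.K - 1) → ℝ) :=
  {x | ∀ i < P.K, -e ≤ P.slack (P.profile b x) i ∧
    -e ≤ P.profile b x i - P.profile b x (i + 1)}

/-- The inner polytope. -/
def PMinus (e : ℝ) (b : ℕ → ℝ) : Set (Fin (P.K - 1) → ℝ) :=
  {x | ∀ i < P.K, e ≤ P.slack (P.profile b x) i ∧
    e ≤ P.profile b x i - P.profile b x (i + 1)}

variable {P} {b : ℕ → ℝ}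

lemma eta_pos : 0 < P.eta := by unfold Params.eta; positivity

lemma etap_pos : 0 < P.etap := by unfold Params.etap; positivity

lemma K'_eq : P.K' = 20 * P.K := rfl

/-- `q` is nonnegative. -/
lemma qfix_nonneg (hb : P.TailOk b) : ∀ i, i < P.K' → 0 ≤ P.qfix b i := by
  suffices H : ∀ m i, P.K - i ≤ m → i < P.K' → 0 ≤ P.qfix b i from
    fun i hi => H _ i le_rfl hi
  intro m
  induction m with
  | zero => intro i h hi; rw [P.qfix_of_ge (by omega)]; exact hb.nonneg i (by omega) hi
  | succ m ih =>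
    intro i h hi
    by_cases h1 : P.K ≤ i
    · rw [P.qfix_of_ge h1]; exact hb.nonneg i h1 hi
    · have hs : 0 ≤ ∑ j ∈ Finset.Ioo 0 (P.K' - i), fordA j * P.qfix b (i + j) := by
        apply Finset.sum_nonneg
        intro j hj
        simp at hj
        exact mul_nonneg (fordA_nonneg (by omega)) (ih _ (by omega) (by omega))
      by_cases h2 : i + 1 = P.K
      · rw [P.qfix_top h2]; exact le_max_of_le_right hs
      · rw [P.qfix_low (by omega)]; exact hs

/-- `q` is at least the tail start times the comparison sequence. -/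
theorem hRec_mul_le_qfix (hK : 1 ≤ P.K) (hb : P.TailOk b) :
    ∀ m, m ≤ P.K → hRec m * b P.K ≤ P.qfix b (P.K - m) := by
  intro m
  induction m using Nat.strong_induction_on with
  | _ m ih =>
    intro hm
    rcases Nat.lt_or_ge m 2 with h | h
    · interval_cases m
      · simp [P.qfix_of_ge le_rfl]
      · rw [P.qfix_top (by omega), hRec_one, one_mul]; exact le_max_left _ _
    · rw [P.qfix_low (by omega), hRec_eq h, Finset.sum_mul]
      calc ∑ j ∈ Finset.Icc 1 m, fordA j * hRec (m - j) * b P.K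
          ≤ ∑ j ∈ Finset.Icc 1 m, fordA j * P.qfix b (P.K - m + j) := by
            apply Finset.sum_le_sum
            intro j hj
            simp at hj
            rw [mul_assoc, show P.K - m + j = P.K - (m - j) by omega]
            exact mul_le_mul_of_nonneg_left (ih _ (by omega) (by omega)) (fordA_nonneg hj.1)
        _ ≤ _ := by
            apply Finset.sum_le_sum_of_subset_of_nonneg
            · intro j; simp [K'_eq]; omega
            · intro j hj _
              simp [K'_eq] at hj
              exact mul_nonneg (fordA_nonneg (by omega))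
                (qfix_nonneg hb _ (by simp [K'_eq]; omega))

/-- Geometric decay along an admissible tail. -/
theorem tail_decay (hb : P.TailOk b) {i n : ℕ} (hi : P.K ≤ i) (hin : i + n < P.K') :
    b (i + n) ≤ 5 * (5 / 8) ^ n * b i + 2 * P.etap := by
  set x : ℝ := b (i + n) with hx
  set e : ℝ := P.etap with he
  have hep : 0 < e := etap_pos
  have hanti : ∀ u v, P.K ≤ u → u ≤ v → v < P.K' → b v ≤ b u := by
    intro u v hu huv hv
    induction v, huv using Nat.le_induction with
    | base => rfl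
    | succ v huv ih => exact le_trans (hb.anti v (by omega) hv) (ih (by omega))
  have hbi := hb.nonneg i hi (by omega)
  by_cases hX : x ≤ e
  · have : 0 ≤ 5 * (5 / 8 : ℝ) ^ n * b i := by positivity
    linarith
  -- backwards growth
  have key : ∀ m, m ≤ n → (x - e) * ((8/5:ℝ) ^ m * (5/8) ^ 3) + e ≤ b (i + n - m) := by
    intro m
    induction m using Nat.strong_induction_on with
    | _ m ih =>
      intro hm
      rcases Nat.lt_or_ge m 4 with h | h
      · have h1 : (8/5:ℝ) ^ m * (5/8) ^ 3 ≤ 1 := by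
          interval_cases m <;> norm_num
        have h2 : x ≤ b (i + n - m) := hanti _ _ (by omega) (by omega) hin
        nlinarith [mul_le_mul_of_nonneg_left h1 (show 0 ≤ x - e by linarith)]
      · have hs := hb.slack (i + n - m) (by omega) (by omega)
        simp only [Params.slack] at hs
        have hsub : ∑ j ∈ ({1, 2, 3, 4} : Finset ℕ), fordA j * b (i + n - m + j)
            ≤ ∑ j ∈ Finset.Ioo 0 (P.K' - (i + n - m)), fordA j * b (i + n - m + j) := by
          apply Finset.sum_le_sum_of_subset_of_nonneg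
          · intro j hj
            simp only [Finset.mem_insert, Finset.mem_singleton] at hj
            simp only [Finset.mem_Ioo]
            omega
          · intro j hj _
            simp only [Finset.mem_Ioo] at hj
            exact mul_nonneg (fordA_nonneg (by omega)) (hb.nonneg _ (by omega) (by omega))
        rw [Finset.sum_insert (by decide), Finset.sum_insert (by decide),
          Finset.sum_insert (by decide), Finset.sum_singleton] at hsub
        have r1 := ih (m - 1) (by omega) (by omega)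
        have r2 := ih (m - 2) (by omega) (by omega)
        have r3 := ih (m - 3) (by omega) (by omega)
        have r4 := ih (m - 4) (by omega) (by omega)
        rw [show i + n - (m - 1) = i + n - m + 1 by omega] at r1
        rw [show i + n - (m - 2) = i + n - m + 2 by omega] at r2
        rw [show i + n - (m - 3) = i + n - m + 3 by omega] at r3
        rw [show i + n - (m - 4) = i + n - m + 4 by omega] at r4
        obtain ⟨k, rfl⟩ : ∃ k, m = k + 4 := ⟨m - 4, by omega⟩
        simp only [show k + 4 - 1 = k + 3 by omega, show k + 4 - 2 = k + 2 by omega,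
          show k + 4 - 3 = k + 1 by omega, Nat.add_sub_cancel] at r1 r2 r3 r4
        set y : ℝ := (x - e) * ((8/5:ℝ) ^ k * (5/8) ^ 3) with hy
        have hy0 : 0 ≤ y := by
          have : 0 ≤ x - e := by linarith
          positivity
        have a1 := fordA_one; have a2 := fordA_two; have a3 := fordA_three; have a4 := fordA_four
        simp only [pow_succ] at r1 r2 r3 r4
        have t1 : fordA 1 * (y * (512/125) + e) ≤ fordA 1 * b (i + n - (k+4) + 1) :=
          mul_le_mul_of_nonneg_left (le_trans (by rw [hy]; ring_nf; rfl) r1) (by linarith)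
        have t2 : fordA 2 * (y * (64/25) + e) ≤ fordA 2 * b (i + n - (k+4) + 2) :=
          mul_le_mul_of_nonneg_left (le_trans (by rw [hy]; ring_nf; rfl) r2) (by linarith)
        have t3 : fordA 3 * (y * (8/5) + e) ≤ fordA 3 * b (i + n - (k+4) + 3) :=
          mul_le_mul_of_nonneg_left (le_trans (by rw [hy]; ring_nf; rfl) r3) (by linarith)
        have t4 : fordA 4 * (y + e) ≤ fordA 4 * b (i + n - (k+4) + 4) :=
          mul_le_mul_of_nonneg_left (le_trans (by rw [hy]) r4) (by linarith)
        have hgoal : (x - e) * ((8/5:ℝ) ^ (k+4) * (5/8) ^ 3) = y * (4096/625) := by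
          rw [hy]; ring
        rw [hgoal]
        nlinarith
  have h := key n le_rfl
  rw [Nat.add_sub_cancel] at h
  have hp : (8/5:ℝ) ^ n * (5/8) ^ n = 1 := by rw [← mul_pow]; norm_num
  have h5 : (0:ℝ) ≤ (5/8) ^ n := by positivity
  have : (x - e) * ((5:ℝ)/8) ^ 3 ≤ (5/8) ^ n * b i := by
    have := mul_le_mul_of_nonneg_left h h5
    calc (x - e) * ((5:ℝ)/8) ^ 3
        = (5/8:ℝ) ^ n * ((x - e) * ((8/5:ℝ) ^ n * (5/8) ^ 3)) := by
          linear_combination (-(x - e) * ((5:ℝ)/8) ^ 3) * hp
      _ ≤ _ := by nlinarith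
  norm_num at this
  nlinarith

/-! ## Monotonicity and the interior point -/

/-- `q` decreases on the levels `≤ K`. -/
theorem qfix_anti (_hK : 1 ≤ P.K) (hb : P.TailOk b) {i : ℕ} (hi : i < P.K) :
    P.qfix b (i + 1) ≤ P.qfix b i := by
  by_cases h1 : i + 1 = P.K
  · rw [P.qfix_top h1, P.qfix_of_ge (by omega), h1]; exact le_max_left _ _
  have hlow : i + 1 < P.K := by omega
  have hq := qfix_nonneg hb
  have hK' : P.K' = 20 * P.K := rfl
  set T : ℝ := ∑ j ∈ Finset.Ioo 0 (P.K' - (i + 1)), fordA j * P.qfix b (i + 1 + j) with hT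
  have hge : fordA 1 * P.qfix b (i + 1) + T ≤ P.qfix b i := by
    rw [P.qfix_low hlow]
    have e : Finset.Ioo 0 (P.K' - i) =
        insert 1 ((Finset.Ioo 0 (P.K' - (i + 1))).image (· + 1)) := by
      ext j; simp only [Finset.mem_insert, Finset.mem_image, Finset.mem_Ioo]
      constructor
      · intro hj; by_cases h2 : j = 1
        · exact Or.inl h2
        · exact Or.inr ⟨j - 1, by omega, by omega⟩
      · rintro (rfl | ⟨a, ha, rfl⟩) <;> omega
    rw [e, Finset.sum_insert (by simp), Finset.sum_image (by intro a _ c _ h; simp at h; omega)]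
    apply add_le_add le_rfl
    apply Finset.sum_le_sum
    intro j hj
    simp at hj
    rw [show i + (j + 1) = i + 1 + j by omega]
    exact mul_le_mul_of_nonneg_right (fordA_mono (by omega) (by omega)) (hq _ (by omega))
  have h1q := hq (i + 1) (by omega)
  have a1 := fordA_one
  by_cases h2 : i + 1 + 1 = P.K
  · rw [P.qfix_top h2]
    apply max_le
    · -- two coefficients dominate
      have hbK : b P.K ≤ P.qfix b (i + 1) := by rw [P.qfix_top h2]; exact le_max_left _ _
      have hT2 : fordA 1 * b P.K ≤ T := by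
        have : (1:ℕ) ∈ Finset.Ioo 0 (P.K' - (i + 1)) := by simp; omega
        refine le_trans (le_of_eq ?_) (Finset.single_le_sum (fun j hj => ?_) this)
        · rw [P.qfix_of_ge (i := i + 1 + 1) (by omega), h2]
        · simp at hj; exact mul_nonneg (fordA_nonneg (by omega)) (hq _ (by omega))
      have hb0 : 0 ≤ b P.K := hb.nonneg _ le_rfl (by omega)
      have hTa : fordA 2 * b P.K ≤ P.qfix b i - fordA 1 * P.qfix b (i + 1) := by
        rw [P.qfix_low hlow]
        have hm : (2:ℕ) ∈ Finset.Ioo 0 (P.K' - i) := by simp; omega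
        have hm1 : (1:ℕ) ∈ Finset.Ioo 0 (P.K' - i) := by simp; omega
        rw [← Finset.add_sum_erase _ _ hm1, add_sub_cancel_left]
        refine le_trans (le_of_eq ?_) (Finset.single_le_sum (fun j hj => ?_)
          (Finset.mem_erase.2 ⟨by norm_num, hm⟩))
        · rw [P.qfix_of_ge (i := i + 2) (by omega), show i + 2 = P.K by omega]
        · simp at hj; exact mul_nonneg (fordA_nonneg (by omega)) (hq _ (by omega))
      have := fordA_two.1
      nlinarith
    · have := mul_nonneg (show 0 ≤ fordA 1 by linarith) h1q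
      linarith
  · have : P.qfix b (i + 1) = T := by rw [P.qfix_low (by omega)]
    have := mul_nonneg (show 0 ≤ fordA 1 by linarith) h1q
    linarith

lemma slack_qfix_nonneg {i : ℕ} (hi : i < P.K) : 0 ≤ P.slack (P.qfix b) i := by
  rw [Params.slack]
  by_cases h1 : i + 1 = P.K
  · nth_rewrite 1 [P.qfix_top h1]
    linarith [le_max_right (b P.K)
      (∑ j ∈ Finset.Ioo 0 (P.K' - i), fordA j * P.qfix b (i + j))]
  · nth_rewrite 1 [P.qfix_low (show i + 1 < P.K by omega)]
    linarith

lemma slack_qfix_low {i : ℕ} (hi : i + 1 < P.K) : P.slack (P.qfix b) i = 0 := by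
  rw [Params.slack]; nth_rewrite 1 [P.qfix_low hi]; ring

lemma slack_add (u v : ℕ → ℝ) (i : ℕ) :
    P.slack (fun k => u k + v k) i = P.slack u i + P.slack v i := by
  simp only [Params.slack, mul_add, Finset.sum_add_distrib]; ring

lemma slack_sub (u v : ℕ → ℝ) (i : ℕ) :
    P.slack (fun k => u k - v k) i = P.slack u i - P.slack v i := by
  simp only [Params.slack, mul_sub, Finset.sum_sub_distrib]; ring

/-- The interior point. -/
def xstar (P : Params) (b : ℕ → ℝ) : Fin (P.K - 1) → ℝ :=
  fun k => P.qfix b (k.val + 1) + P.beta b / 2 ^ (k.val + 1)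

lemma profile_xstar (hK : 1 ≤ P.K) :
    P.profile b (P.xstar b) =
      fun i => P.qfix b i + (if i < P.K then P.beta b / 2 ^ i else 0) := by
  funext i
  rcases Nat.eq_zero_or_pos i with rfl | h0
  · rw [profile_zero, if_pos (by omega)]; simp [Params.beta]
  by_cases h : i < P.K
  · rw [P.profile_mid h0 h, if_pos h]
    simp [xstar, show i - 1 + 1 = i by omega]
  · rw [P.profile_of_ge hK (by omega), if_neg h, P.qfix_of_ge (by omega), add_zero]

lemma slack_xstar (hK : 1 ≤ P.K) (hβ : 0 ≤ P.beta b) {i : ℕ} (hi : i < P.K) :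
    P.beta b / (10 * 2 ^ i) ≤ P.slack (P.profile b (P.xstar b)) i := by
  rw [profile_xstar hK, slack_add]
  have h1 := slack_qfix_nonneg (b := b) hi
  have h2 : P.beta b / (10 * 2 ^ i) ≤
      P.slack (fun i => if i < P.K then P.beta b / 2 ^ i else 0) i := by
    simp only [Params.slack]
    rw [if_pos hi]
    have hs := sum_fordA_le_two_pow (P.K' - i)
      (fun j => if i + j < P.K then P.beta b / 2 ^ (i + j) else 0) (P.beta b / 2 ^ i)
      (by positivity) (by
        intro j _
        split_ifs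
        · rw [pow_add, div_div]
        · positivity)
    have e : P.beta b / (10 * 2 ^ i) = P.beta b / 2 ^ i / 10 := by rw [div_div, mul_comm]
    rw [e]
    linarith
  linarith

lemma gap_xstar (hK : 1 ≤ P.K) (hb : P.TailOk b) (hβ : 0 ≤ P.beta b) {i : ℕ} (hi : i < P.K) :
    P.beta b / 2 ^ P.K ≤
      P.profile b (P.xstar b) i - P.profile b (P.xstar b) (i + 1) := by
  rw [profile_xstar hK]
  simp only [if_pos hi]
  have hq := qfix_anti hK hb hi
  have hp : P.beta b / 2 ^ P.K ≤ P.beta b / 2 ^ (i + 1) := by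
    apply div_le_div_of_nonneg_left hβ (by positivity)
    exact pow_le_pow_right₀ (by norm_num) (by omega)
  have h2 : P.beta b / 2 ^ i = 2 * (P.beta b / 2 ^ (i + 1)) := by rw [pow_succ]; field_simp
  have h3 : 0 ≤ P.beta b / 2 ^ (i + 1) := by positivity
  split_ifs <;> linarith

lemma profile_homothety (hK : 1 ≤ P.K) (c x : Fin (P.K - 1) → ℝ) (t : ℝ) :
    P.profile b (AffineMap.homothety c t x) =
      fun i => (1 - t) * P.profile b c i + t * P.profile b x i := by
  funext i
  rcases Nat.eq_zero_or_pos i with rfl | h0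
  · simp only [profile_zero]; ring
  by_cases h : i < P.K
  · simp only [P.profile_mid h0 h, AffineMap.homothety_apply, vsub_eq_sub, vadd_eq_add,
      Pi.add_apply, Pi.smul_apply, Pi.sub_apply, smul_eq_mul]
    ring
  · simp only [P.profile_of_ge hK (show P.K ≤ i by omega)]; ring

lemma slack_lin (u v : ℕ → ℝ) (s t : ℝ) (i : ℕ) :
    P.slack (fun k => s * u k + t * v k) i = s * P.slack u i + t * P.slack v i := by
  simp only [Params.slack, mul_add, Finset.sum_add_distrib, mul_left_comm _ s, mul_left_comm _ t,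
    ← Finset.mul_sum]
  ring

/-- The affine map sends the outer polytope into the inner one. -/
theorem mapsTo_pminus (hK : 1 ≤ P.K) (hb : P.TailOk b) {e1 e2 t : ℝ}
    (he1 : 0 ≤ e1) (ht0 : 0 ≤ t) (ht1 : t ≤ 1) (hβ : 0 ≤ P.beta b)
    (h : e1 + e2 ≤ (1 - t) * (P.beta b / (10 * 2 ^ P.K))) :
    Set.MapsTo (AffineMap.homothety (P.xstar b) t) (P.PPlus e1 b) (P.PMinus e2 b) := by
  intro x hx i hi
  obtain ⟨hs, hg⟩ := hx i hi
  have h1 := slack_xstar hK hβ hi
  have h2 := gap_xstar hK hb hβ hi
  have hmon : P.beta b / (10 * 2 ^ P.K) ≤ P.beta b / (10 * 2 ^ i) := by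
    apply div_le_div_of_nonneg_left hβ (by positivity)
    exact mul_le_mul_of_nonneg_left (pow_le_pow_right₀ (by norm_num) (by omega)) (by norm_num)
  have hmon2 : P.beta b / (10 * 2 ^ P.K) ≤ P.beta b / 2 ^ P.K := by
    apply div_le_div_of_nonneg_left hβ (by positivity)
    linarith [show (0:ℝ) < 2 ^ P.K by positivity]
  have hu : 0 ≤ 1 - t := by linarith
  rw [profile_homothety hK, slack_lin]
  constructor
  · have a1 := mul_le_mul_of_nonneg_left (le_trans hmon h1) hu
    have a2 := mul_le_mul_of_nonneg_left hs ht0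
    nlinarith
  · have a1 := mul_le_mul_of_nonneg_left (le_trans hmon2 h2) hu
    have a2 := mul_le_mul_of_nonneg_left hg ht0
    nlinarith

lemma eta_eq : P.eta = 1 / ((2:ℝ) ^ P.K) ^ 6 := by
  rw [Params.eta, ← pow_mul, mul_comm]

lemma etap_eq : P.etap = 1 / ((2:ℝ) ^ P.K) ^ 14 := by
  rw [Params.etap, ← pow_mul, mul_comm]

lemma cast_le_two_pow (n : ℕ) : (n : ℝ) ≤ (2:ℝ) ^ n := by
  exact_mod_cast (Nat.lt_two_pow_self).le

lemma big_two_pow (hK : 16 ≤ P.K) :
    (65536 : ℝ) ≤ 2 ^ P.K ∧ 1024 * (P.K : ℝ) ≤ 2 ^ P.K := by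
  constructor
  · exact le_trans (by norm_num) (pow_le_pow_right₀ (by norm_num : (1:ℝ) ≤ 2) hK)
  · have h := cast_le_two_pow (P.K - 11)
    have e : (P.K : ℝ) = ((P.K - 11 : ℕ) : ℝ) + 11 := by
      rw [Nat.cast_sub (by omega)]; push_cast; ring
    have h32 : (32:ℝ) ≤ 2 ^ (P.K - 11) :=
      le_trans (by norm_num) (pow_le_pow_right₀ (by norm_num : (1:ℝ) ≤ 2) (show 5 ≤ P.K - 11 by omega))
    have e2 : (2:ℝ) ^ P.K = 2 ^ (P.K - 11) * 2048 := by
      rw [show (2048:ℝ) = 2 ^ 11 by norm_num, ← pow_add, Nat.sub_add_cancel (by omega)]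
    rw [e, e2]; linarith

/-- Thick fibres: the two polytopes have almost the same volume. -/
theorem volume_pplus_le (hK : 16 ≤ P.K) (hb : P.TailOk b) {e1 e2 : ℝ} (he1 : 0 ≤ e1)
    (he1' : e1 ≤ 16 * P.eta) (he2' : e2 ≤ 16 * P.eta)
    (hβ : 1 / 2 ^ (3 * P.K) ≤ P.beta b) :
    ENNReal.ofReal (1 - 1 / 2 ^ P.K) * volume (P.PPlus e1 b) ≤ volume (P.PMinus e2 b) := by
  obtain ⟨hZ, hZK⟩ := big_two_pow hK
  rw [eta_eq] at he1' he2'
  rw [mul_comm 3 P.K, pow_mul] at hβ
  set Z : ℝ := (2:ℝ) ^ P.K with hZdef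
  have hZ0 : (0:ℝ) < Z := by positivity
  set t : ℝ := 1 - 320 / Z ^ 2 with ht
  have hZ2 : (320:ℝ) ≤ Z ^ 2 := by nlinarith
  have ht0 : 0 ≤ t := by
    rw [ht, sub_nonneg, div_le_one (by positivity)]; exact hZ2
  have ht1 : t ≤ 1 := by
    rw [ht]; linarith [show (0:ℝ) ≤ 320 / Z ^ 2 by positivity]
  have hβ0 : 0 ≤ P.beta b := le_trans (by positivity) hβ
  have hkey : e1 + e2 ≤ (1 - t) * (P.beta b / (10 * 2 ^ P.K)) := by
    rw [← hZdef]
    have h2 : (1 - t) * ((1 / Z ^ 3) / (10 * Z)) ≤ (1 - t) * (P.beta b / (10 * Z)) := by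
      gcongr
    have h3 : (1 - t) * ((1 / Z ^ 3) / (10 * Z)) = 32 * (1 / Z ^ 6) := by
      rw [ht]; field_simp; ring
    linarith
  have hm := mapsTo_pminus (by omega) hb he1 ht0 ht1 hβ0 hkey
  have hvol := (Measure.addHaar_image_homothety (μ := (volume : Measure (Fin (P.K - 1) → ℝ)))
    (P.xstar b) t (P.PPlus e1 b))
  rw [Module.finrank_fin_fun] at hvol
  have hmono : volume (AffineMap.homothety (P.xstar b) t '' P.PPlus e1 b)
      ≤ volume (P.PMinus e2 b) := measure_mono hm.image_subset
  rw [hvol] at hmono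
  refine le_trans ?_ hmono
  gcongr
  rw [abs_of_nonneg (by positivity)]
  have hbern := one_add_mul_le_pow (a := -(320 / Z ^ 2)) (by
    have : 320 / Z ^ 2 ≤ 1 := by rw [div_le_one (by positivity)]; exact hZ2
    linarith) (P.K - 1)
  rw [ht, sub_eq_add_neg 1 (320 / Z ^ 2)]
  refine le_trans ?_ hbern
  have hk : ((P.K - 1 : ℕ) : ℝ) ≤ P.K := by exact_mod_cast Nat.sub_le _ _
  have h4 : ((P.K - 1 : ℕ) : ℝ) * (320 / Z ^ 2) ≤ 1 / Z := by
    rw [mul_div_assoc', div_le_div_iff₀ (by positivity) hZ0]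
    have : ((P.K - 1 : ℕ) : ℝ) * 320 ≤ Z := by nlinarith
    nlinarith
  linarith

/-! ## Thin fibres -/

/-- Pointwise bounds on the outer polytope relative to `q`. -/
theorem pplus_lower (hK : 1 ≤ P.K) (_hb : P.TailOk b) {e : ℝ} (he : 0 ≤ e)
    {x : Fin (P.K - 1) → ℝ} (hx : x ∈ P.PPlus e b) :
    ∀ i, 1 ≤ i → i < P.K' → -(20 * e * 2 ^ P.K / 2 ^ i) ≤ P.profile b x i - P.qfix b i := by
  suffices H : ∀ m i, P.K - i ≤ m → 1 ≤ i → i < P.K' →
      -(20 * e * 2 ^ P.K / 2 ^ i) ≤ P.profile b x i - P.qfix b i from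
    fun i h1 h2 => H _ i le_rfl h1 h2
  intro m
  induction m with
  | zero =>
    intro i h h1 h2
    rw [P.profile_of_ge hK (by omega), P.qfix_of_ge (by omega), sub_self, neg_nonpos]
    positivity
  | succ m ih =>
    intro i h h1 h2
    by_cases hiK : P.K ≤ i
    · rw [P.profile_of_ge hK hiK, P.qfix_of_ge hiK, sub_self, neg_nonpos]
      positivity
    obtain ⟨hs, hg⟩ := hx i (by omega)
    set u : ℕ → ℝ := fun k => P.profile b x k - P.qfix b k with hu
    have hsum : -(9 / 10 * (20 * e * 2 ^ P.K / 2 ^ i))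
        ≤ ∑ j ∈ Finset.Ioo 0 (P.K' - i), fordA j * u (i + j) := by
      have hh := sum_fordA_le_two_pow (P.K' - i) (fun j => - u (i + j))
        (20 * e * 2 ^ P.K / 2 ^ i) (by positivity) (by
          intro j hj
          simp at hj
          have := ih (i + j) (by omega) (by omega) (by omega)
          rw [div_div, ← pow_add]
          simp only [hu]
          linarith)
      simp only [mul_neg, Finset.sum_neg_distrib] at hh
      linarith
    have hc : 20 * e ≤ 20 * e * 2 ^ P.K / 2 ^ i := by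
      rw [le_div_iff₀ (by positivity)]
      apply mul_le_mul_of_nonneg_left _ (by positivity)
      exact pow_le_pow_right₀ (by norm_num) (by omega)
    show _ ≤ u i
    by_cases htop : i + 1 = P.K
    · have hq := P.qfix_top (b := b) htop
      have hzero : ∀ j ∈ Finset.Ioo 0 (P.K' - i),
          fordA j * P.profile b x (i + j) = fordA j * P.qfix b (i + j) := by
        intro j hj
        simp at hj
        rw [P.profile_of_ge hK (by omega), P.qfix_of_ge (by omega)]
      simp only [Params.slack] at hs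
      rw [Finset.sum_congr rfl hzero] at hs
      rw [htop, P.profile_of_ge hK le_rfl] at hg
      simp only [hu]
      rw [hq]
      rcases max_choice (b P.K) (∑ j ∈ Finset.Ioo 0 (P.K' - i), fordA j * P.qfix b (i + j))
        with hm | hm <;> rw [hm] <;> linarith
    · have hsu : -e ≤ P.slack u i := by
        rw [hu, slack_sub, slack_qfix_low (by omega)]; linarith
      rw [Params.slack] at hsu
      linarith

theorem pplus_beta_lower (hK : 2 ≤ P.K) (hb : P.TailOk b) {e : ℝ} (he : 0 ≤ e)
    {x : Fin (P.K - 1) → ℝ} (hx : x ∈ P.PPlus e b) :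
    -(19 * e * 2 ^ P.K) ≤ P.beta b ∧
      ∀ i, 1 ≤ i → i < P.K →
        fordA i * (P.profile b x i - P.qfix b i) ≤ P.beta b + 19 * e * 2 ^ P.K := by
  set u : ℕ → ℝ := fun k => P.profile b x k - P.qfix b k with hu
  have hs := (hx 0 (by omega)).1
  have hsu : -e ≤ P.slack u 0 := by
    rw [hu, slack_sub, slack_qfix_low (by omega)]; linarith
  have hu0 : u 0 = P.beta b := by simp [hu, profile_zero, Params.beta]
  simp only [Params.slack, hu0, Nat.sub_zero, zero_add] at hsu
  have hlow := pplus_lower (by omega) hb he hx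
  have hsplit : ∀ S : Finset ℕ, S ⊆ Finset.Ioo 0 P.K' →
      -(18 * e * 2 ^ P.K) ≤ ∑ j ∈ S, fordA j * u j := by
    intro S hS
    have hh := sum_fordA_le_two_pow P.K' (fun j => if j ∈ S then - u j else 0)
      (20 * e * 2 ^ P.K) (by positivity) (by
        intro j hj
        simp at hj
        split_ifs
        · have := hlow j (by omega) (by omega)
          simp only [hu]
          linarith
        · positivity)
    simp only [mul_ite, mul_zero, Finset.sum_ite_mem, Finset.inter_eq_right.2 hS, mul_neg,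
      Finset.sum_neg_distrib] at hh
    linarith
  have hZ : (1:ℝ) ≤ 2 ^ P.K := one_le_pow₀ (by norm_num)
  constructor
  · have := hsplit _ subset_rfl
    nlinarith
  · intro i h1 h2
    have hmem : i ∈ Finset.Ioo 0 P.K' := by simp [K'_eq]; omega
    rw [← Finset.add_sum_erase _ _ hmem] at hsu
    have := hsplit _ (Finset.erase_subset i _)
    show fordA i * u i ≤ _
    nlinarith

/-- A point of the outer polytope bounds the tail. -/
theorem hRec_mul_le_two (hK : 16 ≤ P.K) (hb : P.TailOk b) {e : ℝ} (he : 0 ≤ e)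
    (he' : e ≤ 16 * P.eta) (hne : (P.PPlus e b).Nonempty) : hRec P.K * b P.K ≤ 2 := by
  obtain ⟨x, hx⟩ := hne
  have h1 := (pplus_beta_lower (by omega) hb he hx).1
  have h2 := hRec_mul_le_qfix (by omega) hb P.K le_rfl
  rw [Nat.sub_self] at h2
  obtain ⟨hZ, _⟩ := big_two_pow hK
  rw [eta_eq] at he'
  set Z : ℝ := (2:ℝ) ^ P.K
  have hq : P.qfix b 0 = 1 - P.beta b := by rw [Params.beta]; ring
  have h3 : 19 * e * Z ≤ 1 := by
    have h5 : 19 * e * Z ≤ 19 * (16 * (1 / Z ^ 6)) * Z := by gcongr
    have h6 : 19 * (16 * (1 / Z ^ 6)) * Z = 304 / Z ^ 5 := by field_simp; ring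
    have h7 : 304 / Z ^ 5 ≤ 1 := by
      rw [div_le_one (by positivity)]
      exact le_trans (by linarith) (le_self_pow₀ (by linarith) (by norm_num))
    linarith
  linarith

/-- Thin fibres sit in a small box around `q`. -/
theorem pplus_subset_box (hK : 16 ≤ P.K) (hb : P.TailOk b) {e : ℝ} (he : 0 ≤ e)
    (he' : e ≤ 16 * P.eta) (hβ : P.beta b < 1 / 2 ^ (3 * P.K)) :
    P.PPlus e b ⊆ Set.Icc (fun k : Fin (P.K - 1) => P.qfix b (k.val + 1) - 5 / 2 ^ (3 * P.K))
      (fun k : Fin (P.K - 1) => P.qfix b (k.val + 1) + 5 / 2 ^ (3 * P.K)) := by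
  intro x hx
  obtain ⟨hZ, _⟩ := big_two_pow hK
  rw [eta_eq] at he'
  rw [mul_comm 3 P.K, pow_mul] at hβ ⊢
  set Z : ℝ := (2:ℝ) ^ P.K with hZdef
  have hZ0 : 0 < Z := by positivity
  have key : ∀ k : Fin (P.K - 1), -(5 / Z ^ 3) ≤ x k - P.qfix b (k.val + 1) ∧
      x k - P.qfix b (k.val + 1) ≤ 5 / Z ^ 3 := by
    intro k
    have hk : k.val + 1 < P.K := by have := k.isLt; omega
    have e0 : P.profile b x (k.val + 1) = x k := by rw [P.profile_mid (by omega) hk]; simp
    have h1 := pplus_lower (by omega) hb he hx (k.val + 1) (by omega) (by simp [K'_eq]; omega)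
    have h2 := (pplus_beta_lower (by omega) hb he hx).2 (k.val + 1) (by omega) hk
    rw [e0] at h1 h2
    rw [← hZdef] at h1 h2
    have heZ : 19 * e * Z ≤ 1 / (100 * Z ^ 3) := by
      have h5 : 19 * e * Z ≤ 19 * (16 * (1 / Z ^ 6)) * Z := by gcongr
      refine le_trans h5 ?_
      rw [show 19 * (16 * (1 / Z ^ 6)) * Z = 304 / Z ^ 5 by field_simp; ring,
        div_le_div_iff₀ (by positivity) (by positivity)]
      have : 30400 ≤ Z ^ 2 := by nlinarith
      nlinarith [pow_pos hZ0 3]
    have hdiv : 20 * e * Z / 2 ^ (k.val + 1) ≤ 20 * e * Z := by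
      apply div_le_self (by positivity)
      exact one_le_pow₀ (by norm_num)
    have hd : 1 / (100 * Z ^ 3) = (1/100) * (1 / Z ^ 3) := by field_simp
    have h5' : 5 / Z ^ 3 = 5 * (1 / Z ^ 3) := by ring
    have hpos : 0 < 1 / Z ^ 3 := by positivity
    have heZ0 : 0 ≤ e * Z := by positivity
    constructor
    · linarith
    · by_cases hneg : x k - P.qfix b (k.val + 1) ≤ 0
      · linarith
      · have ha := fordA_mono le_rfl (show 1 ≤ k.val + 1 by omega)
        have a1 := fordA_one.1
        nlinarith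
  constructor <;> intro k <;> have := key k <;> simp only <;> linarith

theorem volume_pplus_small (hK : 16 ≤ P.K) (hb : P.TailOk b) {e : ℝ} (he : 0 ≤ e)
    (he' : e ≤ 16 * P.eta) (hβ : P.beta b < 1 / 2 ^ (3 * P.K)) :
    volume (P.PPlus e b) ≤ ENNReal.ofReal ((10 / 2 ^ (3 * P.K)) ^ (P.K - 1)) := by
  refine le_trans (measure_mono (pplus_subset_box hK hb he he' hβ)) (le_of_eq ?_)
  rw [Real.volume_Icc_pi, ENNReal.ofReal_pow (by positivity)]
  simp only [add_sub_sub_cancel]
  rw [Finset.prod_const, Finset.card_univ, Fintype.card_fin]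
  ring_nf

/-! ## Small tail: a box inside the inner polytope -/

lemma sum_tail_geom (N : ℕ) :
    ∑ n ∈ Finset.range N, (1 + 3 * (n:ℝ)) * (5 * (5 / 8) ^ n)
      = 80 - (80 + 40 * (N:ℝ)) * (5 / 8) ^ N := by
  induction N with
  | zero => simp
  | succ k ih => rw [Finset.sum_range_succ, ih, pow_succ]; push_cast; ring

/-- `q` is at most a multiple of the tail start times the comparison sequence. -/
theorem qfix_le (hK : 1 ≤ P.K) (hb : P.TailOk b) :
    ∀ m, m ≤ P.K → P.qfix b (P.K - m)
      ≤ 80 * hRec m * b P.K + 40 * (P.etap * (P.K' : ℝ) ^ 2) * 2 ^ m := by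
  set E : ℝ := 2 * (P.etap * (P.K' : ℝ) ^ 2) with hE
  have hE0 : 0 ≤ E := by rw [hE]; have := etap_pos (P := P); positivity
  have hK' : P.K' = 20 * P.K := rfl
  have hbK := hb.nonneg P.K le_rfl (by omega)
  -- the source term
  have src : ∀ m, 1 ≤ m → m ≤ P.K →
      ∑ j ∈ Finset.Ico m (P.K' - (P.K - m)), fordA j * P.qfix b (P.K - m + j)
        ≤ 80 * fordA m * b P.K + E := by
    intro m hm hmK
    rw [Finset.sum_Ico_eq_sum_range]
    set N := P.K' - (P.K - m) - m with hN
    calc ∑ n ∈ Finset.range N, fordA (m + n) * P.qfix b (P.K - m + (m + n))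
        ≤ ∑ n ∈ Finset.range N,
            (fordA m * b P.K * ((1 + 3 * (n:ℝ)) * (5 * (5/8) ^ n)) + 2 * P.etap * (P.K':ℝ)) := by
          apply Finset.sum_le_sum
          intro n hn
          simp at hn
          rw [show P.K - m + (m + n) = P.K + n by omega, P.qfix_of_ge (by omega)]
          have ht := tail_decay hb (i := P.K) (n := n) le_rfl (by omega)
          have a0 := fordA_nonneg (n := m + n) (by omega)
          have a1 : fordA (m + n) ≤ fordA m * (1 + 3 * (n:ℝ)) := by
            have := fordA_add_le hm n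
            have h3 : (1/3:ℝ) ≤ fordA m :=
              le_trans (by linarith [fordA_one.1]) (fordA_mono le_rfl hm)
            nlinarith [Nat.cast_nonneg (α := ℝ) n]
          have a2 : fordA (m + n) ≤ (P.K' : ℝ) := by
            have h1 := fordA_le_log (m + n)
            have h2 := Real.log_le_sub_one_of_pos
              (show (0:ℝ) < ((m + n : ℕ) : ℝ) + 1 by positivity)
            have h3 : ((m + n : ℕ) : ℝ) ≤ P.K' := by exact_mod_cast (show m + n ≤ P.K' by omega)
            linarith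
          have hp := etap_pos (P := P)
          have h5 : 0 ≤ 5 * (5/8:ℝ) ^ n * b P.K := by positivity
          have e1 : fordA (m + n) * b (P.K + n)
              ≤ fordA (m + n) * (5 * (5/8) ^ n * b P.K + 2 * P.etap) :=
            mul_le_mul_of_nonneg_left ht a0
          have e2 : fordA (m + n) * (5 * (5/8) ^ n * b P.K)
              ≤ fordA m * (1 + 3 * (n:ℝ)) * (5 * (5/8) ^ n * b P.K) :=
            mul_le_mul_of_nonneg_right a1 h5
          have e3 : fordA (m + n) * (2 * P.etap) ≤ (P.K':ℝ) * (2 * P.etap) :=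
            mul_le_mul_of_nonneg_right a2 (by linarith)
          linarith
      _ ≤ 80 * fordA m * b P.K + E := by
          rw [Finset.sum_add_distrib, ← Finset.mul_sum, sum_tail_geom, Finset.sum_const,
            Finset.card_range, nsmul_eq_mul]
          have a0 := fordA_nonneg (n := m) hm
          have hNK : (N:ℝ) ≤ P.K' := by exact_mod_cast (show N ≤ P.K' by omega)
          have hp := etap_pos (P := P)
          have h1 : (N:ℝ) * (2 * P.etap * (P.K':ℝ)) ≤ (P.K':ℝ) * (2 * P.etap * (P.K':ℝ)) :=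
            mul_le_mul_of_nonneg_right hNK (by positivity)
          have h2 : 0 ≤ fordA m * b P.K * ((80 + 40 * (N:ℝ)) * (5/8) ^ N) := by positivity
          rw [hE]
          nlinarith
  rw [show 40 * (P.etap * (P.K' : ℝ) ^ 2) = 20 * E by rw [hE]; ring]
  intro m
  induction m using Nat.strong_induction_on with
  | _ m ih =>
    intro hm
    rcases Nat.eq_zero_or_pos m with rfl | hm0
    · simp [P.qfix_of_ge le_rfl]; nlinarith
    have hsplit : ∑ j ∈ Finset.Ioo 0 (P.K' - (P.K - m)), fordA j * P.qfix b (P.K - m + j)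
        = (∑ j ∈ Finset.Ioo 0 m, fordA j * P.qfix b (P.K - m + j))
          + ∑ j ∈ Finset.Ico m (P.K' - (P.K - m)), fordA j * P.qfix b (P.K - m + j) := by
      rw [← Finset.sum_union]
      · congr 1; ext j; simp; omega
      · rw [Finset.disjoint_left]; intro j; simp; omega
    have hs := src m hm0 hm
    rcases Nat.lt_or_ge m 2 with h | h
    · obtain rfl : m = 1 := by omega
      rw [P.qfix_top (by omega), hsplit, hRec_one]
      simp only [show Finset.Ioo 0 1 = (∅ : Finset ℕ) by decide, Finset.sum_empty, zero_add]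
      have := fordA_one.2
      apply max_le <;> nlinarith
    · rw [P.qfix_low (by omega), hsplit, hRec_eq h]
      have hfirst : ∑ j ∈ Finset.Ioo 0 m, fordA j * P.qfix b (P.K - m + j)
          ≤ 80 * b P.K * (∑ j ∈ Finset.Ioo 0 m, fordA j * hRec (m - j))
            + 9/10 * (20 * E * 2 ^ m) := by
        have hh := sum_fordA_le_two_pow m
          (fun j => P.qfix b (P.K - m + j) - 80 * hRec (m - j) * b P.K) (20 * E * 2 ^ m)
          (by positivity) (by
            intro j hj
            simp at hj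
            have := ih (m - j) (by omega) (by omega)
            rw [show P.K - (m - j) = P.K - m + j by omega] at this
            have e : 20 * E * 2 ^ m / 2 ^ j = 20 * E * 2 ^ (m - j) := by
              rw [div_eq_iff (by positivity), mul_assoc _ ((2:ℝ) ^ (m-j)), ← pow_add,
                show m - j + j = m by omega]
            linarith)
        simp only [mul_sub, Finset.sum_sub_distrib] at hh
        have e : ∑ j ∈ Finset.Ioo 0 m, fordA j * (80 * hRec (m - j) * b P.K)
            = 80 * b P.K * ∑ j ∈ Finset.Ioo 0 m, fordA j * hRec (m - j) := by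
          rw [Finset.mul_sum]; apply Finset.sum_congr rfl; intro j _; ring
        linarith
      have e : ∑ j ∈ Finset.Icc 1 m, fordA j * hRec (m - j)
          = (∑ j ∈ Finset.Ioo 0 m, fordA j * hRec (m - j)) + fordA m := by
        rw [show Finset.Icc 1 m = insert m (Finset.Ioo 0 m) by ext j; simp; omega,
          Finset.sum_insert (by simp), Nat.sub_self, hRec_zero]
        ring
      rw [e]
      have h2m : (1:ℝ) ≤ 2 ^ m := one_le_pow₀ (by norm_num)
      nlinarith

/-- A small tail leaves room. -/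
theorem qfix_zero_le_half (hK : 16 ≤ P.K) (hb : P.TailOk b)
    (hsmall : hRec P.K * b P.K ≤ 1 / 200) : P.qfix b 0 ≤ 1 / 2 := by
  have h := qfix_le (by omega) hb P.K le_rfl
  rw [Nat.sub_self] at h
  obtain ⟨hZ, hZK⟩ := big_two_pow hK
  rw [etap_eq] at h
  set Z : ℝ := (2:ℝ) ^ P.K with hZdef
  have hZ0 : 0 < Z := by positivity
  have hcast : (P.K' : ℝ) = 20 * P.K := by simp [K'_eq]
  rw [hcast] at h
  have herr : 40 * (1 / Z ^ 14 * (20 * (P.K:ℝ)) ^ 2) * Z ≤ 1/10 := by
    have h1 : (20 * (P.K:ℝ)) ^ 2 ≤ Z ^ 2 := by gcongr; linarith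
    have h2 : 40 * (1 / Z ^ 14 * (20 * (P.K:ℝ)) ^ 2) * Z ≤ 40 * (1 / Z ^ 14 * Z ^ 2) * Z := by
      gcongr
    refine le_trans h2 ?_
    rw [show 40 * (1 / Z ^ 14 * Z ^ 2) * Z = 40 / Z ^ 11 by field_simp,
      div_le_div_iff₀ (by positivity) (by norm_num)]
    have : Z ≤ Z ^ 11 := le_self_pow₀ (by linarith) (by norm_num)
    linarith
  have : 80 * hRec P.K * b P.K ≤ 2/5 := by nlinarith
  linarith

/-- The box inside the inner polytope. -/
theorem box_subset_pminus (hK : 16 ≤ P.K) (hb : P.TailOk b) {e : ℝ}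
    (he' : e ≤ 16 * P.eta) (hsmall : hRec P.K * b P.K ≤ 1 / 200) :
    Set.Icc (fun k => P.xstar b k - 1 / (2 ^ P.K * 200 * (P.K:ℝ) ^ 2))
      (fun k => P.xstar b k + 1 / (2 ^ P.K * 200 * (P.K:ℝ) ^ 2)) ⊆ P.PMinus e b := by
  intro x hx i hi
  have hq := qfix_zero_le_half hK hb hsmall
  have hβ : 1/2 ≤ P.beta b := by rw [Params.beta]; linarith
  obtain ⟨hZ, hZK⟩ := big_two_pow hK
  rw [eta_eq] at he'
  set Z : ℝ := (2:ℝ) ^ P.K with hZdef
  have hZ0 : 0 < Z := by positivity
  set r : ℝ := 1 / (Z * 200 * (P.K:ℝ) ^ 2) with hr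
  have hK1 : (1:ℝ) ≤ P.K := by exact_mod_cast (show 1 ≤ P.K by omega)
  have hr0 : 0 ≤ r := by positivity
  set d : ℕ → ℝ := fun k => P.profile b x k - P.profile b (P.xstar b) k with hd
  have hdb : ∀ k, |d k| ≤ r := by
    intro k
    simp only [hd]
    rcases Nat.eq_zero_or_pos k with rfl | h0
    · simp [profile_zero, hr0]
    by_cases hk : k < P.K
    · rw [P.profile_mid h0 hk, P.profile_mid h0 hk, abs_le]
      have l := hx.1 ⟨k - 1, by omega⟩
      have u := hx.2 ⟨k - 1, by omega⟩
      simp only at l u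
      constructor <;> linarith
    · simp [P.profile_of_ge (show 1 ≤ P.K by omega) (show P.K ≤ k by omega), hr0]
  have hd0 : ∀ k, P.K ≤ k → d k = 0 := by
    intro k hk; simp [hd, P.profile_of_ge (show 1 ≤ P.K by omega) hk]
  have hsum : ∑ j ∈ Finset.Ioo 0 (P.K' - i), fordA j * d (i + j) ≤ (P.K:ℝ) ^ 2 * r := by
    rw [← Finset.sum_filter_of_ne (p := fun j => i + j < P.K)
      (fun j _ hne => by by_contra hc; exact hne (by rw [hd0 _ (by omega)]; ring))]
    refine le_trans (Finset.sum_le_card_nsmul _ _ ((P.K:ℝ) * r) ?_) ?_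
    · intro j hj
      simp at hj
      have a0 := fordA_nonneg (n := j) (by omega)
      have a1 : fordA j ≤ P.K := by
        have h1 := fordA_le_log j
        have h2 := Real.log_le_sub_one_of_pos (show (0:ℝ) < (j:ℝ) + 1 by positivity)
        have h3 : (j:ℝ) ≤ P.K := by exact_mod_cast (show j ≤ P.K by omega)
        linarith
      calc fordA j * d (i + j) ≤ fordA j * r :=
            mul_le_mul_of_nonneg_left (le_trans (le_abs_self _) (hdb _)) a0
        _ ≤ (P.K:ℝ) * r := by gcongr
    · rw [nsmul_eq_mul]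
      have hc : (((Finset.Ioo 0 (P.K' - i)).filter fun j => i + j < P.K).card : ℝ) ≤ P.K := by
        exact_mod_cast le_trans (Finset.card_le_card (t := Finset.range P.K)
          (by intro j; simp; omega)) (by simp)
      calc _ ≤ (P.K:ℝ) * ((P.K:ℝ) * r) := by gcongr
        _ = _ := by ring
  have hs := slack_xstar (b := b) (by omega) (by linarith) hi
  have hg := gap_xstar (by omega) hb (by linarith) hi
  have hlow : 1 / (20 * Z) ≤ P.beta b / (10 * 2 ^ i) := by
    calc 1 / (20 * Z) = (1/2) / (10 * Z) := by field_simp; ring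
      _ ≤ P.beta b / (10 * 2 ^ i) := by
        gcongr
        exact pow_le_pow_right₀ (by norm_num) (by omega)
  have hlow2 : 1 / (2 * Z) ≤ P.beta b / Z := by
    rw [div_le_div_iff₀ (by positivity) hZ0]; nlinarith
  have heb : e ≤ 1 / (100 * Z) := by
    refine le_trans he' ?_
    rw [mul_one_div, div_le_div_iff₀ (by positivity) (by positivity)]
    have : 1600 ≤ Z ^ 5 := le_trans (by linarith) (le_self_pow₀ (by linarith) (by norm_num : 5 ≠ 0))
    nlinarith
  have hKr : 2 * ((P.K:ℝ) ^ 2 * r) = 1 / (100 * Z) := by rw [hr]; field_simp; ring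
  have hr2 : r ≤ (P.K:ℝ) ^ 2 * r := le_mul_of_one_le_left hr0 (one_le_pow₀ hK1)
  have eb1 : 1 / (100 * Z) = (1/100) * (1/Z) := by field_simp
  have eb2 : 1 / (20 * Z) = (1/20) * (1/Z) := by field_simp
  have eb3 : 1 / (2 * Z) = (1/2) * (1/Z) := by field_simp
  have hposZ : 0 < 1/Z := by positivity
  have d1 := abs_le.1 (hdb i)
  have d2 := abs_le.1 (hdb (i + 1))
  constructor
  · have e' : P.slack (P.profile b x) i = P.slack (P.profile b (P.xstar b)) i + P.slack d i := by
      rw [hd, slack_sub]; ring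
    rw [e']
    have hsd : d i - (P.K:ℝ) ^ 2 * r ≤ P.slack d i := by
      simp only [Params.slack]; linarith
    linarith
  · simp only [hd] at d1 d2
    linarith

theorem volume_pminus_ge (hK : 16 ≤ P.K) (hb : P.TailOk b) {e : ℝ}
    (he' : e ≤ 16 * P.eta) (hsmall : hRec P.K * b P.K ≤ 1 / 200) :
    ENNReal.ofReal ((1 / (2 ^ P.K * 100 * (P.K:ℝ) ^ 2)) ^ (P.K - 1))
      ≤ volume (P.PMinus e b) := by
  refine le_trans (le_of_eq ?_) (measure_mono (box_subset_pminus hK hb he' hsmall))
  rw [Real.volume_Icc_pi, ENNReal.ofReal_pow (by positivity)]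
  simp only [add_sub_sub_cancel]
  rw [Finset.prod_const, Finset.card_univ, Fintype.card_fin]
  ring_nf

/-- The tail below level `K'` is tiny. -/
theorem tail_last (hK : 16 ≤ P.K) (hb : P.TailOk b) (hb2 : b P.K ≤ 2) :
    b (P.K' - 1) ≤ 1 / 2 ^ (12 * P.K) := by
  have hK' : P.K' = 20 * P.K := rfl
  have h := tail_decay hb (i := P.K) (n := 19 * P.K - 1) le_rfl (by omega)
  rw [show P.K + (19 * P.K - 1) = P.K' - 1 by omega] at h
  obtain ⟨hZ, _⟩ := big_two_pow hK
  rw [etap_eq] at h
  rw [mul_comm 12 P.K, pow_mul]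
  set Z : ℝ := (2:ℝ) ^ P.K with hZdef
  have hZ0 : 0 < Z := by positivity
  have hb0 := hb.nonneg P.K le_rfl (by omega)
  have e1 : (5/8:ℝ) ^ (19 * P.K - 1) = (8/5) * ((5/8:ℝ) ^ 19) ^ P.K := by
    rw [← pow_mul, show 19 * P.K = (19 * P.K - 1) + 1 by omega, pow_succ,
      show 19 * P.K - 1 + 1 - 1 = 19 * P.K - 1 by omega]
    ring
  have e2 : ((5/8:ℝ) ^ 19) ^ P.K ≤ (6/10) ^ P.K / Z ^ 12 := by
    rw [hZdef, ← pow_mul (2:ℝ) P.K 12, mul_comm P.K 12, pow_mul, ← div_pow]
    exact pow_le_pow_left₀ (by norm_num) (by norm_num) _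
  have e3 : (6/10:ℝ) ^ P.K ≤ 1/100 :=
    le_trans (pow_le_pow_of_le_one (by norm_num) (by norm_num) hK) (by norm_num)
  have e4 : ((5/8:ℝ) ^ 19) ^ P.K ≤ (1/100) * (1 / Z ^ 12) := by
    refine le_trans e2 ?_
    rw [mul_one_div]; gcongr
  have e5 : 2 * (1 / Z ^ 14) ≤ (1/100) * (1 / Z ^ 12) := by
    rw [mul_one_div, mul_one_div, div_le_div_iff₀ (by positivity) (by positivity)]
    have : 200 ≤ Z ^ 2 := le_trans (by linarith) (le_self_pow₀ (by linarith) (by norm_num : 2 ≠ 0))
    nlinarith [pow_pos hZ0 12]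
  have h5 : 5 * (5/8:ℝ) ^ (19 * P.K - 1) * b P.K ≤ 16 * ((1/100) * (1 / Z ^ 12)) := by
    rw [e1]
    have := mul_le_mul e4 hb2 hb0 (by positivity)
    linarith
  have : (0:ℝ) ≤ 1 / Z ^ 12 := by positivity
  linarith

/-! ## Elementary facts on the polytopes -/

theorem pplus_mono {e e' : ℝ} (h : e ≤ e') : P.PPlus e b ⊆ P.PPlus e' b := fun _ hx i hi =>
  ⟨by linarith [(hx i hi).1], by linarith [(hx i hi).2]⟩

theorem pminus_anti {e e' : ℝ} (h : e ≤ e') : P.PMinus e' b ⊆ P.PMinus e b := fun _ hx i hi =>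
  ⟨by linarith [(hx i hi).1], by linarith [(hx i hi).2]⟩

theorem pminus_subset_pplus {e e' : ℝ} (h : 0 ≤ e + e') : P.PMinus e b ⊆ P.PPlus e' b :=
  fun _ hx i hi => ⟨by linarith [(hx i hi).1], by linarith [(hx i hi).2]⟩

lemma continuous_profile (i : ℕ) : Continuous fun x : Fin (P.K - 1) → ℝ => P.profile b x i := by
  unfold Params.profile
  by_cases h : 1 ≤ i ∧ i < P.K
  · simp only [dif_pos h]; exact continuous_apply _
  · simp only [dif_neg h]; exact continuous_const

lemma continuous_slack (i : ℕ) :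
    Continuous fun x : Fin (P.K - 1) → ℝ => P.slack (P.profile b x) i :=
  (continuous_profile i).sub
    (continuous_finsetSum _ fun j _ => continuous_const.mul (continuous_profile (i + j)))

theorem isClosed_pplus (e : ℝ) : IsClosed (P.PPlus e b) := by
  simp only [Params.PPlus, Set.ofPred_forall, Set.ofPred_and]
  exact isClosed_iInter fun i => isClosed_iInter fun _ =>
    (isClosed_le continuous_const (continuous_slack i)).inter
      (isClosed_le continuous_const ((continuous_profile i).sub (continuous_profile (i + 1))))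

theorem isClosed_pminus (e : ℝ) : IsClosed (P.PMinus e b) := by
  simp only [Params.PMinus, Set.ofPred_forall, Set.ofPred_and]
  exact isClosed_iInter fun i => isClosed_iInter fun _ =>
    (isClosed_le continuous_const (continuous_slack i)).inter
      (isClosed_le continuous_const ((continuous_profile i).sub (continuous_profile (i + 1))))

theorem tailOk_zero : P.TailOk (fun _ => 0) := by
  refine ⟨fun _ _ _ => le_rfl, fun _ _ _ => le_rfl, fun i _ _ => ?_⟩
  simp only [Params.slack, mul_zero, Finset.sum_const_zero, sub_zero]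
  exact neg_nonpos.2 etap_pos.le

end Params

/-! ## Choice of `K` -/

/-- Pigeonhole over well separated values of `K`. -/
theorem exists_ratio (G : ℝ → ℝ) (hmono : Monotone G) (hG : ∀ s, 1 ≤ G s) {L : ℝ} (hL : 0 ≤ L)
    {k0 : ℕ} (hk : 30 ≤ k0) {A : ℝ} (hA : Real.log (G L) ≤ A) :
    ∃ K, k0 ≤ K ∧ K ≤ 2 * k0 ∧
      G (3 * L / hRec K) ≤ Real.exp (30 * A / k0) * G (L / (200 * hRec K)) := by
  by_contra hno
  push Not at hno
  set R := Real.exp (30 * A / k0) with hR
  set N := k0 / 30 with hN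
  have hA0 : 0 ≤ A := le_trans (Real.log_nonneg (hG L)) hA
  have hR1 : 1 ≤ R := Real.one_le_exp (by positivity)
  have hpos := fun s => lt_of_lt_of_le zero_lt_one (hG s)
  have step : ∀ j, j ≤ N →
      R ^ j * G (3 * L / hRec (k0 + 30 * j)) ≤ G (3 * L / hRec k0) := by
    intro j
    induction j with
    | zero => simp
    | succ j ih =>
      intro hj
      have h1 := hno (k0 + 30 * j) (by omega) (by omega)
      have h2 : 3 * L / hRec (k0 + 30 * (j + 1)) ≤ L / (200 * hRec (k0 + 30 * j)) := by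
        have h3 := hRec_add_ge (n := k0 + 30 * j) (by omega) 30
        rw [show k0 + 30 * j + 30 = k0 + 30 * (j + 1) by ring] at h3
        have p1 := hRec_pos (k0 + 30 * j)
        rw [div_le_div_iff₀ (hRec_pos _) (by positivity)]
        have h4 : 600 * hRec (k0 + 30 * j) ≤ hRec (k0 + 30 * (j + 1)) := by
          refine le_trans ?_ h3
          gcongr
          norm_num
        nlinarith
      have h5 := mul_le_mul_of_nonneg_left (hmono h2) (show (0:ℝ) ≤ R by linarith)
      calc R ^ (j + 1) * G (3 * L / hRec (k0 + 30 * (j + 1)))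
          = R ^ j * (R * G (3 * L / hRec (k0 + 30 * (j + 1)))) := by ring
        _ ≤ R ^ j * G (3 * L / hRec (k0 + 30 * j)) := by gcongr; linarith
        _ ≤ _ := ih (by omega)
  have h1 := step N le_rfl
  have h2 := hno (k0 + 30 * N) (by omega) (by omega)
  have h3 : G (3 * L / hRec k0) ≤ G L := by
    apply hmono
    rw [div_le_iff₀ (hRec_pos _)]
    have h4 := hRec_add_ge (n := 1) le_rfl (k0 - 1)
    rw [hRec_one, mul_one, show 1 + (k0 - 1) = k0 by omega] at h4
    have h5 : (3:ℝ) ≤ (5/4) ^ (k0 - 1) :=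
      le_trans (by norm_num) (pow_le_pow_right₀ (by norm_num) (show 5 ≤ k0 - 1 by omega))
    nlinarith
  have h4 : R ^ (N + 1) < G L := by
    calc R ^ (N + 1) = R ^ N * (R * 1) := by ring
      _ ≤ R ^ N * (R * G (L / (200 * hRec (k0 + 30 * N)))) := by gcongr; exact hG _
      _ < R ^ N * G (3 * L / hRec (k0 + 30 * N)) := by gcongr
      _ ≤ G L := le_trans h1 h3
  have h5 : G L ≤ R ^ (N + 1) := by
    rw [hR, ← Real.exp_nat_mul, ← Real.log_le_iff_le_exp (hpos _)]
    refine le_trans hA ?_
    have hk0 : (0:ℝ) < k0 := by exact_mod_cast (show 0 < k0 by omega)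
    rw [mul_div_assoc', le_div_iff₀ hk0]
    have : (k0:ℝ) ≤ 30 * ((N + 1 : ℕ) : ℝ) := by exact_mod_cast (show k0 ≤ 30 * (N + 1) by omega)
    nlinarith
  linarith

end Vale.Agent.P031
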