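import Vale.Agent.P031.Defs
import Vale.Agent.P031.Mertens
import Vale.Agent.P031.Euler
import Vale.Agent.P031.Brun

/-!
# P031 Q2: almost all primes are normal (section 2 of the notes)

For a prime `p ≤ X` write `p - 1 = m * P` with `P` the largest prime factor. Off a negligible
(smooth) set `log P ≥ log X / L ^ 3`, the sieve bounds the number of such `P` for each `m`, and
an Euler product bounds the weighted sum over `m`.
-/

open scoped Classical
noncomputable section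

namespace Vale.Agent.P031

open Real

namespace Nrm

/-- Exponent of the upper deviation. -/
theorem dev_exp_upper {θ : ℝ} (h0 : 0 ≤ θ) (h1 : θ ≤ 1) :
    θ - (1 + θ) * log (1 + θ) ≤ -(θ ^ 2 / 3) := by
  have h := Real.le_log_one_add_of_nonneg h0
  have h2 : θ * (2 + 2 * θ) / (θ + 2) ≤ (1 + θ) * log (1 + θ) := by
    refine le_trans (le_of_eq ?_) (mul_le_mul_of_nonneg_left h (by linarith))
    ring
  have h3 : θ + θ ^ 2 / 3 ≤ θ * (2 + 2 * θ) / (θ + 2) := by
    rw [le_div_iff₀ (by linarith)]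
    nlinarith [sq_nonneg θ, mul_nonneg h0 h0]
  linarith

/-- Exponent of the lower deviation. -/
theorem dev_exp_lower {θ : ℝ} (h0 : 0 ≤ θ) (h1 : θ < 1) :
    -θ - (1 - θ) * log (1 - θ) ≤ -(θ ^ 2 / 3) := by
  have hpos : 0 < 1 - θ := by linarith
  set u := -log (1 - θ) with hu
  have hu0 : 0 ≤ u := by
    have := log_nonpos hpos.le (by linarith : 1 - θ ≤ 1)
    linarith
  have h := Real.self_le_sinh_iff.2 hu0
  rw [Real.sinh_eq, hu, neg_neg, exp_neg, exp_log hpos] at h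
  have h2 : (1 - θ) * (-log (1 - θ)) ≤ (1 - θ) * (((1 - θ)⁻¹ - (1 - θ)) / 2) :=
    mul_le_mul_of_nonneg_left h hpos.le
  have h3 : (1 - θ) * (((1 - θ)⁻¹ - (1 - θ)) / 2) = (1 - (1 - θ) ^ 2) / 2 := by
    field_simp
  nlinarith [sq_nonneg θ]

theorem omega_mul (a b : ℝ) {m n : ℕ} (hm : m ≠ 0) (hn : n ≠ 0) :
    omegaIoc a b (m * n) = omegaIoc a b m + omegaIoc a b n := by
  unfold omegaIoc
  rw [((Nat.perm_primeFactorsList_mul hm hn).filter _).length_eq, List.filter_append,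
    List.length_append]

theorem omega_prime (a b : ℝ) {p : ℕ} (hp : p.Prime) : omegaIoc a b p ≤ 1 := by
  unfold omegaIoc
  rw [Nat.primeFactorsList_prime hp]
  exact le_trans (List.length_filter_le _ _) (by simp)

theorem omega_eq_zero {a b : ℝ} {n : ℕ} (h : ∀ r ∈ n.primeFactors, lam (r : ℝ) ≤ a) :
    omegaIoc a b n = 0 := by
  unfold omegaIoc
  rw [List.length_eq_zero_iff, List.filter_eq_nil_iff]
  intro r hr
  have := h r (Nat.mem_primeFactors_iff_mem_primeFactorsList.2 hr)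
  simp only [decide_eq_true_eq, not_and]
  intro h'
  linarith

theorem maxPrime_mem {n : ℕ} (hn : 2 ≤ n) : maxPrime n ∈ n.primeFactors := by
  obtain ⟨r, hr, hrd⟩ := Nat.exists_prime_and_dvd (by omega : n ≠ 1)
  obtain ⟨i, hi, hie⟩ := Finset.exists_mem_eq_sup n.primeFactors
    ⟨r, Nat.mem_primeFactors.2 ⟨hr, hrd, by omega⟩⟩ id
  unfold maxPrime
  rw [hie]
  exact hi

theorem le_maxPrime {n r : ℕ} (h : r ∈ n.primeFactors) : r ≤ maxPrime n := by
  unfold maxPrime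
  exact Finset.le_sup (f := id) h

theorem log_le_self_pow {y : ℝ} (hy : 0 ≤ y) : log y ^ 2 ≤ 8 * y ^ ((3 : ℝ) / 4) ∨ log y < 0 := by
  by_cases h : log y < 0
  · exact Or.inr h
  left
  push Not at h
  have h1 : log y ≤ y ^ ((3 : ℝ) / 8) / (3 / 8) := Real.log_le_rpow_div hy (by norm_num)
  calc log y ^ 2 ≤ (y ^ ((3 : ℝ) / 8) / (3 / 8)) ^ 2 := pow_le_pow_left₀ h h1 2
    _ = 64 / 9 * (y ^ ((3 : ℝ) / 8)) ^ (2 : ℕ) := by ring
    _ = 64 / 9 * y ^ ((3 : ℝ) / 4) := by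
        rw [← Real.rpow_natCast, ← Real.rpow_mul hy]; norm_num
    _ ≤ 8 * y ^ ((3 : ℝ) / 4) := by
        have := Real.rpow_nonneg hy ((3 : ℝ) / 4)
        nlinarith

/-- The sieve input of this section. -/
def BrunForms : Prop :=
  ∃ C : ℝ, 0 ≤ C ∧ ∀ (L X : ℝ) (k : ℕ) (a b : Fin k → ℕ), k ≤ 3 → 2 ≤ L → 2 ≤ X → lam X ≤ 2 * L →
    (∀ i, 1 ≤ a i ∧ (a i : ℝ) ≤ exp (exp (2 * L)) ∧ (b i : ℝ) ≤ exp (exp (2 * L))) →
    (Pairwise fun i j => a i * b j ≠ a j * b i) →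
    (((Finset.range (⌊X⌋₊ + 1)).filter fun w => ∀ i, ∀ p : ℕ, p.Prime →
      (p : ℝ) ≤ X ^ (1 / L ^ 2) → ¬ p ∣ a i * w + b i).card : ℝ) ≤ L ^ C * X / log X ^ k

/-- The tiny range below the sieve level. -/
theorem small_range {L Y : ℝ} (hL : 2 ≤ L) (hY : 2 ≤ Y) :
    Y ^ (1 / L ^ 2) + 1 ≤ 16 * (Y / log Y ^ 2) := by
  have hY1 : 1 ≤ Y := by linarith
  have hlY0 : 0 < log Y := log_pos (by linarith)
  have h4 : 1 / L ^ 2 ≤ (1 : ℝ) / 4 := one_div_le_one_div_of_le (by norm_num) (by nlinarith)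
  have h5 : Y ^ (1 / L ^ 2) ≤ Y ^ ((1 : ℝ) / 4) := rpow_le_rpow_of_exponent_le hY1 h4
  have h6 : 1 ≤ Y ^ ((1 : ℝ) / 4) := one_le_rpow hY1 (by norm_num)
  have h7 : log Y ^ 2 ≤ 8 * Y ^ ((3 : ℝ) / 4) :=
    (log_le_self_pow (by linarith)).resolve_right (by linarith)
  have h8 : Y ^ ((1 : ℝ) / 4) * Y ^ ((3 : ℝ) / 4) = Y := by
    rw [← rpow_add (by linarith)]; norm_num
  rw [← mul_div_assoc, le_div_iff₀ (by positivity)]
  calc (Y ^ (1 / L ^ 2) + 1) * log Y ^ 2 ≤ (2 * Y ^ ((1 : ℝ) / 4)) * (8 * Y ^ ((3 : ℝ) / 4)) :=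
        mul_le_mul (by linarith) h7 (by positivity) (by positivity)
    _ = 16 * Y := by linear_combination 16 * h8

theorem const_absorb {L C : ℝ} (hL : 2 ≤ L) (hC : 0 ≤ C) : L ^ C + 16 ≤ L ^ (C + 5) := by
  have hL0 : 0 < L := by linarith
  have h1 : (1 : ℝ) ≤ L ^ C := one_le_rpow (by linarith) hC
  have h2 : (32 : ℝ) ≤ L ^ (5 : ℕ) :=
    le_trans (by norm_num) (pow_le_pow_left₀ (by norm_num : (0 : ℝ) ≤ 2) hL 5)
  have e : L ^ (C + 5) = L ^ C * L ^ (5 : ℕ) := by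
    rw [← rpow_natCast L 5, ← rpow_add hL0]; norm_num
  have h3 : L ^ C * 32 ≤ L ^ C * L ^ (5 : ℕ) := mul_le_mul_of_nonneg_left h2 (by linarith)
  rw [e]
  linarith

/-- Primes `P` with `m * P + 1` prime, from the sieve. -/
theorem pair_count (hB : BrunForms) : ∃ C : ℝ, 0 ≤ C ∧ ∀ (L X ell : ℝ) (m : ℕ) (W : Finset ℕ),
    2 ≤ L → 2 ≤ X → lam X ≤ L + 2 → 1 ≤ ell → 1 ≤ m → (m : ℝ) ≤ X →
    (∀ w ∈ W, w.Prime ∧ (m * w + 1).Prime ∧ (m : ℝ) * w ≤ X ∧ ell ≤ log (w : ℝ)) →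
    (W.card : ℝ) ≤ L ^ C * (X / ((m : ℝ) * ell ^ 2)) := by
  obtain ⟨C, hC, hbr⟩ := hB
  refine ⟨C + 5, by linarith, fun L X ell m W hL hX hlX hell hm hmX hW => ?_⟩
  rcases W.eq_empty_or_nonempty with rfl | ⟨w₀, hw₀⟩
  · simp only [Finset.card_empty, Nat.cast_zero]
    have : 0 ≤ L ^ (C + 5) := rpow_nonneg (by linarith) _
    positivity
  have hm0 : (0 : ℝ) < m := by exact_mod_cast hm
  set Y := X / (m : ℝ) with hY
  have hwY : ∀ w ∈ W, (w : ℝ) ≤ Y := fun w hw => by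
    rw [hY, le_div_iff₀ hm0]
    linarith [(hW w hw).2.2.1]
  have hY2 : 2 ≤ Y := le_trans (by exact_mod_cast (hW w₀ hw₀).1.two_le) (hwY w₀ hw₀)
  have hlY : ell ≤ log Y :=
    (hW w₀ hw₀).2.2.2.trans (log_le_log (by exact_mod_cast (hW w₀ hw₀).1.pos) (hwY w₀ hw₀))
  have hYX : Y ≤ X := by
    rw [hY]; exact div_le_self (by linarith) (by exact_mod_cast hm)
  have hlamY : lam Y ≤ 2 * L := by
    have h1 : lam Y ≤ lam X := log_le_log (by linarith) (log_le_log (by linarith) hYX)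
    linarith
  have hXexp : X ≤ exp (exp (2 * L)) := by
    have hlX0 : 0 < log X := log_pos (by linarith)
    rw [← exp_log (show (0 : ℝ) < X by linarith)]
    apply exp_le_exp.2
    rw [← exp_log hlX0]
    exact exp_le_exp.2 (show lam X ≤ 2 * L by linarith)
  have h1le : (1 : ℝ) ≤ exp (exp (2 * L)) := one_le_exp (exp_pos _).le
  have hbound := hbr L Y 2 ![1, m] ![0, 1] (by norm_num) hL hY2 hlamY
    (by
      intro i
      fin_cases i
      · exact ⟨by simp, by simpa using h1le, by simpa using (exp_pos _).le⟩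
      · exact ⟨by simpa using hm, by simpa using hmX.trans hXexp, by simpa using h1le⟩)
    (by
      intro i j hij
      fin_cases i <;> fin_cases j <;> simp_all)
  set F := (Finset.range (⌊Y⌋₊ + 1)).filter fun w => ∀ i : Fin 2, ∀ p : ℕ, p.Prime →
      (p : ℝ) ≤ Y ^ (1 / L ^ 2) → ¬ p ∣ ![1, m] i * w + ![0, 1] i with hF
  have hsub : W ⊆ F ∪ Finset.range (⌊Y ^ (1 / L ^ 2)⌋₊ + 1) := by
    intro w hw
    rw [Finset.mem_union]
    by_cases hsmall : (w : ℝ) ≤ Y ^ (1 / L ^ 2)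
    · right
      rw [Finset.mem_range]
      exact Nat.lt_succ_of_le (Nat.le_floor hsmall)
    · left
      push Not at hsmall
      obtain ⟨hwp, hmwp, hmw, -⟩ := hW w hw
      rw [hF, Finset.mem_filter, Finset.mem_range]
      refine ⟨Nat.lt_succ_of_le (Nat.le_floor (hwY w hw)), ?_⟩
      intro i p hp hpY hdvd
      fin_cases i
      · have : p = w := (Nat.prime_dvd_prime_iff_eq hp hwp).1 (by simpa using hdvd)
        subst this
        linarith
      · have : p = m * w + 1 := (Nat.prime_dvd_prime_iff_eq hp hmwp).1 (by simpa using hdvd)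
        subst this
        have hle : w ≤ m * w + 1 := by
          have := Nat.le_mul_of_pos_left w hm
          omega
        have hle' : (w : ℝ) ≤ ((m * w + 1 : ℕ) : ℝ) := by exact_mod_cast hle
        linarith
  have hcard : (W.card : ℝ) ≤ L ^ C * Y / log Y ^ 2 + (Y ^ (1 / L ^ 2) + 1) := by
    have h1 := (Finset.card_le_card hsub).trans (Finset.card_union_le _ _)
    have h2 : (W.card : ℝ) ≤ (F.card : ℝ) + ((⌊Y ^ (1 / L ^ 2)⌋₊ + 1 : ℕ) : ℝ) := by
      rw [Finset.card_range] at h1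
      exact_mod_cast h1
    refine h2.trans (add_le_add hbound ?_)
    push_cast
    linarith [Nat.floor_le (a := Y ^ (1 / L ^ 2)) (rpow_nonneg (by linarith) _)]
  have hlY0 : 0 < log Y := by linarith
  have hsmall := small_range hL hY2
  have hLC := const_absorb hL hC
  have hdiv : Y / log Y ^ 2 ≤ X / ((m : ℝ) * ell ^ 2) := by
    rw [show X / ((m : ℝ) * ell ^ 2) = Y / ell ^ 2 by rw [hY, div_div]]
    exact div_le_div_of_nonneg_left (by linarith) (by positivity)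
      (pow_le_pow_left₀ (by linarith) hlY 2)
  calc (W.card : ℝ) ≤ L ^ C * Y / log Y ^ 2 + (Y ^ (1 / L ^ 2) + 1) := hcard
    _ ≤ L ^ C * (Y / log Y ^ 2) + 16 * (Y / log Y ^ 2) := by rw [mul_div_assoc]; linarith
    _ = (L ^ C + 16) * (Y / log Y ^ 2) := by ring
    _ ≤ L ^ (C + 5) * (X / ((m : ℝ) * ell ^ 2)) :=
        mul_le_mul hLC hdiv (by positivity) (rpow_nonneg (by linarith) _)

/-- Weighted count of primes `p` through the cofactor of the largest prime of `p - 1`. -/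
theorem weighted_count (hB : BrunForms) : ∃ C : ℝ, 0 ≤ C ∧ ∀ (L X c E : ℝ) (f : ℕ → ℝ)
    (T : Finset ℕ), 2 ≤ L → 2 ≤ X → lam X ≤ L + 2 → 10 * log L + 10 ≤ lam X → 0 ≤ c →
    (∀ r : ℕ, r.Prime → (r : ℝ) ≤ X → 0 ≤ f r ∧ f r ≤ 2 ∧ f r ≤ 3 * r / 4) →
    (∑ r ∈ primesUpTo X, f r / r ≤ E) →
    (∀ p ∈ T, p.Prime ∧ (p : ℝ) ≤ X ∧ log X / (2 * L ^ 3) ≤ log (maxPrime (p - 1) : ℝ) ∧
      1 ≤ c * cmul f ((p - 1) / maxPrime (p - 1))) →
    (T.card : ℝ) ≤ L ^ C * (X / log X ^ 2) * (c * exp E) := by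
  obtain ⟨C, hC, hpair⟩ := pair_count hB
  refine ⟨C + 8 + 64, by linarith, fun L X c E f T hL hX hlX hbig hc hf hE hT => ?_⟩
  have hL0 : 0 < L := by linarith
  have hlX0 : 0 < log X := log_pos (by linarith)
  set ell := log X / (2 * L ^ 3) with hell
  have hell1 : 1 ≤ ell := by
    rw [hell, le_div_iff₀ (by positivity), one_mul]
    have h1 : exp (10 * log L + 10) ≤ log X := by
      rw [← exp_log hlX0]; exact exp_le_exp.2 hbig
    have h2 : exp (10 * log L + 10) = L ^ 10 * exp 10 := by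
      rw [exp_add, show (10 : ℝ) * log L = ((10 : ℕ) : ℝ) * log L by norm_num, exp_nat_mul,
        exp_log hL0]
    have h3 : (11 : ℝ) ≤ exp 10 := by linarith [add_one_le_exp (10 : ℝ)]
    have h4 : L ^ 3 ≤ L ^ 10 := pow_le_pow_right₀ (by linarith) (by norm_num)
    nlinarith [pow_pos hL0 10]
  have key : ∀ p ∈ T, (maxPrime (p - 1)).Prime ∧ 1 ≤ (p - 1) / maxPrime (p - 1) ∧
      (p - 1) / maxPrime (p - 1) * maxPrime (p - 1) + 1 = p := by
    intro p hp
    obtain ⟨hpp, -, hlog, -⟩ := hT p hp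
    have h2 : 2 ≤ p - 1 := by
      by_contra h
      have h2 : p = 2 := by have := hpp.two_le; omega
      subst h2
      have : maxPrime (2 - 1) = 0 := by simp [maxPrime]
      rw [this, Nat.cast_zero, log_zero] at hlog
      linarith
    have hmem := Nat.mem_primeFactors.1 (maxPrime_mem h2)
    refine ⟨hmem.1, Nat.div_pos (Nat.le_of_dvd (by omega) hmem.2.1) hmem.1.pos, ?_⟩
    rw [Nat.div_mul_cancel hmem.2.1]
    omega
  set g := fun p : ℕ => (p - 1) / maxPrime (p - 1) with hg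
  set M := T.image g with hM
  have hMmem : ∀ m ∈ M, m ≠ 0 ∧ (m : ℝ) ≤ X ∧ m.primeFactors ⊆ primesUpTo X := by
    intro m hm
    obtain ⟨p, hp, rfl⟩ := Finset.mem_image.1 hm
    have hle : g p ≤ p := le_trans (Nat.div_le_self _ _) (Nat.sub_le _ _)
    have hleX : (g p : ℝ) ≤ X := le_trans (by exact_mod_cast hle) (hT p hp).2.1
    have h1 : 1 ≤ g p := (key p hp).2.1
    refine ⟨by omega, hleX, fun r hr => ?_⟩
    rw [mem_primesUpTo (by linarith)]
    exact ⟨Nat.prime_of_mem_primeFactors hr,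
      le_trans (by exact_mod_cast Nat.le_of_mem_primeFactors hr) hleX⟩
  have hfib : ∀ m ∈ M, (((T.filter fun p => g p = m).card : ℕ) : ℝ) ≤
      L ^ C * (X / ell ^ 2) * (c * (cmul f m / m)) := by
    intro m hm
    obtain ⟨p₀, hp₀, hp₀m⟩ := Finset.mem_image.1 hm
    have hmX := (hMmem m hm).2.1
    have hm1 : 1 ≤ m := hp₀m ▸ (key p₀ hp₀).2.1
    have hinj : ((T.filter fun p => g p = m).image fun p => maxPrime (p - 1)).card =
        (T.filter fun p => g p = m).card := by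
      apply Finset.card_image_of_injOn
      intro p hp q hq hpq
      simp only [Finset.coe_filter, Set.mem_ofPred_eq] at hp hq
      have h1 := (key p hp.1).2.2
      have h2 := (key q hq.1).2.2
      simp only [hg] at hp hq
      simp only at hpq
      rw [hp.2] at h1
      rw [hq.2] at h2
      rw [← h1, ← h2, hpq]
    have hW := hpair L X ell m ((T.filter fun p => g p = m).image fun p => maxPrime (p - 1))
      hL hX hlX hell1 hm1 hmX (by
        intro w hw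
        obtain ⟨p, hp, rfl⟩ := Finset.mem_image.1 hw
        obtain ⟨hpT, hpm⟩ := Finset.mem_filter.1 hp
        have hk := key p hpT
        simp only [hg] at hpm
        rw [hpm] at hk
        refine ⟨hk.1, by rw [hk.2.2]; exact (hT p hpT).1, ?_, (hT p hpT).2.2.1⟩
        have : ((m * maxPrime (p - 1) + 1 : ℕ) : ℝ) ≤ X := by rw [hk.2.2]; exact (hT p hpT).2.1
        push_cast at this
        linarith)
    rw [hinj] at hW
    have hone : 1 ≤ c * cmul f m := by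
      have := (hT p₀ hp₀).2.2.2
      simp only [hg] at hp₀m
      rwa [hp₀m] at this
    have hm0 : (0 : ℝ) < m := by exact_mod_cast hm1
    calc _ ≤ L ^ C * (X / ((m : ℝ) * ell ^ 2)) := hW
      _ ≤ L ^ C * (X / ((m : ℝ) * ell ^ 2)) * (c * cmul f m) :=
          le_mul_of_one_le_right (by have := rpow_nonneg hL0.le C; positivity) hone
      _ = L ^ C * (X / ell ^ 2) * (c * (cmul f m / m)) := by field_simp
  have hsum : ∑ m ∈ M, cmul f m / m ≤ exp (E + 32) := by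
    refine (euler_le_bound (primesUpTo X) M f 2 (fun p hp => primesUpTo_prime hp) ?_ ?_ ?_).trans
      (exp_le_exp.2 (by linarith))
    · intro p hp
      obtain ⟨hpp, hpX⟩ := (mem_primesUpTo (by linarith)).1 hp
      exact ⟨(hf p hpp hpX).1, (hf p hpp hpX).2.2⟩
    · intro p hp
      obtain ⟨hpp, hpX⟩ := (mem_primesUpTo (by linarith)).1 hp
      exact (hf p hpp hpX).2.1
    · intro m hm
      exact ⟨(hMmem m hm).1, (hMmem m hm).2.2⟩
  have hconst : L ^ C * (X / ell ^ 2) * exp 32 ≤ L ^ (C + 8 + 64) * (X / log X ^ 2) := by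
    have h16 : exp 32 ≤ L ^ 64 := by
      calc exp (32 : ℝ) = exp 1 ^ 32 := by rw [← exp_nat_mul]; norm_num
        _ ≤ 4 ^ 32 := pow_le_pow_left₀ (exp_pos 1).le (exp_one_lt_three.le.trans (by norm_num)) 32
        _ = 2 ^ 64 := by norm_num
        _ ≤ L ^ 64 := pow_le_pow_left₀ (by norm_num) hL 64
    have hel : X / ell ^ 2 = 4 * L ^ 6 * (X / log X ^ 2) := by rw [hell]; field_simp; ring
    have h4 : 4 * L ^ 6 ≤ L ^ 8 := by
      have : (4 : ℝ) ≤ L ^ 2 := by nlinarith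
      nlinarith [pow_pos hL0 6]
    have hx : 0 ≤ X / log X ^ 2 := by positivity
    have hLC : 0 ≤ L ^ C := rpow_nonneg hL0.le C
    calc L ^ C * (X / ell ^ 2) * exp 32
        = L ^ C * (4 * L ^ 6) * exp 32 * (X / log X ^ 2) := by rw [hel]; ring
      _ ≤ L ^ C * L ^ 8 * L ^ 64 * (X / log X ^ 2) := by gcongr
      _ = L ^ (C + 8 + 64) * (X / log X ^ 2) := by
          rw [rpow_add hL0, rpow_add hL0]
          norm_cast
  have hmaps : Set.MapsTo g (↑T : Set ℕ) ↑M := fun p hp => Finset.mem_image_of_mem g hp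
  have hcard : (T.card : ℝ) = ∑ m ∈ M, (((T.filter fun p => g p = m).card : ℕ) : ℝ) := by
    rw [Finset.card_eq_sum_card_fiberwise hmaps]
    push_cast
    rfl
  calc (T.card : ℝ) ≤ ∑ m ∈ M, L ^ C * (X / ell ^ 2) * (c * (cmul f m / m)) :=
        hcard ▸ Finset.sum_le_sum hfib
    _ = L ^ C * (X / ell ^ 2) * (c * ∑ m ∈ M, cmul f m / m) := by
        rw [← Finset.mul_sum, ← Finset.mul_sum]
    _ ≤ L ^ C * (X / ell ^ 2) * (c * exp (E + 32)) := by
        have := rpow_nonneg hL0.le C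
        gcongr
    _ = L ^ C * (X / ell ^ 2) * exp 32 * (c * exp E) := by rw [exp_add]; ring
    _ ≤ L ^ (C + 8 + 64) * (X / log X ^ 2) * (c * exp E) :=
        mul_le_mul_of_nonneg_right hconst (mul_nonneg hc (exp_pos _).le)

theorem expexp_le {X b : ℝ} (hX : 2 ≤ X) (h : b ≤ lam X) : exp (exp b) ≤ X := by
  have hlX0 : 0 < log X := log_pos (by linarith)
  calc exp (exp b) ≤ exp (exp (log (log X))) := exp_le_exp.2 (exp_le_exp.2 h)
    _ = X := by rw [exp_log hlX0, exp_log (by linarith)]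

theorem lam_natCast_mono {r : ℕ} {X : ℝ} (hr : 2 ≤ r) (h : (r : ℝ) ≤ X) :
    lam (r : ℝ) ≤ lam X := by
  have h1 : (1 : ℝ) < r := by exact_mod_cast hr
  exact log_le_log (log_pos h1) (log_le_log (by linarith) h)

/-- Deviations of the number of prime factors of `p - 1` in one interval. -/
theorem omega_dev_count (hB : BrunForms) : ∃ C : ℝ, 0 ≤ C ∧ ∀ (L X θ a b : ℝ) (T : Finset ℕ),
    2 ≤ L → 2 ≤ X → lam X ≤ L + 2 → 10 * log L + 10 ≤ lam X → 0 < θ → θ ≤ 1 / 2 →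
    0 ≤ a → a ≤ b →
    (∀ p ∈ T, p.Prime ∧ (p : ℝ) ≤ X ∧ log X / (2 * L ^ 3) ≤ log (maxPrime (p - 1) : ℝ) ∧
      ((1 + θ) * (b - a) < (omegaIoc a b (p - 1) : ℝ) ∨
        (b ≤ lam X ∧ (omegaIoc a b (p - 1) : ℝ) < (1 - θ) * (b - a)))) →
    (T.card : ℝ) ≤ L ^ C * (X / log X) * exp (-(θ ^ 2 * (b - a) / 3)) := by
  obtain ⟨C, hC, hw⟩ := weighted_count hB
  obtain ⟨C1, hC1, hm1⟩ := mertens_upTo
  obtain ⟨C2, hC2, hm2⟩ := mertens_lam
  refine ⟨C + (2 * (2 + C1 + C2) + 1), by linarith,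
    fun L X θ a b T hL hX hlX hbig hθ hθ2 ha hab hT => ?_⟩
  have hL0 : 0 < L := by linarith
  have hlX0 : 0 < log X := log_pos (by linarith)
  set d := b - a with hd
  have hd0 : 0 ≤ d := by linarith
  set I := (primesUpTo X).filter fun r : ℕ => a < lam (r : ℝ) ∧ lam (r : ℝ) ≤ b with hI
  have hsumI : ∀ z : ℝ,
      ∑ r ∈ primesUpTo X, (if a < lam (r : ℝ) ∧ lam (r : ℝ) ≤ b then z else 1) / (r : ℝ)
        = ∑ r ∈ primesUpTo X, (1 : ℝ) / r + (z - 1) * ∑ r ∈ I, (1 : ℝ) / r := by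
    intro z
    rw [hI, Finset.sum_filter, Finset.mul_sum, ← Finset.sum_add_distrib]
    refine Finset.sum_congr rfl fun r _ => ?_
    split_ifs <;> ring
  have hA : ∑ r ∈ primesUpTo X, (1 : ℝ) / r ≤ lam X + C1 := by
    linarith [(abs_le.1 (hm1 X hX)).2]
  have hI1 : ∑ r ∈ I, (1 : ℝ) / r ≤ d + C2 := by
    have h1 : ∑ r ∈ I, (1 : ℝ) / r ≤ ∑ r ∈ primesLam a b, (1 : ℝ) / r := by
      refine Finset.sum_le_sum_of_subset_of_nonneg (fun r hr => ?_) (fun r _ _ => by positivity)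
      obtain ⟨hr1, hr2⟩ := Finset.mem_filter.1 hr
      exact mem_primesLam.2 ⟨primesUpTo_prime hr1, hr2.1, hr2.2⟩
    linarith [(abs_le.1 (hm2 a b ha hab)).2]
  have hI2 : b ≤ lam X → d - C2 ≤ ∑ r ∈ I, (1 : ℝ) / r := by
    intro hb
    have h1 : ∑ r ∈ primesLam a b, (1 : ℝ) / r ≤ ∑ r ∈ I, (1 : ℝ) / r := by
      refine Finset.sum_le_sum_of_subset_of_nonneg (fun r hr => ?_) (fun r _ _ => by positivity)
      obtain ⟨hrp, hr1, hr2⟩ := mem_primesLam.1 hr
      exact Finset.mem_filter.2 ⟨(mem_primesUpTo (by linarith)).2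
        ⟨hrp, ((natPrime_le_expexp hrp).2 hr2).trans (expexp_le hX hb)⟩, hr1, hr2⟩
    linarith [(abs_le.1 (hm2 a b ha hab)).1]
  have hfac : ∀ p ∈ T, ∃ P m : ℕ, P.Prime ∧ m ≠ 0 ∧ (p - 1) / maxPrime (p - 1) = m ∧
      omegaIoc a b (p - 1) = omegaIoc a b m + omegaIoc a b P := by
    intro p hp
    obtain ⟨hpp, -, hlog, -⟩ := hT p hp
    have hne : 2 ≤ p - 1 := by
      by_contra h
      have h2 : p = 2 := by have := hpp.two_le; omega
      subst h2
      have h0 : maxPrime (2 - 1) = 0 := by simp [maxPrime]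
      rw [h0, Nat.cast_zero, log_zero] at hlog
      have : 0 < log X / (2 * L ^ 3) := by positivity
      linarith
    have hmem := Nat.mem_primeFactors.1 (maxPrime_mem hne)
    refine ⟨maxPrime (p - 1), (p - 1) / maxPrime (p - 1), hmem.1, ?_, rfl, ?_⟩
    · exact (Nat.div_pos (Nat.le_of_dvd (by omega) hmem.2.1) hmem.1.pos).ne'
    · conv_lhs => rw [← Nat.div_mul_cancel hmem.2.1]
      exact omega_mul a b (Nat.div_pos (Nat.le_of_dvd (by omega) hmem.2.1) hmem.1.pos).ne'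
        hmem.1.ne_zero
  set B := exp (-(θ ^ 2 * d / 3)) with hBdef
  have hfin : ∀ (z t E : ℝ) (U : Finset ℕ), U ⊆ T → 0 < z → z ≤ 3 / 2 →
      (∀ p ∈ U, 1 ≤ exp t * z ^ omegaIoc a b ((p - 1) / maxPrime (p - 1))) →
      (∑ r ∈ primesUpTo X, (1 : ℝ) / r + (z - 1) * ∑ r ∈ I, (1 : ℝ) / r ≤ E) →
      t + E ≤ lam X + (2 + C1 + C2) - θ ^ 2 * d / 3 →
      (U.card : ℝ) ≤ L ^ (C + 2 * (2 + C1 + C2)) * (X / log X) * B := by
    intro z t E U hU hz hz2 hone hE hte
    have h := hw L X (exp t) E (fun r : ℕ => if a < lam (r : ℝ) ∧ lam (r : ℝ) ≤ b then z else 1) U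
      hL hX hlX hbig (exp_pos t).le
      (by
        intro r hr _
        have h2 : (2 : ℝ) ≤ r := by exact_mod_cast hr.two_le
        split_ifs <;> exact ⟨by linarith, by linarith, by linarith⟩)
      (by rw [hsumI]; exact hE)
      (fun p hp => ⟨(hT p (hU hp)).1, (hT p (hU hp)).2.1, (hT p (hU hp)).2.2.1,
        by rw [cmul_ite]; exact hone p hp⟩)
    have h2 : exp t * exp E ≤ log X * L ^ (2 * (2 + C1 + C2)) * B := by
      rw [← exp_add]
      calc exp (t + E) ≤ exp (lam X + (2 + C1 + C2) - θ ^ 2 * d / 3) := exp_le_exp.2 hte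
        _ = log X * exp (2 + C1 + C2) * B := by
            rw [sub_eq_add_neg, exp_add, exp_add, hBdef]
            congr 2
            exact exp_log hlX0
        _ ≤ log X * L ^ (2 * (2 + C1 + C2)) * B := by
            gcongr
            rw [rpow_def_of_pos hL0]
            apply exp_le_exp.2
            have h3 : (1 : ℝ) / 2 ≤ log L := by
              linarith [Real.log_le_log (by norm_num) hL, Real.log_two_gt_d9]
            nlinarith
    calc (U.card : ℝ) ≤ L ^ C * (X / log X ^ 2) * (exp t * exp E) := h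
      _ ≤ L ^ C * (X / log X ^ 2) * (log X * L ^ (2 * (2 + C1 + C2)) * B) := by
          have := rpow_nonneg hL0.le C
          gcongr
      _ = L ^ (C + 2 * (2 + C1 + C2)) * (X / log X) * B := by
          rw [rpow_add hL0]; field_simp
  set Tu := T.filter fun p => (1 + θ) * d < (omegaIoc a b (p - 1) : ℝ) with hTu
  have hsplit : T ⊆ Tu ∪ (T \ Tu) := fun p hp => by
    by_cases h : p ∈ Tu
    · exact Finset.mem_union_left _ h
    · exact Finset.mem_union_right _ (Finset.mem_sdiff.2 ⟨hp, h⟩)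
  have hup : (Tu.card : ℝ) ≤ L ^ (C + 2 * (2 + C1 + C2)) * (X / log X) * B := by
    have hz : 0 < 1 + θ := by linarith
    refine hfin (1 + θ) ((1 - (1 + θ) * d) * log (1 + θ)) (lam X + C1 + θ * (d + C2)) Tu
      (Finset.filter_subset _ _) hz (by linarith) ?_ ?_ ?_
    · intro p hp
      obtain ⟨hpT, hdev⟩ := Finset.mem_filter.1 hp
      obtain ⟨P, m, hP, -, hm, hom⟩ := hfac p hpT
      rw [hm, ← rpow_natCast, rpow_def_of_pos hz, ← exp_add]
      apply one_le_exp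
      have h1 : (1 + θ) * d ≤ (omegaIoc a b m : ℝ) + 1 := by
        rw [hom] at hdev
        push_cast at hdev
        have : (omegaIoc a b P : ℝ) ≤ 1 := by exact_mod_cast omega_prime a b hP
        linarith
      nlinarith [log_nonneg (by linarith : (1 : ℝ) ≤ 1 + θ)]
    · have : (1 + θ - 1) * ∑ r ∈ I, (1 : ℝ) / r ≤ θ * (d + C2) := by
        rw [add_sub_cancel_left]; exact mul_le_mul_of_nonneg_left hI1 hθ.le
      linarith
    · have h1 := mul_le_mul_of_nonneg_left (dev_exp_upper hθ.le (by linarith)) hd0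
      have h2 : log (1 + θ) ≤ θ := by linarith [Real.log_le_sub_one_of_pos hz]
      nlinarith
  have hlow : ((T \ Tu).card : ℝ) ≤ L ^ (C + 2 * (2 + C1 + C2)) * (X / log X) * B := by
    rcases (T \ Tu).eq_empty_or_nonempty with hempty | ⟨p₀, hp₀⟩
    · rw [hempty, Finset.card_empty, Nat.cast_zero]
      have := rpow_nonneg hL0.le (C + 2 * (2 + C1 + C2))
      have := exp_pos (-(θ ^ 2 * d / 3))
      positivity
    have hdev : ∀ p ∈ T \ Tu, b ≤ lam X ∧ (omegaIoc a b (p - 1) : ℝ) < (1 - θ) * d := by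
      intro p hp
      obtain ⟨hpT, hpn⟩ := Finset.mem_sdiff.1 hp
      rcases (hT p hpT).2.2.2 with h | h
      · exact absurd (Finset.mem_filter.2 ⟨hpT, h⟩) hpn
      · exact h
    have hz : 0 < 1 - θ := by linarith
    refine hfin (1 - θ) (-((1 - θ) * d * log (1 - θ))) (lam X + C1 - θ * (d - C2)) (T \ Tu)
      Finset.sdiff_subset hz (by linarith) ?_ ?_ ?_
    · intro p hp
      obtain ⟨P, m, hP, -, hm, hom⟩ := hfac p (Finset.mem_sdiff.1 hp).1
      rw [hm, ← rpow_natCast, rpow_def_of_pos hz, ← exp_add]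
      apply one_le_exp
      have h1 : (omegaIoc a b m : ℝ) ≤ (1 - θ) * d := by
        have h := (hdev p hp).2
        rw [hom] at h
        push_cast at h
        linarith [(Nat.cast_nonneg (omegaIoc a b P) : (0 : ℝ) ≤ _)]
      nlinarith [log_nonpos hz.le (by linarith : 1 - θ ≤ 1)]
    · have := mul_le_mul_of_nonneg_left (hI2 (hdev p₀ hp₀).1) hθ.le
      nlinarith
    · have h1 := mul_le_mul_of_nonneg_left (dev_exp_lower hθ.le (by linarith)) hd0
      nlinarith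
  have htot : (T.card : ℝ) ≤ Tu.card + (T \ Tu).card := by
    exact_mod_cast (Finset.card_le_card hsplit).trans (Finset.card_union_le _ _)
  have h2L : 2 * L ^ (C + 2 * (2 + C1 + C2)) ≤ L ^ (C + (2 * (2 + C1 + C2) + 1)) := by
    rw [← add_assoc, rpow_add hL0 (C + _) 1, rpow_one]
    nlinarith [rpow_nonneg hL0.le (C + 2 * (2 + C1 + C2))]
  calc (T.card : ℝ) ≤ (2 * L ^ (C + 2 * (2 + C1 + C2))) * (X / log X) * B := by linarith
    _ ≤ L ^ (C + (2 * (2 + C1 + C2) + 1)) * (X / log X) * B := by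
        have := exp_pos (-(θ ^ 2 * d / 3))
        gcongr

open Filter

/-- Primes whose predecessor has only small prime factors (relative to `X`). -/
theorem top_small_count : ∃ L0 : ℝ, ∀ (L X : ℝ) (T : Finset ℕ), L0 ≤ L → 2 ≤ X →
    L ^ (1 / 2 : ℝ) ≤ lam X → lam X ≤ L + 2 →
    (∀ p ∈ T, p.Prime ∧ (p : ℝ) ≤ X ∧ log (maxPrime (p - 1) : ℝ) < log X / L ^ 3) →
    (T.card : ℝ) ≤ X / log X * exp (-L) := by
  obtain ⟨C, hC, hsc⟩ := smooth_count
  have hpow : Tendsto (fun L : ℝ => L ^ (1 / 2 : ℝ)) atTop atTop :=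
    tendsto_rpow_atTop (by norm_num)
  have e1 := (isLittleO_log_rpow_atTop (by norm_num : (0 : ℝ) < 1 / 2)).bound
    (by norm_num : (0 : ℝ) < 1 / 8)
  obtain ⟨L0, hL0⟩ := eventually_atTop.1
    ((eventually_ge_atTop (8 : ℝ)).and
      ((hpow.eventually_ge_atTop 16).and (e1.and (eventually_ge_atTop (log (2 * C + 2) + 10)))))
  refine ⟨L0, fun L X T hL hX hlo hhi hT => ?_⟩
  obtain ⟨hL8, hs16, hlogL, hLC⟩ := hL0 L hL
  have hLpos : 0 < L := by linarith
  rw [Real.norm_of_nonneg (log_nonneg (by linarith)), Real.norm_of_nonneg (rpow_nonneg hLpos.le _)]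
    at hlogL
  have hlX0 : 0 < log X := log_pos (by linarith)
  have hlog4 : exp (4 * log L + 6) ≤ log X := by
    rw [← exp_log hlX0]
    exact exp_le_exp.2 (le_trans (by linarith) hlo)
  have hlogX : (55 : ℝ) * L ^ 3 ≤ log X ∧ 4 * L + 8 ≤ log X := by
    have h1 : exp (4 * log L + 6) = L ^ 4 * exp 6 := by
      rw [exp_add, show (4 : ℝ) * log L = ((4 : ℕ) : ℝ) * log L by norm_num, exp_nat_mul,
        exp_log hLpos]
    have h2 : (7 : ℝ) ≤ exp 6 := by linarith [add_one_le_exp (6 : ℝ)]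
    have h3 : L ^ 3 * 8 ≤ L ^ 4 := by nlinarith [pow_pos hLpos 3]
    have h4 : L ≤ L ^ 3 := by nlinarith [sq_nonneg L]
    constructor <;> nlinarith [pow_pos hLpos 4]
  set z := exp (log X / L ^ 3) with hz
  have hlz : log z = log X / L ^ 3 := by rw [hz, log_exp]
  have hz55 : 55 ≤ z := by
    have : 55 ≤ log X / L ^ 3 := by rw [le_div_iff₀ (by positivity)]; exact hlogX.1
    rw [hz]
    linarith [add_one_le_exp (log X / L ^ 3)]
  have hbound := hsc z X (T.image fun p => p - 1) hz55 (by linarith) (by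
    intro n hn
    obtain ⟨p, hp, rfl⟩ := Finset.mem_image.1 hn
    obtain ⟨hpp, hpX, hlog⟩ := hT p hp
    have := hpp.two_le
    refine ⟨by omega, le_trans (by exact_mod_cast Nat.sub_le p 1) hpX, fun r hr => ?_⟩
    have hrpos : (0 : ℝ) < r := by exact_mod_cast (Nat.prime_of_mem_primeFactors hr).pos
    have h1 : log (r : ℝ) ≤ log (maxPrime (p - 1) : ℝ) :=
      log_le_log hrpos (by exact_mod_cast le_maxPrime hr)
    rw [hz, ← exp_log hrpos]
    exact exp_le_exp.2 (by linarith))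
  have hinj : (T.image fun p => p - 1).card = T.card := by
    refine Finset.card_image_of_injOn fun p hp q hq hpq => ?_
    have := (hT p hp).1.two_le
    have := (hT q hq).1.two_le
    have hpq' : p - 1 = q - 1 := hpq
    omega
  rw [hinj, hlz] at hbound
  have he : -(log X / (2 * (log X / L ^ 3))) = -(L ^ 3 / 2) := by field_simp
  rw [he] at hbound
  have hsq : sqrt X ≤ X / log X * exp (-L) / 2 := by
    have h1 : log X ≤ exp (L + 2) := by rw [← exp_log hlX0]; exact exp_le_exp.2 hhi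
    have h2 : 2 * exp (2 * L + 2) ≤ sqrt X := by
      rw [sqrt_eq_rpow, rpow_def_of_pos (by linarith), show (2 : ℝ) * exp (2 * L + 2)
        = exp (log 2 + (2 * L + 2)) by rw [exp_add (log 2), exp_log two_pos]]
      apply exp_le_exp.2
      linarith [Real.log_two_lt_d9, hlogX.2]
    have h3 : X = sqrt X * sqrt X := (mul_self_sqrt (by linarith)).symm
    rw [div_mul_eq_mul_div, div_div, le_div_iff₀ (by positivity), exp_neg]
    rw [← div_eq_mul_inv, le_div_iff₀ (exp_pos _)]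
    have h4 : log X * 2 * exp L ≤ 2 * exp (2 * L + 2) := by
      rw [show 2 * L + 2 = (L + 2) + L by ring, exp_add]
      nlinarith [exp_pos L]
    calc sqrt X * (log X * 2) * exp L = sqrt X * (log X * 2 * exp L) := by ring
      _ ≤ sqrt X * sqrt X := mul_le_mul_of_nonneg_left (h4.trans h2) (sqrt_nonneg X)
      _ = X := h3.symm
  have hmain : C * X * (log X / L ^ 3) * exp (-(L ^ 3 / 2)) ≤ X / log X * exp (-L) / 2 := by
    have h1 : log X ≤ exp (L + 2) := by rw [← exp_log hlX0]; exact exp_le_exp.2 hhi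
    have h2 : log X / L ^ 3 ≤ log X := div_le_self hlX0.le (one_le_pow₀ (by linarith))
    have hC2 : 0 < 2 * C + 2 := by linarith
    have h3 : (2 * C + 2) * (log X * log X) * exp (-(L ^ 3 / 2)) ≤ exp (-L) := by
      calc (2 * C + 2) * (log X * log X) * exp (-(L ^ 3 / 2))
          ≤ exp (log (2 * C + 2)) * (exp (L + 2) * exp (L + 2)) * exp (-(L ^ 3 / 2)) := by
            rw [exp_log hC2]; gcongr
        _ = exp (log (2 * C + 2) + ((L + 2) + (L + 2)) + -(L ^ 3 / 2)) := by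
            simp only [exp_add]
        _ ≤ exp (-L) := by
            apply exp_le_exp.2
            nlinarith [mul_le_mul hL8 hL8 (by norm_num) hLpos.le]
    calc C * X * (log X / L ^ 3) * exp (-(L ^ 3 / 2))
        ≤ C * X * log X * exp (-(L ^ 3 / 2)) := by gcongr
      _ ≤ (2 * C + 2) * (X / 2) * log X * exp (-(L ^ 3 / 2)) := by
          gcongr ?_ * _ * _
          nlinarith
      _ = (2 * C + 2) * (log X * log X) * exp (-(L ^ 3 / 2)) * (X / log X / 2) := by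
          field_simp
      _ ≤ exp (-L) * (X / log X / 2) := mul_le_mul_of_nonneg_right h3 (by positivity)
      _ = X / log X * exp (-L) / 2 := by ring
  linarith

/-- Powers of two against powers of `L`. -/
theorem two_pow_le {P : Params} (hA : 1 ≤ P.K ∧ (P.K : ℝ) ≤ Real.log P.L / 250)
    (hL : 1 ≤ P.L) (n : ℕ) :
    (2 : ℝ) ^ (n * P.K) ≤ P.L ^ ((n : ℝ) / 360) := by
  obtain ⟨-, hK⟩ := hA
  rw [← rpow_natCast, rpow_def_of_pos two_pos, rpow_def_of_pos (by linarith)]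
  apply exp_le_exp.2
  push_cast
  have h1 := Real.log_two_lt_d9
  have h2 := log_nonneg hL
  have h3 : log 2 * (P.K : ℝ) ≤ log P.L / 360 := by
    calc log 2 * (P.K : ℝ) ≤ 0.6931471808 * (log P.L / 250) :=
          mul_le_mul h1.le hK (Nat.cast_nonneg _) (by norm_num)
      _ ≤ log P.L / 360 := by linarith
  calc log 2 * ((n : ℝ) * P.K) = (n : ℝ) * (log 2 * P.K) := by ring
    _ ≤ (n : ℝ) * (log P.L / 360) := mul_le_mul_of_nonneg_left h3 (Nat.cast_nonneg _)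
    _ = log P.L * ((n : ℝ) / 360) := by ring

theorem theta_sq_D {P : Params} (hA : 1 ≤ P.K ∧ (P.K : ℝ) ≤ Real.log P.L / 250)
    (hL : 1 ≤ P.L) :
    P.L ^ (0.838 : ℝ) ≤ P.theta ^ 2 * P.D := by
  have hL0 : 0 < P.L := by linarith
  have h : P.theta ^ 2 * P.D = P.L / 2 ^ (58 * P.K) := by
    rw [Params.theta, Params.D, Params.J]
    push_cast
    rw [div_pow, one_pow, div_mul_div_comm, one_mul, ← pow_mul, ← pow_add]
    congr 2
    ring
  rw [h, le_div_iff₀ (by positivity)]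
  calc P.L ^ (0.838 : ℝ) * 2 ^ (58 * P.K) ≤ P.L ^ (0.838 : ℝ) * P.L ^ (((58 : ℕ) : ℝ) / 360) :=
        mul_le_mul_of_nonneg_left (two_pow_le hA hL 58) (rpow_nonneg hL0.le _)
    _ ≤ P.L ^ (1 : ℝ) := by
        rw [← rpow_add hL0]; exact rpow_le_rpow_of_exponent_le hL (by norm_num)
    _ = P.L := rpow_one _

theorem D_ge {P : Params} (hA : 1 ≤ P.K ∧ (P.K : ℝ) ≤ Real.log P.L / 250)
    (hL : 1 ≤ P.L) :
    P.L ^ (0.94 : ℝ) ≤ P.D ∧ P.D ≤ P.Te ∧ (P.J : ℝ) ≤ P.L ^ (0.05 : ℝ) := by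
  have hL0 : 0 < P.L := by linarith
  have hJ : (P.J : ℝ) ≤ P.L ^ (0.05 : ℝ) := by
    rw [Params.J]
    push_cast
    exact (two_pow_le hA hL 18).trans (rpow_le_rpow_of_exponent_le hL (by norm_num))
  have hJ0 : (0 : ℝ) < P.J := by rw [Params.J]; positivity
  refine ⟨?_, ?_, hJ⟩
  · rw [Params.D, le_div_iff₀ hJ0]
    calc P.L ^ (0.94 : ℝ) * (P.J : ℝ) ≤ P.L ^ (0.94 : ℝ) * P.L ^ (0.05 : ℝ) :=
          mul_le_mul_of_nonneg_left hJ (rpow_nonneg hL0.le _)
      _ ≤ P.L ^ (1 : ℝ) := by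
          rw [← rpow_add hL0]; exact rpow_le_rpow_of_exponent_le hL (by norm_num)
      _ = P.L := rpow_one _
  · rw [Params.D, Params.Te, Params.J]
    push_cast
    exact div_le_div_of_nonneg_left hL0.le (by positivity)
      (pow_le_pow_right₀ (by norm_num) (by omega))

/-- Elementary asymptotics used below. -/
theorem eventual_bounds (C : ℝ) : ∀ᶠ L : ℝ in atTop,
    8 ≤ L ∧ L ^ (1 / 2 : ℝ) ≤ L ^ (0.94 : ℝ) ∧ 10 * log L + 10 ≤ L ^ (0.94 : ℝ) ∧
    2 * L ^ (0.05 : ℝ) ≤ L ∧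
    L * L ^ C * exp (-(L ^ (0.838 : ℝ) / 3)) ≤ exp (-(L ^ (0.7 : ℝ))) / 2 ∧
    exp (-L) ≤ exp (-(L ^ (0.7 : ℝ))) / 2 ∧
    2 * exp 1 * (L + 4) * exp (-(L ^ (0.7 : ℝ))) ≤ exp (-(L ^ (0.65 : ℝ))) := by
  have e7 := (isLittleO_log_rpow_atTop (by norm_num : (0 : ℝ) < 0.65)).bound
    (show (0 : ℝ) < 1 / (10 * (|C| + 2)) by positivity)
  have t138 := (tendsto_rpow_atTop (by norm_num : (0 : ℝ) < 0.138)).eventually_ge_atTop 12
  have t05 := (tendsto_rpow_atTop (by norm_num : (0 : ℝ) < 0.05)).eventually_ge_atTop 12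
  have t65 := (tendsto_rpow_atTop (by norm_num : (0 : ℝ) < 0.65)).eventually_ge_atTop 20
  filter_upwards [e7, t138, t05, t65, eventually_ge_atTop (8 : ℝ)] with L h7 h138 h05 h65 hL
  have hL0 : 0 < L := by linarith
  have hl1 : 1 ≤ log L := by
    rw [← log_exp 1]
    exact log_le_log (exp_pos 1) (exp_one_lt_three.le.trans (by linarith))
  rw [Real.norm_of_nonneg (by linarith), Real.norm_of_nonneg (rpow_nonneg hL0.le _)] at h7
  have hlog : (10 * (|C| + 2)) * log L ≤ L ^ (0.65 : ℝ) := by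
    rw [div_mul_eq_mul_div, one_mul, le_div_iff₀ (by positivity)] at h7
    linarith
  have hC0 := abs_nonneg C
  have hlog20 : 20 * log L ≤ L ^ (0.65 : ℝ) := by nlinarith
  have m1 : L ^ (0.65 : ℝ) * 12 ≤ L ^ (0.7 : ℝ) := by
    rw [show (0.7 : ℝ) = 0.65 + 0.05 by norm_num, rpow_add hL0]
    exact mul_le_mul_of_nonneg_left h05 (rpow_nonneg hL0.le _)
  have m2 : L ^ (0.7 : ℝ) * 12 ≤ L ^ (0.838 : ℝ) := by
    rw [show (0.838 : ℝ) = 0.7 + 0.138 by norm_num, rpow_add hL0]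
    exact mul_le_mul_of_nonneg_left h138 (rpow_nonneg hL0.le _)
  have m3 : L ^ (0.838 : ℝ) ≤ L ^ (0.94 : ℝ) :=
    rpow_le_rpow_of_exponent_le (by linarith) (by norm_num)
  have m4 : L ^ (0.94 : ℝ) ≤ L := rpow_le_self_of_one_le (by linarith) (by norm_num)
  have m5 : L ^ (0.05 : ℝ) * 12 ≤ L ^ (0.1 : ℝ) := by
    rw [show (0.1 : ℝ) = 0.05 + 0.05 by norm_num, rpow_add hL0]
    exact mul_le_mul_of_nonneg_left h05 (rpow_nonneg hL0.le _)
  have m6 : L ^ (0.1 : ℝ) ≤ L := rpow_le_self_of_one_le (by linarith) (by norm_num)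
  have m7 : L ^ (1 / 2 : ℝ) ≤ L ^ (0.94 : ℝ) :=
    rpow_le_rpow_of_exponent_le (by linarith) (by norm_num)
  have hlog2 : log 2 ≤ log L := log_le_log two_pos (by linarith)
  have hdiv : ∀ x y : ℝ, x + log 2 ≤ y → exp x ≤ exp y / 2 := fun x y h => by
    rw [le_div_iff₀ two_pos]
    calc exp x * 2 = exp (x + log 2) := by rw [exp_add, exp_log two_pos]
      _ ≤ exp y := exp_le_exp.2 h
  refine ⟨hL, m7, by linarith, ?_, ?_, hdiv _ _ (by linarith), ?_⟩
  · linarith [rpow_nonneg hL0.le (0.05 : ℝ)]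
  · calc L * L ^ C * exp (-(L ^ (0.838 : ℝ) / 3))
        = exp (log L + log L * C + -(L ^ (0.838 : ℝ) / 3)) := by
          rw [exp_add, exp_add, exp_log hL0, ← rpow_def_of_pos hL0]
      _ ≤ exp (-(L ^ (0.7 : ℝ))) / 2 := hdiv _ _ (by
          have : log L * C ≤ |C| * log L := by nlinarith [le_abs_self C]
          nlinarith)
  · have h2 : (L + 4) ≤ L * L := by nlinarith
    have h3 : 2 * exp 1 ≤ L := by linarith [exp_one_lt_three]
    calc 2 * exp 1 * (L + 4) * exp (-(L ^ (0.7 : ℝ))) ≤ L * (L * L) * exp (-(L ^ (0.7 : ℝ))) := by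
          gcongr
      _ = exp (log L + (log L + log L) + -(L ^ (0.7 : ℝ))) := by
          rw [exp_add, exp_add, exp_add, exp_log hL0]
      _ ≤ exp (-(L ^ (0.65 : ℝ))) := exp_le_exp.2 (by linarith)

theorem normal_count_of (hB : BrunForms) : ∃ L0 : ℝ, ∀ P : Params, L0 ≤ P.L →
    1 ≤ P.K ∧ (P.K : ℝ) ≤ Real.log P.L / 250 →
    ∀ X : ℝ, 2 ≤ X → lam X ≤ P.L + 2 →
    (((primesUpTo X).filter fun p : ℕ => P.Te ≤ lam (p : ℝ) ∧ ¬ P.Normal p).card : ℝ)
      ≤ X / log X * exp (-(P.L ^ (0.7 : ℝ))) := by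
  obtain ⟨L1, hts⟩ := top_small_count
  obtain ⟨C, hC, hdev⟩ := omega_dev_count hB
  obtain ⟨L2, hev⟩ := eventually_atTop.1 (eventual_bounds C)
  refine ⟨max L1 L2, fun P hP hA X hX hXhi => ?_⟩
  obtain ⟨hL8, hhalf, hlog94, hJ2, hexp, hexpL, -⟩ := hev P.L (le_trans (le_max_right _ _) hP)
  have hL1 : 1 ≤ P.L := by linarith
  have hL0 : 0 < P.L := by linarith
  obtain ⟨hD, hDTe, hJ⟩ := D_ge hA hL1
  have hD0 : 0 < P.D := lt_of_lt_of_le (rpow_pos_of_pos hL0 _) hD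
  have hlX0 : 0 < log X := log_pos (by linarith)
  set B := (primesUpTo X).filter fun p : ℕ => P.Te ≤ lam (p : ℝ) ∧ ¬ P.Normal p with hBset
  have hBmem : ∀ p ∈ B, p.Prime ∧ (p : ℝ) ≤ X ∧ P.Te ≤ lam (p : ℝ) ∧ ¬ P.Normal p := by
    intro p hp
    obtain ⟨h1, h2⟩ := Finset.mem_filter.1 hp
    obtain ⟨h3, h4⟩ := (mem_primesUpTo (by linarith)).1 h1
    exact ⟨h3, h4, h2⟩
  rcases B.eq_empty_or_nonempty with hempty | ⟨p₀, hp₀⟩
  · rw [hempty, Finset.card_empty, Nat.cast_zero]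
    positivity
  have hTeX : P.Te ≤ lam X := by
    obtain ⟨h1, h2, h3, -⟩ := hBmem p₀ hp₀
    exact h3.trans (lam_natCast_mono h1.two_le h2)
  set S := B.filter fun p : ℕ => log (maxPrime (p - 1) : ℝ) < log X / P.L ^ 3 with hS
  set U := fun j : ℕ => (B \ S).filter fun p : ℕ => P.Te ≤ (j : ℝ) * P.D ∧
    ((1 + P.theta) * P.D <
        (omegaIoc ((j : ℝ) * P.D) (((j : ℝ) + 1) * P.D) (p - 1) : ℝ) ∨
      (((j : ℝ) + 2) * P.D ≤ lam (p : ℝ) ∧
        (omegaIoc ((j : ℝ) * P.D) (((j : ℝ) + 1) * P.D) (p - 1) : ℝ) < (1 - P.theta) * P.D))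
    with hU
  have hScard : (S.card : ℝ) ≤ X / log X * exp (-P.L) := by
    refine hts P.L X S (le_trans (le_max_left _ _) hP) hX ?_ hXhi (fun p hp => ?_)
    · exact le_trans hhalf (hD.trans (hDTe.trans hTeX))
    · obtain ⟨hpB, hlog⟩ := Finset.mem_filter.1 hp
      exact ⟨(hBmem p hpB).1, (hBmem p hpB).2.1, hlog⟩
  have hUcard : ∀ j : ℕ,
      ((U j).card : ℝ) ≤ P.L ^ C * (X / log X) * exp (-(P.L ^ (0.838 : ℝ) / 3)) := by
    intro j
    rcases (U j).eq_empty_or_nonempty with he | ⟨p₁, hp₁⟩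
    · rw [he, Finset.card_empty, Nat.cast_zero]
      have := rpow_nonneg hL0.le C
      positivity
    have hθ : 0 < P.theta ∧ P.theta ≤ 1 / 2 := by
      refine ⟨by rw [Params.theta]; positivity, ?_⟩
      rw [Params.theta]
      apply one_div_le_one_div_of_le two_pos
      calc (2 : ℝ) = 2 ^ 1 := (pow_one 2).symm
        _ ≤ 2 ^ (20 * P.K) := pow_le_pow_right₀ (by norm_num) (by have := hA.1; omega)
    have hd : ((j : ℝ) + 1) * P.D - (j : ℝ) * P.D = P.D := by ring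
    refine (hdev P.L X P.theta ((j : ℝ) * P.D) (((j : ℝ) + 1) * P.D) (U j) (by linarith) hX hXhi
      (hlog94.trans (hD.trans (hDTe.trans hTeX))) hθ.1 hθ.2 (by positivity) (by linarith)
      (fun p hp => ?_)).trans ?_
    · obtain ⟨hpBS, -, hdv⟩ := Finset.mem_filter.1 hp
      obtain ⟨hpB, hpS⟩ := Finset.mem_sdiff.1 hpBS
      obtain ⟨hpp, hpX, -, -⟩ := hBmem p hpB
      refine ⟨hpp, hpX, ?_, ?_⟩
      · have h1 : log X / P.L ^ 3 ≤ log (maxPrime (p - 1) : ℝ) :=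
          not_lt.1 fun h => hpS (Finset.mem_filter.2 ⟨hpB, h⟩)
        refine le_trans ?_ h1
        exact div_le_div_of_nonneg_left hlX0.le (by positivity)
          (le_mul_of_one_le_left (by positivity) (by norm_num))
      · rw [hd]
        rcases hdv with h | ⟨h, h'⟩
        · exact Or.inl h
        · refine Or.inr ⟨?_, h'⟩
          have := lam_natCast_mono hpp.two_le hpX
          linarith
    · rw [hd]
      have hθD := theta_sq_D hA hL1
      have := rpow_nonneg hL0.le C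
      gcongr
  have hcover : B ⊆ S ∪ (Finset.range (2 * P.J)).biUnion U := by
    intro p hp
    by_cases hpS : p ∈ S
    · exact Finset.mem_union_left _ hpS
    apply Finset.mem_union_right
    obtain ⟨hpp, hpX, hpTe, hpN⟩ := hBmem p hp
    have hbig : log X / P.L ^ 3 ≤ log (maxPrime (p - 1) : ℝ) :=
      not_lt.1 fun h => hpS (Finset.mem_filter.2 ⟨hp, h⟩)
    have h1 : lam (p : ℝ) - 3 * log P.L ≤ lam (maxPrime (p - 1) : ℝ) := by
      have h2 : lam (p : ℝ) ≤ lam X := lam_natCast_mono hpp.two_le hpX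
      have h3 : log (log X / P.L ^ 3) ≤ lam (maxPrime (p - 1) : ℝ) :=
        log_le_log (by positivity) hbig
      rw [log_div hlX0.ne' (by positivity), log_pow] at h3
      push_cast at h3
      simp only [lam] at h2 ⊢ h3
      linarith
    have h2 : ¬ ∀ j : ℕ, P.Te ≤ (j : ℝ) * P.D →
        (omegaIoc ((j : ℝ) * P.D) (((j : ℝ) + 1) * P.D) (p - 1) : ℝ) ≤ (1 + P.theta) * P.D ∧
        (((j : ℝ) + 2) * P.D ≤ lam (p : ℝ) → (1 - P.theta) * P.D ≤
          (omegaIoc ((j : ℝ) * P.D) (((j : ℝ) + 1) * P.D) (p - 1) : ℝ)) :=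
      fun h => hpN ⟨h1, h⟩
    push Not at h2
    obtain ⟨j, hj, hjdev⟩ := h2
    have hθ1 : 0 ≤ (1 + P.theta) * P.D := by rw [Params.theta]; positivity
    have hdev' : (1 + P.theta) * P.D <
          (omegaIoc ((j : ℝ) * P.D) (((j : ℝ) + 1) * P.D) (p - 1) : ℝ) ∨
        (((j : ℝ) + 2) * P.D ≤ lam (p : ℝ) ∧
          (omegaIoc ((j : ℝ) * P.D) (((j : ℝ) + 1) * P.D) (p - 1) : ℝ) <
            (1 - P.theta) * P.D) := by
      by_contra hne
      push Not at hne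
      obtain ⟨hc1, hc2⟩ := hne
      exact absurd (hc2 (hjdev hc1).1) (not_le.2 (hjdev hc1).2)
    refine Finset.mem_biUnion.2 ⟨j, ?_, Finset.mem_filter.2
      ⟨Finset.mem_sdiff.2 ⟨hp, hpS⟩, hj, hdev'⟩⟩
    rw [Finset.mem_range]
    by_contra hjJ
    push Not at hjJ
    have hjD : 2 * P.L ≤ (j : ℝ) * P.D := by
      calc 2 * P.L = ((2 * P.J : ℕ) : ℝ) * P.D := by
            rw [Params.D]
            push_cast
            have : (P.J : ℝ) ≠ 0 := by rw [Params.J]; positivity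
            field_simp
        _ ≤ (j : ℝ) * P.D := mul_le_mul_of_nonneg_right (by exact_mod_cast hjJ) hD0.le
    have hlamX : lam (p : ℝ) ≤ lam X := lam_natCast_mono hpp.two_le hpX
    rcases hdev' with h | ⟨h, -⟩
    · rw [omega_eq_zero, Nat.cast_zero] at h
      · linarith
      · intro r hr
        have hrp : r ≤ p := le_trans (Nat.le_of_mem_primeFactors hr) (Nat.sub_le _ _)
        have h2 : lam (r : ℝ) ≤ lam X :=
          lam_natCast_mono (Nat.prime_of_mem_primeFactors hr).two_le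
            (le_trans (by exact_mod_cast hrp) hpX)
        linarith
    · nlinarith
  have htot : (B.card : ℝ) ≤ S.card + ∑ j ∈ Finset.range (2 * P.J), ((U j).card : ℝ) := by
    exact_mod_cast (Finset.card_le_card hcover).trans
      ((Finset.card_union_le _ _).trans (Nat.add_le_add_left Finset.card_biUnion_le _))
  have hsum : ∑ j ∈ Finset.range (2 * P.J), ((U j).card : ℝ)
      ≤ P.L * (P.L ^ C * (X / log X) * exp (-(P.L ^ (0.838 : ℝ) / 3))) := by
    refine (Finset.sum_le_sum fun j _ => hUcard j).trans ?_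
    rw [Finset.sum_const, Finset.card_range, nsmul_eq_mul]
    apply mul_le_mul_of_nonneg_right
    · push_cast; linarith
    · have := rpow_nonneg hL0.le C
      positivity
  have hXl : 0 ≤ X / log X := by positivity
  have hfinal1 : X / log X * exp (-P.L) ≤ X / log X * (exp (-(P.L ^ (0.7 : ℝ))) / 2) :=
    mul_le_mul_of_nonneg_left hexpL hXl
  have hfinal2 : P.L * (P.L ^ C * (X / log X) * exp (-(P.L ^ (0.838 : ℝ) / 3)))
      ≤ X / log X * (exp (-(P.L ^ (0.7 : ℝ))) / 2) := by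
    calc P.L * (P.L ^ C * (X / log X) * exp (-(P.L ^ (0.838 : ℝ) / 3)))
        = X / log X * (P.L * P.L ^ C * exp (-(P.L ^ (0.838 : ℝ) / 3))) := by ring
      _ ≤ _ := mul_le_mul_of_nonneg_left hexp hXl
  linarith

theorem normal_weight_of (hB : BrunForms) : ∃ L0 : ℝ, ∀ P : Params, L0 ≤ P.L →
    1 ≤ P.K ∧ (P.K : ℝ) ≤ Real.log P.L / 250 →
    ∀ T : Finset ℕ,
    (∀ p ∈ T, p.Prime ∧ P.Te ≤ lam (p : ℝ) ∧ lam (p : ℝ) ≤ P.L + 1 ∧ ¬ P.Normal p) →
    ∑ p ∈ T, (1 : ℝ) / ((p : ℝ) - 1) ≤ exp (-(P.L ^ (0.65 : ℝ))) := by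
  obtain ⟨L1, hnc⟩ := normal_count_of hB
  obtain ⟨L2, hev⟩ := eventually_atTop.1 (eventual_bounds 0)
  refine ⟨max L1 L2, fun P hP hA T hT => ?_⟩
  obtain ⟨hL8, -, -, -, -, -, hfin⟩ := hev P.L (le_trans (le_max_right _ _) hP)
  set eps := exp (-(P.L ^ (0.7 : ℝ))) with heps
  set k := fun p : ℕ => ⌊log (p : ℝ)⌋₊ with hk
  set N := ⌊exp (P.L + 1)⌋₊ + 1 with hN
  have hTk : ∀ p ∈ T, k p < N ∧ exp (k p : ℝ) ≤ (p : ℝ) ∧ (p : ℝ) ≤ exp ((k p : ℝ) + 1) := by
    intro p hp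
    obtain ⟨hpp, -, hhi, -⟩ := hT p hp
    have hp1 : (1 : ℝ) < p := by exact_mod_cast hpp.one_lt
    have hl : 0 < log (p : ℝ) := log_pos hp1
    have hle : log (p : ℝ) ≤ exp (P.L + 1) := by
      rw [← exp_log hl]; exact exp_le_exp.2 hhi
    refine ⟨Nat.lt_succ_of_le (Nat.floor_le_floor hle), ?_, ?_⟩
    · rw [← exp_log (show (0 : ℝ) < p by linarith)]
      exact exp_le_exp.2 (Nat.floor_le hl.le)
    · rw [← exp_log (show (0 : ℝ) < p by linarith)]
      exact exp_le_exp.2 (Nat.lt_floor_add_one (log (p : ℝ))).le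
  have hfib : ∀ i ∈ Finset.range N, ∑ p ∈ T.filter (fun p => k p = i), (1 : ℝ) / ((p : ℝ) - 1)
      ≤ 2 * exp 1 * eps * (1 / ((i : ℝ) + 1)) := by
    intro i hi
    have hiN : (i : ℝ) ≤ exp (P.L + 1) :=
      le_trans (Nat.cast_le.2 (Nat.lt_succ_iff.1 (Finset.mem_range.1 hi)))
        (Nat.floor_le (exp_pos _).le)
    have hX2 : (2 : ℝ) ≤ exp ((i : ℝ) + 1) := by
      linarith [add_one_le_exp ((i : ℝ) + 1), (Nat.cast_nonneg i : (0 : ℝ) ≤ i)]
    have hlamX : lam (exp ((i : ℝ) + 1)) ≤ P.L + 2 := by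
      rw [lam, log_exp, log_le_iff_le_exp (by positivity), show P.L + 2 = (P.L + 1) + 1 by ring,
        exp_add]
      have h1 : 1 ≤ exp (P.L + 1) := one_le_exp (by linarith)
      have h2 : (2 : ℝ) ≤ exp 1 := by linarith [add_one_le_exp (1 : ℝ)]
      calc (i : ℝ) + 1 ≤ exp (P.L + 1) * 2 := by linarith
        _ ≤ exp (P.L + 1) * exp 1 := mul_le_mul_of_nonneg_left h2 (by linarith)
    have hcard := hnc P (le_trans (le_max_left _ _) hP) hA _ hX2 hlamX
    rw [log_exp] at hcard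
    have hsub : T.filter (fun p => k p = i) ⊆ (primesUpTo (exp ((i : ℝ) + 1))).filter
        fun p : ℕ => P.Te ≤ lam (p : ℝ) ∧ ¬ P.Normal p := by
      intro p hp
      obtain ⟨hpT, hpi⟩ := Finset.mem_filter.1 hp
      obtain ⟨hpp, hlo, -, hN'⟩ := hT p hpT
      refine Finset.mem_filter.2 ⟨(mem_primesUpTo (exp_pos _).le).2 ⟨hpp, ?_⟩, hlo, hN'⟩
      rw [← hpi]
      exact (hTk p hpT).2.2
    have hterm : ∀ p ∈ T.filter (fun p => k p = i),
        (1 : ℝ) / ((p : ℝ) - 1) ≤ 2 / exp (i : ℝ) := by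
      intro p hp
      obtain ⟨hpT, hpi⟩ := Finset.mem_filter.1 hp
      have h2 : (2 : ℝ) ≤ p := by exact_mod_cast (hT p hpT).1.two_le
      have h3 : exp (i : ℝ) ≤ p := hpi ▸ (hTk p hpT).2.1
      rw [div_le_div_iff₀ (by linarith) (exp_pos _)]
      linarith
    refine (Finset.sum_le_card_nsmul _ _ _ hterm).trans ?_
    rw [nsmul_eq_mul]
    calc ((T.filter fun p => k p = i).card : ℝ) * (2 / exp (i : ℝ))
        ≤ exp ((i : ℝ) + 1) / ((i : ℝ) + 1) * eps * (2 / exp (i : ℝ)) := by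
          refine mul_le_mul_of_nonneg_right (le_trans ?_ hcard) (by positivity)
          exact_mod_cast Finset.card_le_card hsub
      _ = 2 * exp 1 * eps * (1 / ((i : ℝ) + 1)) := by
          rw [exp_add]; field_simp
  have hmaps : Set.MapsTo k (↑T : Set ℕ) ↑(Finset.range N) := fun p hp =>
    Finset.mem_range.2 (hTk p hp).1
  rw [← Finset.sum_fiberwise_of_maps_to hmaps]
  refine (Finset.sum_le_sum hfib).trans ?_
  rw [← Finset.mul_sum]
  have hH : ∑ i ∈ Finset.range N, (1 : ℝ) / ((i : ℝ) + 1) ≤ P.L + 4 := by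
    have h1 : ∑ i ∈ Finset.range N, (1 : ℝ) / ((i : ℝ) + 1) = (harmonic N : ℝ) := by
      simp [harmonic, one_div]
    rw [h1]
    refine (harmonic_le_one_add_log N).trans ?_
    have h2 : (N : ℝ) ≤ exp (P.L + 2) := by
      have he2 : exp (P.L + 2) = exp (P.L + 1) * exp 1 := by rw [← exp_add]; ring_nf
      rw [hN, he2]
      push_cast
      have h1' : 1 ≤ exp (P.L + 1) := one_le_exp (by linarith)
      have h2' : (2 : ℝ) ≤ exp 1 := by linarith [add_one_le_exp (1 : ℝ)]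
      have h3' := Nat.floor_le (exp_pos (P.L + 1)).le
      nlinarith
    have h3 : log (N : ℝ) ≤ P.L + 2 :=
      (log_le_iff_le_exp (by rw [hN]; positivity)).2 h2
    linarith
  calc 2 * exp 1 * eps * ∑ i ∈ Finset.range N, (1 : ℝ) / ((i : ℝ) + 1)
      ≤ 2 * exp 1 * eps * (P.L + 4) := by
        apply mul_le_mul_of_nonneg_left hH
        positivity
    _ = 2 * exp 1 * (P.L + 4) * eps := by ring
    _ ≤ _ := hfin

end Nrm

/-- Lemma N: few non-normal primes (section 2 of the notes). -/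
theorem normal_count : ∃ L0 : ℝ, ∀ P : Params, L0 ≤ P.L → P.Admissible →
    ∀ X : ℝ, 2 ≤ X → lam X ≤ P.L + 2 →
    (((primesUpTo X).filter fun p : ℕ => P.Te ≤ lam (p : ℝ) ∧ ¬ P.Normal p).card : ℝ)
      ≤ X / log X * exp (-(P.L ^ (0.7 : ℝ))) :=
  (Nrm.normal_count_of brun_forms).imp fun _ h P hP hA => h P hP ⟨hA.1, hA.2.1⟩

/-- Lemma N, needing no lower bound on the number of levels. -/
theorem normal_count_mild : ∃ L0 : ℝ, ∀ P : Params, L0 ≤ P.L →
    1 ≤ P.K → (P.K : ℝ) ≤ Real.log P.L / 250 → ∀ X : ℝ, 2 ≤ X → lam X ≤ P.L + 2 →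
    (((primesUpTo X).filter fun p : ℕ => P.Te ≤ lam (p : ℝ) ∧ ¬ P.Normal p).card : ℝ)
      ≤ X / log X * exp (-(P.L ^ (0.7 : ℝ))) :=
  (Nrm.normal_count_of brun_forms).imp fun _ h P hP h1 h2 => h P hP ⟨h1, h2⟩

/-- Lemma N in weighted form. -/
theorem normal_weight : ∃ L0 : ℝ, ∀ P : Params, L0 ≤ P.L → P.Admissible → ∀ T : Finset ℕ,
    (∀ p ∈ T, p.Prime ∧ P.Te ≤ lam (p : ℝ) ∧ lam (p : ℝ) ≤ P.L + 1 ∧ ¬ P.Normal p) →
    ∑ p ∈ T, (1 : ℝ) / ((p : ℝ) - 1) ≤ exp (-(P.L ^ (0.65 : ℝ))) :=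
  (Nrm.normal_weight_of brun_forms).imp fun _ h P hP hA => h P hP ⟨hA.1, hA.2.1⟩

/-- Lemma N in weighted form, needing no lower bound on the number of levels. -/
theorem normal_weight_mild : ∃ L0 : ℝ, ∀ P : Params, L0 ≤ P.L →
    1 ≤ P.K → (P.K : ℝ) ≤ Real.log P.L / 250 → ∀ T : Finset ℕ,
    (∀ p ∈ T, p.Prime ∧ P.Te ≤ lam (p : ℝ) ∧ lam (p : ℝ) ≤ P.L + 1 ∧ ¬ P.Normal p) →
    ∑ p ∈ T, (1 : ℝ) / ((p : ℝ) - 1) ≤ exp (-(P.L ^ (0.65 : ℝ))) :=
  (Nrm.normal_weight_of brun_forms).imp fun _ h P hP h1 h2 => h P hP ⟨h1, h2⟩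

/-- Few primes have a predecessor with only small prime factors. -/
theorem top_small_count : ∃ L0 : ℝ, ∀ (L X : ℝ) (T : Finset ℕ), L0 ≤ L → 2 ≤ X →
    L ^ (1 / 2 : ℝ) ≤ lam X → lam X ≤ L + 2 →
    (∀ p ∈ T, p.Prime ∧ (p : ℝ) ≤ X ∧ log (maxPrime (p - 1) : ℝ) < log X / L ^ 3) →
    (T.card : ℝ) ≤ X / log X * exp (-L) :=
  Nrm.top_small_count

/-- Deviations of the number of prime factors of `p - 1` in one interval. -/
theorem omega_dev_count : ∃ C : ℝ, 0 ≤ C ∧ ∀ (L X θ a b : ℝ) (T : Finset ℕ),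
    2 ≤ L → 2 ≤ X → lam X ≤ L + 2 → 10 * log L + 10 ≤ lam X → 0 < θ → θ ≤ 1 / 2 →
    0 ≤ a → a ≤ b →
    (∀ p ∈ T, p.Prime ∧ (p : ℝ) ≤ X ∧ log X / (2 * L ^ 3) ≤ log (maxPrime (p - 1) : ℝ) ∧
      ((1 + θ) * (b - a) < (omegaIoc a b (p - 1) : ℝ) ∨
        (b ≤ lam X ∧ (omegaIoc a b (p - 1) : ℝ) < (1 - θ) * (b - a)))) →
    (T.card : ℝ) ≤ L ^ C * (X / log X) * exp (-(θ ^ 2 * (b - a) / 3)) :=
  Nrm.omega_dev_count brun_forms

end Vale.Agent.P031
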