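import Mathlib
import Vale.Agent.P031.Defs
import Vale.Agent.P031.Geometry

/-!
# P031 Q2, section 5: representations of totient values

A representation of `v` is a top prime, `K - 1` further levels (each a prime, or the placeholder
`1` for a missing level), and a tail `m` which is itself a totient value.
-/

open scoped Classical
noncomputable section

namespace Vale.Agent.P031

/-- A preimage of `m` under the totient with least possible largest prime factor; `0` if none. -/
def canon (m : ℕ) : ℕ :=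
  if h : ∃ p, ∃ n, maxPrime n = p ∧ Nat.totient n = m then (Nat.find_spec h).choose else 0

theorem totient_canon {n m : ℕ} (h : Nat.totient n = m) : Nat.totient (canon m) = m := by
  have he : ∃ p, ∃ n, maxPrime n = p ∧ Nat.totient n = m := ⟨_, n, rfl, h⟩
  rw [canon, dif_pos he]
  exact (Nat.find_spec he).choose_spec.2

theorem maxPrime_canon_le {n m : ℕ} (h : Nat.totient n = m) : maxPrime (canon m) ≤ maxPrime n := by
  have he : ∃ p, ∃ n, maxPrime n = p ∧ Nat.totient n = m := ⟨_, n, rfl, h⟩
  rw [canon, dif_pos he, (Nat.find_spec he).choose_spec.1]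
  exact Nat.find_min' he ⟨n, rfl, h⟩

theorem canon_ne_zero {n m : ℕ} (h : Nat.totient n = m) (hm : m ≠ 0) : canon m ≠ 0 := by
  intro h0
  have := totient_canon h
  rw [h0, Nat.totient_zero] at this
  exact hm this.symm

/-- The totient weight of a tuple of levels. -/
def prefW {k : ℕ} (x : Fin k → ℕ) : ℕ := ∏ i, Nat.totient (x i)

namespace Params

variable (P : Params)

/-- The scaled double-log coordinate, clipped to the unit interval. -/
def clipX (p : ℕ) : ℝ := max 0 (min 1 (lam (p : ℝ) / P.L))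

theorem clipX_one : P.clipX 1 = 0 := by simp [clipX, lam]

theorem clipX_nonneg (p : ℕ) : 0 ≤ P.clipX p := le_max_left _ _

theorem clipX_le_one (p : ℕ) : P.clipX p ≤ 1 := max_le zero_le_one (min_le_left _ _)

/-- The distinct primes of `n` of scale above `Te`, in decreasing order. -/
def bigPrimes (n : ℕ) : List ℕ :=
  (n.primeFactors.filter fun r : ℕ => P.Te < lam (r : ℝ)).sort (· ≥ ·)

theorem mem_bigPrimes {n r : ℕ} :
    r ∈ P.bigPrimes n ↔ r ∈ n.primeFactors ∧ P.Te < lam (r : ℝ) := by
  simp [bigPrimes]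

theorem bigPrimes_sorted (n : ℕ) : (P.bigPrimes n).Pairwise (· > ·) :=
  (Finset.sortedGT_sort _).pairwise

/-- The profile of a tail: levels `K, K + 1, ...`, padded with zeros. -/
def tailB (m : ℕ) (i : ℕ) : ℝ :=
  if P.K ≤ i then P.clipX ((P.bigPrimes (canon m)).getD (i - P.K) 1) else 0

/-- The coordinates of a tuple of levels. -/
def coord (x : Fin (P.K - 1) → ℕ) : Fin (P.K - 1) → ℝ := fun i => P.clipX (x i)

/-- The admissible tails. -/
structure TailGood (m : ℕ) : Prop where
  ne_zero : m ≠ 0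
  pre : Nat.totient (canon m) = m
  pre_ne : canon m ≠ 0
  smooth : SmoothLam (P.L + 1) (canon m)
  big : ∀ r ∈ (canon m).primeFactors, P.Te < lam (r : ℝ) → ¬ r ^ 2 ∣ canon m ∧ P.Normal r
  ok : P.TailOk (P.tailB m)
  size : Real.log (m : ℝ) ≤ Real.exp (P.L / 2)

/-- A representation of `v`. -/
structure IsRep (v p0 : ℕ) (x : Fin (P.K - 1) → ℕ) (m : ℕ) : Prop where
  prime0 : p0.Prime
  normal0 : P.Normal p0
  lo0 : P.L - 3 * Real.log P.L ≤ lam (p0 : ℝ)
  hi0 : lam (p0 : ℝ) ≤ P.L + 1
  levels : ∀ i, x i = 1 ∨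
    ((x i).Prime ∧ P.Te < lam (x i : ℝ) ∧ lam (x i : ℝ) ≤ P.L + 1 ∧ P.Normal (x i))
  le_p0 : ∀ i, x i ≤ p0
  tail : P.TailGood m
  plus : P.coord x ∈ P.PPlus (2 * P.eta) (P.tailB m)
  eq : v = (p0 - 1) * prefW x * m

end Params

end Vale.Agent.P031
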