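import Mathlib
import Vale.Agent.P031.RepBasics
import Vale.Agent.P031.RepDefs

/-!
# P031 Q2, section 5: the weight of exceptional numbers
-/

open scoped Classical
noncomputable section

namespace Vale.Agent.P031

namespace Params

variable (P : Params)

/-- A chain of large primes of `c` which is too heavy. -/
def HeavyChain (mu : ℝ) (c : ℕ) : Prop :=
  ∃ N < P.K', ∃ pi : ℕ → ℕ, (∀ i ≤ N, pi i ∈ c.primeFactors ∧ P.Te < lam (pi i : ℝ)) ∧
    (∀ i < N, pi (i + 1) < pi i) ∧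
    lam (pi 0 : ℝ) + mu < ∑ i ∈ Finset.Icc 1 N, fordA i * lam (pi i : ℝ)

/-- A large prime occurs squared. -/
def SquareBad (c : ℕ) : Prop := ∃ r ∈ c.primeFactors, P.Te < lam (r : ℝ) ∧ r ^ 2 ∣ c

/-- A large prime is not normal. -/
def AbnormalBad (c : ℕ) : Prop := ∃ r ∈ c.primeFactors, P.Te < lam (r : ℝ) ∧ ¬ P.Normal r

/-- The smooth part has a large totient. -/
def SizeBad (c : ℕ) : Prop :=
  Real.exp (Real.exp (P.L / 2)) <
    (Nat.totient (part c fun r : ℕ => lam (r : ℝ) ≤ 0.45 * P.L) : ℝ)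

/-- The exceptional numbers. -/
def Bad (c : ℕ) : Prop :=
  P.SquareBad c ∨ P.AbnormalBad c ∨ P.HeavyChain (P.etap * P.L / 2) c ∨ P.SizeBad c

/-- What the heavy-value bound asks of a value. -/
def HeavyData (mu lo : ℝ) (w : ℕ) : Prop :=
  w ≠ 0 ∧ ∃ N < P.K', ∃ pi : ℕ → ℕ,
    (∀ i ≤ N, (pi i).Prime ∧ P.Normal (pi i) ∧ P.Te ≤ lam (pi i : ℝ)) ∧
    (∀ i < N, pi (i + 1) ≤ pi i) ∧ (∀ r ∈ w.primeFactors, r ≤ pi 0) ∧
    lo ≤ lam (pi 0 : ℝ) ∧ lam (pi 0 : ℝ) ≤ P.L + 1 ∧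
    (∏ i ∈ Finset.range (N + 1), (pi i - 1)) ∣ w ∧
    lam (pi 0 : ℝ) + mu < ∑ i ∈ Finset.Icc 1 N, fordA i * lam (pi i : ℝ)

theorem Te_nonneg (hL : 0 ≤ P.L) : 0 ≤ P.Te := div_nonneg hL (by positivity)

/-- The part below the top of a heavy chain is a heavy value. -/
theorem heavyData_of_chain {mu : ℝ} {c N : ℕ} {pi : ℕ → ℕ} (hTe : 0 ≤ P.Te)
    (hc : SmoothLam (P.L + 1) c) (hN : N < P.K')
    (hn : ∀ r ∈ c.primeFactors, P.Te < lam (r : ℝ) → P.Normal r)
    (hpi : ∀ i ≤ N, pi i ∈ c.primeFactors ∧ P.Te < lam (pi i : ℝ))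
    (hdec : ∀ i < N, pi (i + 1) < pi i)
    (hs : lam (pi 0 : ℝ) + mu < ∑ i ∈ Finset.Icc 1 N, fordA i * lam (pi i : ℝ))
    {lo : ℝ} (hlo : lo ≤ lam (pi 0 : ℝ)) :
    P.HeavyData mu lo (Nat.totient (part c fun r => r ≤ pi 0)) := by
  have hanti : ∀ j, j ≤ N → ∀ i, i < j → pi j < pi i := by
    intro j
    induction j with
    | zero => intro _ i hi; omega
    | succ j ih =>
      intro hj i hi
      have h1 := hdec j (by omega)
      rcases Nat.lt_or_eq_of_le (Nat.le_of_lt_succ hi) with h | h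
      · exact h1.trans (ih (by omega) i h)
      · exact h ▸ h1
  have hle : ∀ i ≤ N, pi i ≤ pi 0 := fun i hi => by
    rcases Nat.eq_zero_or_pos i with h | h
    · rw [h]
    · exact (hanti i hi 0 h).le
  refine ⟨fun h => part_ne_zero _ _ (Nat.totient_eq_zero.1 h), N, hN, pi, fun i hi =>
      ⟨Nat.prime_of_mem_primeFactors (hpi i hi).1, hn _ (hpi i hi).1 (hpi i hi).2, (hpi i hi).2.le⟩,
    fun i hi => (hdec i hi).le, fun r hr => ?_, hlo, hc.2 _ (hpi 0 (by omega)).1, ?_, hs⟩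
  · obtain ⟨q, hq, hrq⟩ := le_primeFactor_of_mem_totient hr
    exact hrq.trans (mem_primeFactors_part.1 hq).2
  · rw [← Finset.prod_image (f := fun q => q - 1) (g := pi)]
    · refine prod_sub_one_dvd_totient fun q hq => ?_
      obtain ⟨i, hi, rfl⟩ := Finset.mem_image.1 hq
      have hiN : i ≤ N := Nat.le_of_lt_succ (Finset.mem_range.1 hi)
      exact mem_primeFactors_part.2 ⟨(hpi i hiN).1, hle i hiN⟩
    · intro i hi j hj hij
      simp only [Finset.coe_range, Set.mem_Iio] at hi hj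
      rcases lt_trichotomy i j with h | h | h
      · exact absurd hij (hanti j (by omega) i h).ne'
      · exact h
      · exact absurd hij (hanti i (by omega) j h).ne

theorem smooth_weight_le : ∃ C : ℝ, 0 ≤ C ∧ ∀ (s : ℝ), 1 ≤ s → ∀ T : Finset ℕ,
    (∀ n ∈ T, SmoothLam s n) → ∑ n ∈ T, (1 : ℝ) / n ≤ Real.exp (s + C) := by
  obtain ⟨C, hC, hM⟩ := mertens_upTo
  refine ⟨C + 8, by linarith, fun s hs T hT => ?_⟩
  have h := euler_smoothLam s 1 (fun _ => 1) (fun p hp _ => ⟨zero_le_one, le_rfl, by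
    have : (2 : ℝ) ≤ p := by exact_mod_cast hp.two_le
    linarith⟩) T hT
  simp only [cmul_const_one] at h
  refine h.trans (Real.exp_le_exp.2 ?_)
  have h2 := (abs_le.1 (hM _ (two_le_expexp (a := s) (by linarith)))).2
  simp only [lam, Real.log_exp] at h2
  linarith

/-- The reciprocal sum over exceptional totient values, in terms of its four inputs. -/
theorem bad_weight_aux : ∃ C : ℝ, 0 ≤ C ∧ ∀ P : Params, 4 ≤ P.L → 1 ≤ P.Te → ∀ G A B : ℝ, 0 ≤ G →
    (∀ S : Finset ℕ, (∀ m ∈ S, m ∈ smoothValues (P.L + 1)) → ∑ m ∈ S, (1 : ℝ) / m ≤ G) →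
    (∀ T : Finset ℕ, (∀ p ∈ T, p.Prime ∧ P.Te ≤ lam (p : ℝ) ∧ lam (p : ℝ) ≤ P.L + 1 ∧ ¬ P.Normal p) →
      ∑ p ∈ T, 1 / ((p : ℝ) - 1) ≤ A) →
    (∀ S : Finset ℕ, (∀ w ∈ S, P.HeavyData (P.etap * P.L / 2) 0 w) → ∑ w ∈ S, (1 : ℝ) / w ≤ B) →
    ∀ S : Finset ℕ, (∀ m ∈ S, ∃ c, SmoothLam (P.L + 1) c ∧ Nat.totient c = m ∧ P.Bad c) →
      ∑ m ∈ S, (1 : ℝ) / m ≤ Real.exp (P.L + C - Real.exp P.Te) + G * A + G * B +
        G * (C * Real.exp (P.L - Real.exp (P.L / 20))) := by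
  obtain ⟨C1, hC1, hsm⟩ := smooth_weight_le
  obtain ⟨C2, hC2, hrk⟩ := rankin_smooth_tail
  refine ⟨max (C1 + 1 + Real.log 4) C2, le_max_of_le_right hC2, fun P hL hTe G A B hG hGS hA hB S hS => ?_⟩
  set C := max (C1 + 1 + Real.log 4) C2 with hC
  choose! c hsmc hphi hbad using hS
  set S1 := S.filter fun m => P.SquareBad (c m) with hS1
  set S2 := S.filter fun m => ¬ P.SquareBad (c m) ∧ P.AbnormalBad (c m) with hS2
  set S3 := S.filter fun m => ¬ P.AbnormalBad (c m) ∧ P.HeavyChain (P.etap * P.L / 2) (c m) with hS3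
  set S4 := S.filter fun m => P.SizeBad (c m) with hS4
  have hsplit : ∑ m ∈ S, (1 : ℝ) / m ≤ ∑ m ∈ S1, (1 : ℝ) / m + ∑ m ∈ S2, (1 : ℝ) / m +
      ∑ m ∈ S3, (1 : ℝ) / m + ∑ m ∈ S4, (1 : ℝ) / m := by
    simp only [hS1, hS2, hS3, hS4, Finset.sum_filter, ← Finset.sum_add_distrib]
    refine Finset.sum_le_sum fun m hm => ?_
    have hpos : (0 : ℝ) ≤ 1 / (m : ℝ) := by positivity
    split_ifs <;> try linarith
    have hb := hbad m hm
    simp only [Bad] at hb
    exfalso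
    tauto
  have hlam : ∀ {s : ℝ} {r : ℕ}, r.Prime → s < lam (r : ℝ) → Real.exp (Real.exp s) < (r : ℝ) :=
    fun hp h => not_le.1 fun hle => not_le.2 h ((natPrime_le_expexp hp).1 hle)
  -- squares
  have h1 : ∑ m ∈ S1, (1 : ℝ) / m ≤ Real.exp (P.L + C - Real.exp P.Te) := by
    have hr : ∀ m ∈ S1, ∃ r w : ℕ, r.Prime ∧ P.Te < lam (r : ℝ) ∧ SmoothLam (P.L + 1) w ∧
        m = r * (r - 1) * w := by
      intro m hm
      obtain ⟨hmS, r, hr, hrTe, hr2⟩ := Finset.mem_filter.1 hm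
      have hp := Nat.prime_of_mem_primeFactors hr
      obtain ⟨w, hw⟩ : r * (r - 1) ∣ m := by
        have h := Nat.totient_dvd_of_dvd hr2
        simpa [Nat.totient_prime_pow hp two_pos, hphi m hmS] using h
      have hsm' : SmoothLam (P.L + 1) m := hphi m hmS ▸ smoothLam_totient (hsmc m hmS)
      refine ⟨r, w, hp, hrTe, ⟨fun h0 => hsm'.1 (by rw [hw, h0, mul_zero]), fun q hq => ?_⟩, hw⟩
      exact hsm'.2 q (Nat.primeFactors_mono (hw ▸ dvd_mul_left w _) hsm'.1 hq)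
    choose! rr ww hrp hrTe hws heq using hr
    refine (sum_inv_le_mul S1 ((S1.image rr).image fun r => r * (r - 1)) (S1.image ww) fun m hm =>
      ⟨_, Finset.mem_image_of_mem _ (Finset.mem_image_of_mem _ hm), _,
        Finset.mem_image_of_mem _ hm, heq m hm⟩).trans ?_
    have hA' : ∑ a ∈ (S1.image rr).image (fun r : ℕ => r * (r - 1)), (1 : ℝ) / (a : ℝ) ≤
        4 / Real.exp (Real.exp P.Te) := by
      refine (Finset.sum_image_le_of_nonneg fun _ _ => by positivity).trans ?_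
      have hmem : ∀ r ∈ S1.image rr, r.Prime ∧ Real.exp (Real.exp P.Te) < (r : ℝ) := fun r hr => by
        obtain ⟨m, hm, rfl⟩ := Finset.mem_image.1 hr
        exact ⟨hrp m hm, hlam (hrp m hm) (hrTe m hm)⟩
      calc ∑ r ∈ S1.image rr, (1 : ℝ) / ((r * (r - 1) : ℕ) : ℝ)
          ≤ ∑ r ∈ S1.image rr, 2 * ((1 : ℝ) / (r : ℝ) ^ 2) := by
            refine Finset.sum_le_sum fun r hr => ?_
            have h2 : (2 : ℝ) ≤ (r : ℝ) := by exact_mod_cast (hmem r hr).1.two_le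
            rw [Nat.cast_mul, Nat.cast_sub (hmem r hr).1.one_le, Nat.cast_one, mul_one_div,
              div_le_div_iff₀ (by nlinarith) (by positivity)]
            nlinarith
        _ = 2 * ∑ r ∈ S1.image rr, (1 : ℝ) / (r : ℝ) ^ 2 := by rw [Finset.mul_sum]
        _ ≤ 2 * (2 / Real.exp (Real.exp P.Te)) := by
            refine mul_le_mul_of_nonneg_left ?_ two_pos.le
            exact sum_inv_sq_prime_gt (two_le_expexp (by linarith)) _ fun r hr => (hmem r hr).2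
        _ = 4 / Real.exp (Real.exp P.Te) := by ring
    have hB' : ∑ b ∈ S1.image ww, (1 : ℝ) / b ≤ Real.exp (P.L + 1 + C1) :=
      hsm _ (by linarith) _ fun w hw => by
        obtain ⟨m, hm, rfl⟩ := Finset.mem_image.1 hw
        exact hws m hm
    refine (mul_le_mul hA' hB' (Finset.sum_nonneg fun _ _ => by positivity) (by positivity)).trans ?_
    rw [← Real.exp_log (by norm_num : (0 : ℝ) < 4), ← Real.exp_sub, ← Real.exp_add, Real.exp_le_exp]
    have := le_max_left (C1 + 1 + Real.log 4) C2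
    linarith
  -- primes which are not normal
  have h2 : ∑ m ∈ S2, (1 : ℝ) / m ≤ G * A := by
    have hr : ∀ m ∈ S2, ∃ r w : ℕ, r.Prime ∧ P.Te ≤ lam (r : ℝ) ∧ lam (r : ℝ) ≤ P.L + 1 ∧
        ¬ P.Normal r ∧ w ∈ smoothValues (P.L + 1) ∧ m = (r - 1) * w := by
      intro m hm
      obtain ⟨hmS, hsq, r, hr, hrTe, hrN⟩ := Finset.mem_filter.1 hm
      refine ⟨r, _, Nat.prime_of_mem_primeFactors hr, hrTe.le, (hsmc m hmS).2 r hr, hrN,
        mem_smoothValues_part (hsmc m hmS) _, (hphi m hmS).symm.trans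
          (totient_single hr fun h => hsq ⟨r, hr, hrTe, h⟩)⟩
    choose! rr ww hrp hr1 hr2 hr3 hws heq using hr
    refine (sum_inv_le_mul S2 ((S2.image rr).image fun r => r - 1) (S2.image ww) fun m hm =>
      ⟨_, Finset.mem_image_of_mem _ (Finset.mem_image_of_mem _ hm), _,
        Finset.mem_image_of_mem _ hm, heq m hm⟩).trans ?_
    rw [mul_comm G A]
    have hmem : ∀ p ∈ S2.image rr,
        p.Prime ∧ P.Te ≤ lam (p : ℝ) ∧ lam (p : ℝ) ≤ P.L + 1 ∧ ¬ P.Normal p := fun p hp => by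
      obtain ⟨m, hm, rfl⟩ := Finset.mem_image.1 hp
      exact ⟨hrp m hm, hr1 m hm, hr2 m hm, hr3 m hm⟩
    have hA0 : 0 ≤ A := le_trans (le_of_eq Finset.sum_empty.symm) (hA ∅ (by simp))
    refine mul_le_mul ?_ (hGS _ fun w hw => ?_) (Finset.sum_nonneg fun _ _ => by positivity) hA0
    · refine (Finset.sum_image_le_of_nonneg fun _ _ => by positivity).trans
        ((Finset.sum_le_sum fun p hp => ?_).trans (hA _ hmem))
      rw [Nat.cast_sub (hmem p hp).1.one_le, Nat.cast_one]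
    · obtain ⟨m, hm, rfl⟩ := Finset.mem_image.1 hw
      exact hws m hm
  -- heavy chains
  have h3 : ∑ m ∈ S3, (1 : ℝ) / m ≤ G * B := by
    have hr : ∀ m ∈ S3, ∃ a w : ℕ, a ∈ smoothValues (P.L + 1) ∧
        P.HeavyData (P.etap * P.L / 2) 0 w ∧ m = a * w := by
      intro m hm
      obtain ⟨hmS, hab, N, hN, pi, hpi, hdec, hs⟩ := Finset.mem_filter.1 hm
      refine ⟨_, _, mem_smoothValues_part (hsmc m hmS) (fun r => ¬ r ≤ pi 0),
        P.heavyData_of_chain (by linarith) (hsmc m hmS) hN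
          (fun r hr hr' => not_not.1 fun h => hab ⟨r, hr, hr', h⟩) hpi hdec hs
          (by linarith [(hpi 0 (Nat.zero_le _)).2]), ?_⟩
      exact (hphi m hmS).symm.trans
        ((totient_split (hsmc m hmS).1 fun r => r ≤ pi 0).trans (mul_comm _ _))
    choose! aa ww has hws heq using hr
    refine (sum_inv_le_mul S3 (S3.image aa) (S3.image ww) fun m hm =>
      ⟨_, Finset.mem_image_of_mem _ hm, _, Finset.mem_image_of_mem _ hm, heq m hm⟩).trans ?_
    refine mul_le_mul (hGS _ fun a ha => ?_) (hB _ fun w hw => ?_)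
      (Finset.sum_nonneg fun _ _ => by positivity) hG
    · obtain ⟨m, hm, rfl⟩ := Finset.mem_image.1 ha
      exact has m hm
    · obtain ⟨m, hm, rfl⟩ := Finset.mem_image.1 hw
      exact hws m hm
  -- large smooth parts
  have h4 : ∑ m ∈ S4, (1 : ℝ) / m ≤ G * (C * Real.exp (P.L - Real.exp (P.L / 20))) := by
    set z := Real.exp (Real.exp (0.45 * P.L)) with hz
    set T := Real.exp (Real.exp (P.L / 2)) with hT
    set Q : ℕ → Prop := fun r => lam (r : ℝ) ≤ 0.45 * P.L with hQ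
    refine (sum_inv_le_mul S4 (S4.image fun m => Nat.totient (part (c m) fun r => ¬ Q r))
      (S4.image fun m => Nat.totient (part (c m) Q)) fun m hm =>
      ⟨_, Finset.mem_image_of_mem _ hm, _, Finset.mem_image_of_mem _ hm, ?_⟩).trans ?_
    · obtain ⟨hmS, -⟩ := Finset.mem_filter.1 hm
      exact (hphi m hmS).symm.trans ((totient_split (hsmc m hmS).1 Q).trans (mul_comm _ _))
    have hz55 : 55 ≤ z := by
      have h1 := Real.quadratic_le_exp_of_nonneg (show (0 : ℝ) ≤ 0.45 * P.L by linarith)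
      have h2 : (4.4 : ℝ) ≤ Real.exp (0.45 * P.L) := by nlinarith
      have e1 : (2.7 : ℝ) ≤ Real.exp 1 := by linarith [Real.exp_one_gt_d9]
      refine le_trans ?_ (Real.exp_le_exp.2 h2)
      have : Real.exp 4.4 = Real.exp 1 ^ 4 * Real.exp 0.4 := by
        rw [← Real.exp_nat_mul, ← Real.exp_add]; norm_num
      have h3 := Real.add_one_le_exp (0.4 : ℝ)
      have h4 : (2.7 : ℝ) ^ 4 ≤ Real.exp 1 ^ 4 := pow_le_pow_left₀ (by norm_num) e1 4
      rw [this]
      nlinarith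
    refine mul_le_mul (hGS _ fun a ha => ?_) ((hrk z T _ hz55 (Real.exp_pos _) fun w hw => ?_).trans ?_)
      (Finset.sum_nonneg fun _ _ => by positivity) hG
    · obtain ⟨m, hm, rfl⟩ := Finset.mem_image.1 ha
      exact mem_smoothValues_part (hsmc m (Finset.mem_filter.1 hm).1) _
    · obtain ⟨m, hm, rfl⟩ := Finset.mem_image.1 hw
      obtain ⟨hmS, hbig⟩ := Finset.mem_filter.1 hm
      refine ⟨fun h => part_ne_zero _ _ (Nat.totient_eq_zero.1 h), hbig.le, fun r hr => ?_⟩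
      obtain ⟨q, hq, hrq⟩ := le_primeFactor_of_mem_totient hr
      exact le_trans (by exact_mod_cast hrq)
        ((natPrime_le_expexp (Nat.prime_of_mem_primeFactors hq)).2 (mem_primeFactors_part.1 hq).2)
    · rw [hz, hT, Real.log_exp, Real.log_exp, ← Real.exp_sub, mul_assoc, ← Real.exp_add]
      refine mul_le_mul (le_max_right _ _) (Real.exp_le_exp.2 ?_) (Real.exp_pos _).le
        (le_max_of_le_right hC2)
      rw [show P.L / 2 - 0.45 * P.L = P.L / 20 by ring]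
      linarith
  linarith

end Params

end Vale.Agent.P031
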