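import Mathlib
import Vale.Agent.P031.RepBasics
import Vale.Agent.P031.RepDefs
import Vale.Agent.P031.RepWeight

/-!
# P031 Q2, section 5: levels, slack, and the construction of a representation
-/

open scoped Classical
noncomputable section

namespace Vale.Agent.P031

theorem factorization_part (n : ℕ) (Q : ℕ → Prop) (r : ℕ) :
    (part n Q).factorization r = if r ∈ n.primeFactors ∧ Q r then n.factorization r else 0 := by
  have hp : ∀ q ∈ n.primeFactors.filter Q, q.Prime := fun q hq =>
    Nat.prime_of_mem_primeFactors (Finset.mem_filter.1 hq).1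
  rw [part, Nat.factorization_prod fun q hq => pow_ne_zero _ (hp q hq).ne_zero,
    Finsupp.finsetSum_apply, Finset.sum_congr rfl fun q hq => by rw [(hp q hq).factorization_pow]]
  simp only [Finsupp.single_apply]
  rw [Finset.sum_ite_eq']
  simp only [Finset.mem_filter]

theorem part_part (n : ℕ) (A Q : ℕ → Prop) :
    part (part n A) Q = part n fun r => A r ∧ Q r := by
  refine Finset.prod_congr ?_ fun r hr => ?_
  · ext r
    simp only [Finset.mem_filter, mem_primeFactors_part, and_assoc]
  simp only [Finset.mem_filter] at hr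
  obtain ⟨h1, h2, -⟩ := hr
  rw [factorization_part, if_pos ⟨h1, h2⟩]

theorem part_congr {n : ℕ} {A Q : ℕ → Prop} (h : ∀ r ∈ n.primeFactors, A r ↔ Q r) :
    part n A = part n Q := by
  rw [part, part, Finset.filter_congr h]

theorem part_of_forall {n : ℕ} (hn : n ≠ 0) {Q : ℕ → Prop} (h : ∀ r ∈ n.primeFactors, Q r) :
    part n Q = n := by
  rw [part, Finset.filter_true_of_mem h]
  exact Nat.prod_factorization_pow_eq_self hn

namespace Params

variable (P : Params)

/-- Decreasing large prime factors, padded with ones. -/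
structure LevelSeq (n : ℕ) (f : ℕ → ℕ) (M : ℕ) : Prop where
  mem : ∀ t < M, f t ∈ n.primeFactors ∧ P.Te < lam (f t : ℝ)
  dec : ∀ t, t + 1 < M → f (t + 1) < f t
  pad : ∀ t, M ≤ t → f t = 1

/-- The `t`-th large prime of `n`. -/
def lev (n t : ℕ) : ℕ := (P.bigPrimes n).getD t 1

theorem tailB_eq {m i : ℕ} (hi : P.K ≤ i) :
    P.tailB m i = P.clipX (P.lev (canon m) (i - P.K)) := by
  rw [tailB, if_pos hi]; rfl

theorem levelSeq_lev (n : ℕ) : P.LevelSeq n (P.lev n) (P.bigPrimes n).length where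
  mem t ht := by
    rw [lev, List.getD_eq_getElem _ _ ht]
    exact P.mem_bigPrimes.1 (List.getElem_mem ht)
  dec t ht := by
    rw [lev, lev, List.getD_eq_getElem _ _ ht, List.getD_eq_getElem _ _ (Nat.lt_of_succ_lt ht)]
    exact (List.pairwise_iff_getElem.1 (P.bigPrimes_sorted n)) t (t + 1) (Nat.lt_of_succ_lt ht) ht
      (Nat.lt_succ_self t)
  pad t ht := List.getD_eq_default _ _ ht

theorem exists_lev {n r : ℕ} (hr : r ∈ n.primeFactors) (h : P.Te < lam (r : ℝ)) :
    ∃ t < (P.bigPrimes n).length, P.lev n t = r := by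
  obtain ⟨t, ht, e⟩ := List.mem_iff_getElem.1 (P.mem_bigPrimes.2 ⟨hr, h⟩)
  exact ⟨t, ht, by rw [lev, List.getD_eq_getElem _ _ ht, e]⟩

variable {P} {n M : ℕ} {f : ℕ → ℕ}

theorem LevelSeq.lt (h : P.LevelSeq n f M) {t u : ℕ} (htu : t < u) (hu : u < M) : f u < f t := by
  induction u with
  | zero => omega
  | succ u ih =>
    rcases Nat.lt_or_eq_of_le (Nat.le_of_lt_succ htu) with h1 | h1
    · exact (h.dec u hu).trans (ih h1 (by omega))
    · exact h1 ▸ h.dec u hu

theorem LevelSeq.two_le (h : P.LevelSeq n f M) {t : ℕ} (ht : t < M) : 2 ≤ f t :=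
  (Nat.prime_of_mem_primeFactors (h.mem t ht).1).two_le

theorem LevelSeq.clipX_anti (h : P.LevelSeq n f M) (hL : 0 < P.L) (t : ℕ) :
    P.clipX (f (t + 1)) ≤ P.clipX (f t) := by
  rcases Nat.lt_or_ge (t + 1) M with h1 | h1
  · refine max_le_max le_rfl (min_le_min le_rfl ?_)
    exact div_le_div_of_nonneg_right (lam_mono (h.two_le h1) (h.dec t h1).le) hL.le
  · rw [h.pad _ h1, P.clipX_one]
    exact P.clipX_nonneg _

theorem LevelSeq.window (h : P.LevelSeq n f M) {mu : ℝ} (hno : ¬ P.HeavyChain mu n)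
    (hL : 0 < P.L) (hTe : 0 ≤ P.Te) (hmu : 0 ≤ mu)
    (htop : ∀ r ∈ n.primeFactors, lam (r : ℝ) ≤ P.L + 1) {a W : ℕ} (hW : W ≤ P.K') :
    ∑ j ∈ Finset.Ioo 0 W, fordA j * P.clipX (f (a + j)) ≤ P.clipX (f a) + (mu + 1) / P.L := by
  have hpos : 0 ≤ (mu + 1) / P.L := div_nonneg (by linarith) hL.le
  rcases Nat.lt_or_ge a M with ha | ha
  swap
  · refine le_trans (le_of_eq (Finset.sum_eq_zero fun j _ => ?_))
      (add_nonneg (P.clipX_nonneg _) hpos)
    rw [h.pad _ (by omega), P.clipX_one, mul_zero]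
  rcases Nat.eq_zero_or_pos W with hW0 | hW0
  · rw [hW0, Finset.Ioo_self, Finset.sum_empty]
    exact add_nonneg (P.clipX_nonneg _) hpos
  set N := min (W - 1) (M - 1 - a) with hN
  have hsub : Finset.Icc 1 N ⊆ Finset.Ioo 0 W := fun j hj => by
    rw [Finset.mem_Icc] at hj; rw [Finset.mem_Ioo]; omega
  rw [← Finset.sum_subset hsub fun j hj hj' => by
    rw [Finset.mem_Ioo] at hj; rw [Finset.mem_Icc] at hj'
    rw [h.pad _ (by omega), P.clipX_one, mul_zero]]
  have hno' : ¬ (lam (f a : ℝ) + mu < ∑ i ∈ Finset.Icc 1 N, fordA i * lam (f (a + i) : ℝ)) :=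
    fun hs => hno ⟨N, by omega, fun t => f (a + t), fun i hi => h.mem _ (by omega),
      fun i hi => by simpa [Nat.add_assoc] using h.dec (a + i) (by omega), by simpa using hs⟩
  calc ∑ j ∈ Finset.Icc 1 N, fordA j * P.clipX (f (a + j))
      ≤ ∑ j ∈ Finset.Icc 1 N, fordA j * (lam (f (a + j) : ℝ) / P.L) := by
        refine Finset.sum_le_sum fun j hj => mul_le_mul_of_nonneg_left ?_
          (fordA_nonneg (Finset.mem_Icc.1 hj).1)
        have hj2 := (Finset.mem_Icc.1 hj).2
        have := (h.mem (a + j) (by omega)).2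
        exact max_le (div_nonneg (by linarith) hL.le) (min_le_right _ _)
    _ = (∑ j ∈ Finset.Icc 1 N, fordA j * lam (f (a + j) : ℝ)) / P.L := by
        rw [Finset.sum_div]
        exact Finset.sum_congr rfl fun j _ => (mul_div_assoc _ _ _).symm
    _ ≤ (lam (f a : ℝ) + mu) / P.L := div_le_div_of_nonneg_right (not_lt.1 hno') hL.le
    _ ≤ P.clipX (f a) + (mu + 1) / P.L := by
        have h1 := htop _ (h.mem a ha).1
        have h2 : lam (f a : ℝ) / P.L - 1 / P.L ≤ P.clipX (f a) := by
          refine le_max_of_le_right (le_min ?_ ?_)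
          · rw [← sub_div, div_le_one hL]; linarith
          · have : 0 ≤ 1 / P.L := div_nonneg zero_le_one hL.le
            linarith
        rw [add_div, add_div]
        linarith

/-- What is assumed of the parameters. -/
structure RepBig (P : Params) : Prop where
  K_ge : 16 ≤ P.K
  L_ge : 100 ≤ P.L
  Te_ge : 1 ≤ P.Te
  etap_ge : 2 ≤ P.etap * P.L
  Te_lt : P.Te < P.L - 3 * Real.log P.L

theorem RepBig.window_etap (hb : RepBig P) :
    (P.etap * P.L / 2 + 1) / P.L ≤ P.etap := by
  rw [div_le_iff₀ (by linarith [hb.L_ge])]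
  linarith [hb.etap_ge]

theorem RepBig.Te_le (hb : RepBig P) : P.Te ≤ 0.45 * P.L := by
  have hL := hb.L_ge
  unfold Params.Te
  calc P.L / 2 ^ (17 * P.K) ≤ P.L / 2 ^ 2 := by
        refine div_le_div_of_nonneg_left (by linarith) (by norm_num)
          (pow_le_pow_right₀ (by norm_num) (by have := hb.K_ge; omega))
    _ ≤ 0.45 * P.L := by linarith

theorem tailOk_canon (hb : RepBig P) {m : ℕ} (hc : SmoothLam (P.L + 1) (canon m))
    (hno : ¬ P.HeavyChain (P.etap * P.L / 2) (canon m)) : P.TailOk (P.tailB m) := by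
  have hL : 0 < P.L := by linarith [hb.L_ge]
  have hf := P.levelSeq_lev (canon m)
  refine ⟨fun i hi _ => ?_, fun i hi _ => ?_, fun i hi hi' => ?_⟩
  · rw [P.tailB_eq hi]; exact P.clipX_nonneg _
  · rw [P.tailB_eq hi, P.tailB_eq (by omega), show i + 1 - P.K = i - P.K + 1 by omega]
    exact hf.clipX_anti hL _
  · have h := hf.window (a := i - P.K) (W := P.K' - i) hno hL (by linarith [hb.Te_ge])
      (by linarith [hb.etap_ge]) hc.2 (Nat.sub_le _ _)
    have h2 := hb.window_etap
    unfold Params.slack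
    rw [P.tailB_eq hi, Finset.sum_congr rfl fun j hj => by
      rw [P.tailB_eq (by omega), show i + j - P.K = i - P.K + j by omega]]
    linarith

/-- A canonical preimage with no exceptional feature gives a good tail. -/
theorem tailGood_of (hb : RepBig P) {m : ℕ} (hm : m ≠ 0) (hpre : Nat.totient (canon m) = m)
    (hs : SmoothLam (0.45 * P.L) (canon m)) (hbad : ¬ P.Bad (canon m)) : P.TailGood m := by
  simp only [Bad, not_or] at hbad
  obtain ⟨hsq, hab, hno, hsize⟩ := hbad
  have hs' : SmoothLam (P.L + 1) (canon m) :=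
    ⟨hs.1, fun r hr => (hs.2 r hr).trans (by linarith [hb.L_ge])⟩
  refine ⟨hm, hpre, hs.1, hs', fun r hr hr' => ⟨fun h => hsq ⟨r, hr, hr', h⟩,
    not_not.1 fun h => hab ⟨r, hr, hr', h⟩⟩, tailOk_canon hb hs' hno, ?_⟩
  unfold SizeBad at hsize
  rw [not_lt, part_of_forall hs.1 hs.2, hpre] at hsize
  exact (Real.log_le_log (by exact_mod_cast Nat.pos_of_ne_zero hm) hsize).trans_eq (Real.log_exp _)

theorem fordA_big {K : ℕ} (hK : 16 ≤ K) : 2.4 ≤ fordA K := by
  refine le_trans ?_ (fordA_mono (by norm_num : 1 ≤ 16) hK)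
  refine le_trans ?_ (fordA_ge_log (by norm_num : 1 ≤ 16))
  have h1 : Real.log 16 = 4 * Real.log 2 := by
    rw [show (16 : ℝ) = 2 ^ 4 by norm_num, Real.log_pow]; norm_num
  have h2 : Real.log 16 ≤ Real.log ((16 : ℕ) + 1 : ℝ) := Real.log_le_log (by norm_num) (by norm_num)
  have := Real.log_two_gt_d9
  norm_num at h2 ⊢
  linarith

/-- A value all of whose preimages are unexceptional has a representation. -/
theorem exists_rep_of_good (hb : RepBig P) {v n : ℕ} (hv : Nat.totient n = v) (hn : n ≠ 0)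
    (hgood : ∀ n', Nat.totient n' = v →
      SmoothLam (P.L + 1) n' ∧ (∃ r ∈ n'.primeFactors, P.L - 3 * Real.log P.L < lam (r : ℝ)) ∧
        ¬ P.Bad n') :
    ∃ p0 x m, P.IsRep v p0 x m := by
  obtain ⟨hsm, ⟨rt, hrt, hrt'⟩, hbad⟩ := hgood n hv
  simp only [Bad, not_or] at hbad
  obtain ⟨hsq, hab, -, -⟩ := hbad
  have hK := hb.K_ge
  have hL : 0 < P.L := by linarith [hb.L_ge]
  have hTe := hb.Te_ge
  set f := P.lev n with hfdef
  set M := (P.bigPrimes n).length with hM
  have hf : P.LevelSeq n f M := P.levelSeq_lev n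
  set k := min P.K M with hk
  have hfp : ∀ t < M, (f t).Prime := fun t ht => Nat.prime_of_mem_primeFactors (hf.mem t ht).1
  obtain ⟨t0, ht0, e0⟩ := P.exists_lev hrt (hb.Te_lt.trans hrt')
  have hM0 : 0 < M := by omega
  set T := (Finset.range k).image f with hT
  have hinj : Set.InjOn f (Finset.range k : Set ℕ) := by
    intro a ha b hb' hab'
    simp only [Finset.coe_range, Set.mem_Iio] at ha hb'
    rcases lt_trichotomy a b with h | h | h
    · exact absurd hab' (hf.lt h (by omega)).ne'
    · exact h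
    · exact absurd hab' (hf.lt h (by omega)).ne
  have hTsub : T ⊆ n.primeFactors := fun r hr => by
    obtain ⟨t, ht, rfl⟩ := Finset.mem_image.1 hr
    exact (hf.mem t (by rw [Finset.mem_range] at ht; omega)).1
  have hTbig : ∀ r ∈ T, P.Te < lam (r : ℝ) := fun r hr => by
    obtain ⟨t, ht, rfl⟩ := Finset.mem_image.1 hr
    exact (hf.mem t (by rw [Finset.mem_range] at ht; omega)).2
  have hTp : ∀ r ∈ T, r.Prime := fun r hr => Nat.prime_of_mem_primeFactors (hTsub hr)
  set R := part n fun r => r ∉ T with hR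
  have hpT : part n (fun r => r ∈ T) = ∏ r ∈ T, r := by
    rw [part]
    refine Finset.prod_congr ?_ fun r hr => ?_
    · ext r
      simp only [Finset.mem_filter]
      exact ⟨fun h => h.2, fun h => ⟨hTsub h, h⟩⟩
    · have hp := hTp r hr
      have h1 := hp.factorization_pos_of_dvd hn (Nat.dvd_of_mem_primeFactors (hTsub hr))
      have h2 : n.factorization r < 2 := not_le.1 fun h2 =>
        hsq ⟨r, hTsub hr, hTbig r hr, (hp.pow_dvd_iff_le_factorization hn).2 h2⟩
      rw [show n.factorization r = 1 by omega, pow_one]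
  have hphi : v = (∏ r ∈ T, (r - 1)) * Nat.totient R := by
    rw [← hv, totient_split hn (fun r => r ∈ T), hpT, totient_prod_primes T hTp, hR]
  set m := Nat.totient R with hmdef
  have hm0 : m ≠ 0 := fun h => part_ne_zero _ _ (Nat.totient_eq_zero.1 h)
  have hpre : Nat.totient (canon m) = m := totient_canon hmdef.symm
  set c := canon m with hcdef
  have hc0 : c ≠ 0 := canon_ne_zero hmdef.symm hm0
  -- primes of the new tail lie below all the top levels
  have hbelow : ∀ r ∈ c.primeFactors, ∀ t < k,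
      r < f t ∧ (M < P.K → lam (r : ℝ) ≤ P.Te) := by
    intro r hr t ht
    have h1 : r ≤ maxPrime R := (le_maxPrime hr).trans (maxPrime_canon_le hmdef.symm)
    have hRne : R.primeFactors.Nonempty := by
      by_contra h
      rw [Finset.not_nonempty_iff_eq_empty] at h
      rw [maxPrime, h, Finset.sup_empty] at h1
      exact absurd h1 (by have := (Nat.prime_of_mem_primeFactors hr).pos; simp; omega)
    obtain ⟨hq1, hq2⟩ := mem_primeFactors_part.1 (maxPrime_mem hRne)
    set q := maxPrime R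
    by_cases hq : P.Te < lam (q : ℝ)
    · obtain ⟨u, hu, e⟩ := P.exists_lev hq1 hq
      rw [← e] at h1 hq2
      have huk : k ≤ u := not_lt.1 fun h =>
        hq2 (Finset.mem_image_of_mem f (Finset.mem_range.2 h))
      refine ⟨lt_of_le_of_lt h1 (hf.lt (by omega) hu), fun hMK => ?_⟩
      exact absurd hu (by rw [← hM]; omega)
    · refine ⟨lt_of_le_of_lt h1 (not_le.1 fun h => hq ?_), fun _ => ?_⟩
      · exact lt_of_lt_of_le (hf.mem t (by omega)).2 (lam_mono (hf.two_le (by omega)) h)
      · exact (lam_mono (Nat.prime_of_mem_primeFactors hr).two_le h1).trans (not_lt.1 hq)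
  -- the new preimage
  set n' := (∏ r ∈ T, r) * c with hn'
  have hcop : (∏ r ∈ T, r).Coprime c := by
    refine Nat.Coprime.prod_left fun r hr => ?_
    refine (hTp r hr).coprime_iff_not_dvd.2 fun h => ?_
    obtain ⟨t, ht, rfl⟩ := Finset.mem_image.1 hr
    exact lt_irrefl _ (hbelow (f t) (Nat.mem_primeFactors.2 ⟨hTp _ hr, h, hc0⟩) t
      (Finset.mem_range.1 ht)).1
  have hv' : Nat.totient n' = v := by
    rw [hn', Nat.totient_mul hcop, totient_prod_primes T hTp, hpre, hphi]
  obtain ⟨hsm', -, hbad'⟩ := hgood n' hv'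
  simp only [Bad, not_or] at hbad'
  obtain ⟨hsq', hab', hno', hsize'⟩ := hbad'
  have hn'0 : n' ≠ 0 := hsm'.1
  have hcsub : c.primeFactors ⊆ n'.primeFactors :=
    Nat.primeFactors_mono (dvd_mul_left c _) hn'0
  have hTsub' : T ⊆ n'.primeFactors := fun r hr =>
    Nat.mem_primeFactors.2 ⟨hTp r hr, (Finset.dvd_prod_of_mem id hr).mul_right c, hn'0⟩
  -- levels of the new preimage
  set g : ℕ → ℕ := fun t => if t < P.K then f t else P.lev c (t - P.K) with hg
  set M' := if P.K ≤ M then P.K + (P.bigPrimes c).length else M with hM'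
  have hfc := P.levelSeq_lev c
  have hnobig : M < P.K → (P.bigPrimes c).length = 0 := fun hMK => by
    by_contra hne
    obtain ⟨h1, h2⟩ := hfc.mem 0 (Nat.pos_of_ne_zero hne)
    exact not_le.2 h2 ((hbelow _ h1 0 (by omega)).2 hMK)
  have hgs : P.LevelSeq n' g M' := by
    refine ⟨fun t ht => ?_, fun t ht => ?_, fun t ht => ?_⟩
    · by_cases h : t < P.K
      · have htk : t < k := by rw [hM'] at ht; split_ifs at ht <;> omega
        simp only [hg, if_pos h]
        exact ⟨hTsub' (Finset.mem_image_of_mem f (Finset.mem_range.2 htk)),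
          (hf.mem t (by omega)).2⟩
      · simp only [hg, if_neg h]
        obtain ⟨h1, h2⟩ := hfc.mem (t - P.K) (by rw [hM'] at ht; split_ifs at ht <;> omega)
        exact ⟨hcsub h1, h2⟩
    · rcases Nat.lt_trichotomy (t + 1) P.K with h | h | h
      · simp only [hg, if_pos h, if_pos (show t < P.K by omega)]
        exact hf.dec t (by rw [hM'] at ht; split_ifs at ht <;> omega)
      · simp only [hg, if_neg (show ¬ t + 1 < P.K by omega), if_pos (show t < P.K by omega)]
        obtain ⟨h1, -⟩ := hfc.mem (t + 1 - P.K) (by rw [hM'] at ht; split_ifs at ht <;> omega)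
        exact (hbelow _ h1 t (by rw [hM'] at ht; split_ifs at ht <;> omega)).1
      · simp only [hg, if_neg (show ¬ t + 1 < P.K by omega), if_neg (show ¬ t < P.K by omega)]
        rw [show t + 1 - P.K = t - P.K + 1 by omega]
        exact hfc.dec _ (by rw [hM'] at ht; split_ifs at ht <;> omega)
    · by_cases h : t < P.K
      · simp only [hg, if_pos h]
        exact hf.pad t (by rw [hM'] at ht; split_ifs at ht <;> omega)
      · simp only [hg, if_neg h]
        refine hfc.pad _ ?_
        rw [hM'] at ht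
        split_ifs at ht with hKM
        · omega
        · rw [hnobig (by omega)]; omega
  have hwin := fun (a W : ℕ) (hW : W ≤ P.K') =>
    hgs.window (a := a) (W := W) hno' hL (by linarith) (by linarith [hb.etap_ge]) hsm'.2 hW
  -- the tail is small
  have hcsm : SmoothLam (0.45 * P.L) c := by
    refine ⟨hc0, fun r hr => ?_⟩
    by_cases hr' : P.Te < lam (r : ℝ)
    swap
    · exact (not_lt.1 hr').trans hb.Te_le
    obtain ⟨u, hu, rfl⟩ := P.exists_lev hr hr'
    have hKM : P.K ≤ M := not_lt.1 fun h => by rw [hnobig h] at hu; omega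
    have h0 : lam (P.lev c u : ℝ) ≤ lam (P.lev c 0 : ℝ) := by
      rcases Nat.eq_zero_or_pos u with h | h
      · rw [h]
      · exact lam_mono (hfc.two_le hu) (hfc.lt h hu).le
    refine h0.trans ?_
    have hno'' : ¬ (lam (g 0 : ℝ) + P.etap * P.L / 2 <
        ∑ i ∈ Finset.Icc 1 P.K, fordA i * lam (g i : ℝ)) := fun hs =>
      hno' ⟨P.K, by unfold Params.K'; omega, g,
        fun i hi => hgs.mem i (by rw [hM', if_pos hKM]; omega),
        fun i hi => hgs.dec i (by rw [hM', if_pos hKM]; omega), hs⟩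
    have hone : fordA P.K * lam (g P.K : ℝ) ≤ ∑ i ∈ Finset.Icc 1 P.K, fordA i * lam (g i : ℝ) := by
      refine Finset.single_le_sum (f := fun i => fordA i * lam (g i : ℝ)) (fun i hi => ?_)
        (Finset.mem_Icc.2 ⟨by omega, le_rfl⟩)
      rw [Finset.mem_Icc] at hi
      have := (hgs.mem i (by rw [hM', if_pos hKM]; omega)).2
      exact mul_nonneg (fordA_nonneg hi.1) (by linarith)
    have hgK : g P.K = P.lev c 0 := by simp [hg]
    rw [hgK] at hone
    have h1 := hsm'.2 _ (hgs.mem 0 (by rw [hM', if_pos hKM]; omega)).1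
    have h2 := fordA_big hK
    have h3 := (hfc.mem 0 (by omega)).2
    have h4 : P.etap ≤ 1 / 16 := by
      unfold Params.etap
      refine div_le_div_of_nonneg_left zero_le_one (by norm_num) ?_
      calc (16 : ℝ) = 2 ^ 4 := by norm_num
        _ ≤ 2 ^ (14 * P.K) := pow_le_pow_right₀ (by norm_num) (by omega)
    have h5 := not_lt.1 hno''
    have h6 : 2.4 * lam (P.lev c 0 : ℝ) ≤ fordA P.K * lam (P.lev c 0 : ℝ) :=
      mul_le_mul_of_nonneg_right h2 (by linarith)
    nlinarith [hb.L_ge]
  have hbadc : ¬ P.Bad c := by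
    simp only [Bad, not_or]
    refine ⟨fun ⟨r, hr, h1, h2⟩ => hsq' ⟨r, hcsub hr, h1, h2.trans (dvd_mul_left c _)⟩,
      fun ⟨r, hr, h1, h2⟩ => hab' ⟨r, hcsub hr, h1, h2⟩,
      fun ⟨N, hN, pi, h1, h2, h3⟩ =>
        hno' ⟨N, hN, pi, fun i hi => ⟨hcsub (h1 i hi).1, (h1 i hi).2⟩, h2, h3⟩, fun h => ?_⟩
    unfold SizeBad at h hsize'
    rw [part_of_forall hc0 hcsm.2, hpre] at h
    refine hsize' (lt_of_lt_of_le h ?_)
    rw [← hpre]
    have hd : c ∣ part n' fun r => lam (r : ℝ) ≤ 0.45 * P.L := by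
      refine Nat.Coprime.dvd_of_dvd_mul_right
        (n := part n' fun r => ¬ lam (r : ℝ) ≤ 0.45 * P.L) ?_ ?_
      · exact Nat.coprime_of_dvd fun p hp h1 h2 =>
          (prime_dvd_part hp h2).2 (hcsm.2 p (Nat.mem_primeFactors.2 ⟨hp, h1, hc0⟩))
      · rw [part_mul_compl hn'0]; exact dvd_mul_left c _
    exact_mod_cast Nat.le_of_dvd (Nat.totient_pos.2 (Nat.pos_of_ne_zero (part_ne_zero _ _)))
      (Nat.totient_dvd_of_dvd hd)
  have htail : P.TailGood m := tailGood_of hb hm0 hpre hcsm hbadc
  -- the representation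
  set x : Fin (P.K - 1) → ℕ := fun i => f (i + 1) with hx
  have hprof : ∀ i, 1 ≤ i → P.profile (P.tailB m) (P.coord x) i = P.clipX (g i) := by
    intro i hi
    unfold Params.profile
    by_cases h : i < P.K
    · rw [dif_pos ⟨hi, h⟩]
      simp only [hg, if_pos h, coord, hx]
      rw [show i - 1 + 1 = i by omega]
    · rw [dif_neg (fun hh => h hh.2), if_neg (by omega), P.tailB_eq (by omega)]
      simp only [hg, if_neg h]
      rfl
  have hprof0 : ∀ i, P.clipX (g i) ≤ P.profile (P.tailB m) (P.coord x) i := by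
    intro i
    rcases Nat.eq_zero_or_pos i with h | h
    · rw [h, profile_zero]; exact P.clipX_le_one _
    · exact (hprof i h).ge
  have heta : P.etap ≤ P.eta := by
    unfold Params.etap Params.eta
    exact div_le_div_of_nonneg_left zero_le_one (by positivity)
      (pow_le_pow_right₀ (by norm_num) (by omega))
  have heta0 : 0 ≤ P.eta := by unfold Params.eta; positivity
  refine ⟨f 0, x, m, hfp 0 hM0, not_not.1 fun h => hab ⟨f 0, (hf.mem 0 hM0).1, (hf.mem 0 hM0).2, h⟩,
    ?_, hsm.2 _ (hf.mem 0 hM0).1, fun i => ?_, fun i => ?_, htail, fun i hi => ⟨?_, ?_⟩, ?_⟩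
  · have : lam (rt : ℝ) ≤ lam (f 0 : ℝ) := by
      rcases Nat.eq_zero_or_pos t0 with h | h
      · rw [← e0, h]
      · rw [← e0]; exact lam_mono (hf.two_le ht0) (hf.lt h ht0).le
    linarith
  · rcases Nat.lt_or_ge (i + 1 : ℕ) M with h | h
    · right
      exact ⟨hfp _ h, (hf.mem _ h).2, hsm.2 _ (hf.mem _ h).1,
        not_not.1 fun hh => hab ⟨_, (hf.mem _ h).1, (hf.mem _ h).2, hh⟩⟩
    · exact Or.inl (hf.pad _ h)
  · rcases Nat.lt_or_ge (i + 1 : ℕ) M with h | h
    · exact (hf.lt (Nat.succ_pos _) h).le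
    · exact (hf.pad _ h).le.trans (hfp 0 hM0).one_le
  · unfold Params.slack
    have hw := hwin i (P.K' - i) (Nat.sub_le _ _)
    have := hb.window_etap
    have := hprof0 i
    rw [Finset.sum_congr rfl fun j hj => by
      rw [hprof (i + j) (by rw [Finset.mem_Ioo] at hj; omega)]]
    linarith
  · rw [hprof (i + 1) (by omega)]
    have := hgs.clipX_anti hL i
    have := hprof0 i
    linarith
  · rw [hphi]
    congr 1
    rw [Finset.prod_image hinj, prefW, Fin.prod_univ_eq_prod_range (fun i => Nat.totient (f (i + 1)))]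
    rw [← Nat.totient_prime (hfp 0 hM0), mul_comm (Nat.totient (f 0)),
      ← Finset.prod_range_succ' (fun i => Nat.totient (f i)), show P.K - 1 + 1 = P.K by omega,
      ← Finset.prod_subset (Finset.range_mono (show k ≤ P.K by omega)) fun t ht htk => by
        rw [Finset.mem_range] at ht htk
        rw [hf.pad t (by omega), Nat.totient_one]]
    exact Finset.prod_congr rfl fun t ht =>
      (Nat.totient_prime (hfp t (by rw [Finset.mem_range] at ht; omega))).symm

end Params

end Vale.Agent.P031
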