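import Vale.Agent.P031.Values

/-!
# P031 Q2, section 3: the heavy values are negligible
-/

open scoped Classical
open Finset Real Filter

noncomputable section

namespace Vale.Agent.P031

theorem two_pow_le_rpow {L : ℝ} (hL : 1 ≤ L) {K : ℕ} (hK : (K : ℝ) ≤ Real.log L / 250) (n : ℕ) :
    (2 : ℝ) ^ (n * K) ≤ L ^ ((n : ℝ) / 250) := by
  rw [Real.rpow_def_of_pos (by linarith), ← Real.exp_log (show (0 : ℝ) < 2 ^ (n * K) by positivity),
    Real.log_pow]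
  refine Real.exp_le_exp.2 ?_
  have h2 : Real.log 2 ≤ 1 := (Real.log_le_sub_one_of_pos (by norm_num)).trans (by norm_num)
  push_cast
  have hn : (0 : ℝ) ≤ (n : ℝ) * K := by positivity
  calc (n : ℝ) * K * Real.log 2 ≤ (n : ℝ) * K * 1 := mul_le_mul_of_nonneg_left h2 hn
    _ ≤ (n : ℝ) * (Real.log L / 250) := by
        rw [mul_one]; exact mul_le_mul_of_nonneg_left hK (Nat.cast_nonneg n)
    _ = _ := by ring

theorem val_eventually (C : ℝ) (hC : 0 ≤ C) : ∃ L0 : ℝ, ∀ P : Params, P.Admissible → L0 ≤ P.L →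
    ValBig P ∧ C * P.valErr + 3 * Real.log P.L + P.L ^ (0.7 : ℝ) + 1 ≤ P.etap * P.L / 4 := by
  have hpow := tendsto_pow_const_div_const_pow_of_one_lt 3 (show (1 : ℝ) < 8 by norm_num)
  have hev : ∀ᶠ K : ℕ in atTop, (K : ℝ) ^ 3 / 8 ^ K ≤ 1 / (16 * 8000 * (C + 1)) :=
    hpow.eventually_le_const (by positivity)
  obtain ⟨K0, hK0⟩ := Filter.eventually_atTop.1 hev
  have hbig : ∀ᶠ L : ℝ in atTop,
      (8 * (10 ^ 10 * (C + 1) + 400) ≤ L ^ (0.2 : ℝ)) ∧ 10000 ≤ L ^ (0.2 : ℝ) ∧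
      1000 * (K0 : ℝ) ≤ Real.log L ∧ 1 ≤ L :=
    ((tendsto_rpow_atTop (by norm_num)).eventually_ge_atTop _).and
      (((tendsto_rpow_atTop (by norm_num)).eventually_ge_atTop _).and
        ((Real.tendsto_log_atTop.eventually_ge_atTop _).and (eventually_ge_atTop 1)))
  obtain ⟨L0, hL0⟩ := Filter.eventually_atTop.1 hbig
  refine ⟨L0, fun P hP hPL => ?_⟩
  obtain ⟨hb1, hb2, hlogL, hL1⟩ := hL0 P.L hPL
  obtain ⟨hK1, hKu, hKl⟩ := hP
  have hL0' : (0 : ℝ) < P.L := by linarith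
  have hKK : K0 ≤ P.K := by
    have : (K0 : ℝ) ≤ (P.K : ℝ) := by linarith
    exact_mod_cast this
  have hlog100 : Real.log P.L ≤ 100 * P.L ^ (0.01 : ℝ) := by
    have := Real.log_le_rpow_div hL0'.le (show (0 : ℝ) < 0.01 by norm_num)
    linarith [show P.L ^ (0.01 : ℝ) / 0.01 = 100 * P.L ^ (0.01 : ℝ) by ring]
  have h17 : P.L ^ (0.932 : ℝ) ≤ P.Te := by
    have h := two_pow_le_rpow hL1 hKu 17
    unfold Params.Te
    calc P.L ^ (0.932 : ℝ) = P.L / P.L ^ (((17 : ℕ) : ℝ) / 250) := by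
          rw [eq_div_iff (by positivity), ← Real.rpow_add hL0']; norm_num
      _ ≤ _ := div_le_div_of_nonneg_left hL0'.le (by positivity) h
  have h14 : P.L ^ (0.9 : ℝ) ≤ P.etap * P.L := by
    have h := two_pow_le_rpow hL1 hKu 14
    unfold Params.etap
    calc P.L ^ (0.9 : ℝ) ≤ P.L ^ (0.944 : ℝ) := Real.rpow_le_rpow_of_exponent_le hL1 (by norm_num)
      _ = P.L / P.L ^ (((14 : ℕ) : ℝ) / 250) := by
          rw [eq_div_iff (by positivity), ← Real.rpow_add hL0']; norm_num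
      _ ≤ P.L / 2 ^ (14 * P.K) := div_le_div_of_nonneg_left hL0'.le (by positivity) h
      _ = _ := by ring
  have hK'log : (P.K' : ℝ) ≤ 20 * Real.log P.L := by
    unfold Params.K'; push_cast
    have : 0 ≤ Real.log P.L := Real.log_nonneg hL1
    linarith
  have hmono : ∀ a b : ℝ, a ≤ b → P.L ^ a ≤ P.L ^ b := fun a b h =>
    Real.rpow_le_rpow_of_exponent_le hL1 h
  have h02 : P.L ^ (0.2 : ℝ) * P.L ^ (0.01 : ℝ) ≤ P.L ^ (0.932 : ℝ) := by
    rw [← Real.rpow_add hL0']; exact hmono _ _ (by norm_num)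
  have h001 : 1 ≤ P.L ^ (0.01 : ℝ) := Real.one_le_rpow hL1 (by norm_num)
  have hTeBig : 10000 * P.L ^ (0.01 : ℝ) ≤ P.Te :=
    ((mul_le_mul_of_nonneg_right hb2 (by linarith)).trans h02).trans h17
  refine ⟨⟨hK1, hL1, by linarith, by linarith⟩, ?_⟩
  -- the terms in Te and theta
  have hsmall := hK0 P.K hKK
  have hKT : (P.K' : ℝ) ^ 3 * P.Te ≤ P.etap * P.L / (16 * (C + 1)) ∧
      (P.K' : ℝ) ^ 3 * (P.theta * P.L) ≤ P.etap * P.L / (16 * (C + 1)) := by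
    have h8 : (P.K : ℝ) ^ 3 * 8000 / 8 ^ P.K ≤ 1 / (16 * (C + 1)) := by
      calc _ = 8000 * ((P.K : ℝ) ^ 3 / 8 ^ P.K) := by ring
        _ ≤ 8000 * (1 / (16 * 8000 * (C + 1))) := by gcongr
        _ = _ := by field_simp
    have h83 : (8 : ℝ) ^ P.K = 2 ^ (3 * P.K) := by rw [pow_mul]; norm_num
    have e17 : (2 : ℝ) ^ (17 * P.K) = 2 ^ (3 * P.K) * 2 ^ (14 * P.K) := by
      rw [← pow_add]; congr 1; omega
    have e20 : (2 : ℝ) ^ (20 * P.K) = 2 ^ (3 * P.K) * 2 ^ (14 * P.K) * 2 ^ (3 * P.K) := by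
      rw [← pow_add, ← pow_add]; congr 1; omega
    have hK3 : ((P.K' : ℝ)) ^ 3 = (P.K : ℝ) ^ 3 * 8000 := by
      unfold Params.K'; push_cast; ring
    have hmain : (P.K' : ℝ) ^ 3 * P.Te ≤ P.etap * P.L / (16 * (C + 1)) := by
      calc _ = ((P.K : ℝ) ^ 3 * 8000 / 8 ^ P.K) * (P.etap * P.L) := by
            rw [hK3, h83]; unfold Params.Te Params.etap; rw [e17]; field_simp
        _ ≤ 1 / (16 * (C + 1)) * (P.etap * P.L) :=
            mul_le_mul_of_nonneg_right h8 (by unfold Params.etap; positivity)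
        _ = _ := by ring
    refine ⟨hmain, le_trans (mul_le_mul_of_nonneg_left ?_ (by positivity)) hmain⟩
    unfold Params.theta Params.Te
    rw [div_mul_eq_mul_div, one_mul]
    exact div_le_div_of_nonneg_left hL0'.le (by positivity)
      (pow_le_pow_right₀ (by norm_num) (by omega))
  -- the term in J
  have hJ : (P.K' : ℝ) ^ 3 * (P.J : ℝ) ≤ 10 ^ 10 * P.L ^ (0.7 : ℝ) := by
    have hK3 : (P.K' : ℝ) ^ 3 ≤ (2000 * P.L ^ (0.01 : ℝ)) ^ 3 :=
      pow_le_pow_left₀ (Nat.cast_nonneg _) (by linarith) 3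
    have hJ' : (P.J : ℝ) ≤ P.L ^ (((18 : ℕ) : ℝ) / 250) := by
      have := two_pow_le_rpow hL1 hKu 18
      unfold Params.J; push_cast; exact this
    calc _ ≤ (2000 * P.L ^ (0.01 : ℝ)) ^ 3 * P.L ^ (((18 : ℕ) : ℝ) / 250) :=
          mul_le_mul hK3 hJ' (Nat.cast_nonneg _) (by positivity)
      _ = 8 * 10 ^ 9 * P.L ^ ((0.01 : ℝ) * (3 : ℕ) + ((18 : ℕ) : ℝ) / 250) := by
          rw [Real.rpow_add hL0', Real.rpow_mul hL0'.le, Real.rpow_natCast]; ring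
      _ ≤ 10 ^ 10 * P.L ^ (0.7 : ℝ) := by
          refine mul_le_mul (by norm_num) (hmono _ _ (by norm_num)) (by positivity) (by norm_num)
  have hR : (10 ^ 10 * (C + 1) + 400) * P.L ^ (0.7 : ℝ) ≤ P.etap * P.L / 8 := by
    have h1 : P.L ^ (0.2 : ℝ) * P.L ^ (0.7 : ℝ) = P.L ^ (0.9 : ℝ) := by
      rw [← Real.rpow_add hL0']; norm_num
    have := mul_le_mul_of_nonneg_right hb1 (show (0 : ℝ) ≤ P.L ^ (0.7 : ℝ) by positivity)
    rw [h1] at this
    linarith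
  have h07 : 1 ≤ P.L ^ (0.7 : ℝ) := Real.one_le_rpow hL1 (by norm_num)
  have hlog7 : 3 * Real.log P.L ≤ 300 * P.L ^ (0.7 : ℝ) := by
    linarith [hmono 0.01 0.7 (by norm_num)]
  have hC1 : 0 < C + 1 := by linarith
  have hA := mul_le_mul_of_nonneg_left (add_le_add hKT.1 hKT.2) hC
  have hB := mul_le_mul_of_nonneg_left hJ hC
  have hfr : C * (P.etap * P.L / (16 * (C + 1)) + P.etap * P.L / (16 * (C + 1)))
      ≤ P.etap * P.L / 8 := by
    have e : P.etap * P.L / 8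
        = (C + 1) * (P.etap * P.L / (16 * (C + 1)) + P.etap * P.L / (16 * (C + 1))) := by
      field_simp; ring
    rw [e]
    exact mul_le_mul_of_nonneg_right (by linarith)
      (by unfold Params.etap; positivity)
  unfold Params.valErr
  linarith

/-- Heavy values have negligible weight. -/
theorem heavy_weight_small : ∃ L0 : ℝ, ∀ P : Params, P.Admissible → L0 ≤ P.L → ∀ mu lo : ℝ,
    P.etap * P.L / 4 ≤ mu → ∀ S : Finset ℕ, (∀ w ∈ S, HeavyValue P mu lo w) →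
    ∑ w ∈ S, (1 : ℝ) / w ≤ Real.exp (-(P.L ^ (0.7 : ℝ))) := by
  obtain ⟨C, hC, h⟩ := heavy_weight_le
  obtain ⟨L0, h0⟩ := val_eventually C hC
  refine ⟨max L0 1, fun P hP hL mu lo hmu S hS => ?_⟩
  obtain ⟨hb, herr⟩ := h0 P hP ((le_max_left _ _).trans hL)
  refine (h P hb mu lo S hS).trans (Real.exp_le_exp.2 ?_)
  have : 0 ≤ Real.log P.L := Real.log_nonneg ((le_max_right _ _).trans hL)
  linarith

/-- The number of heavy values up to `y` is negligible. -/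
theorem heavy_count_small : ∃ L0 : ℝ, ∀ P : Params, P.Admissible → L0 ≤ P.L → ∀ mu : ℝ,
    P.etap * P.L / 4 ≤ mu → ∀ y : ℝ, Real.exp (Real.exp P.L) ≤ y → lam y ≤ P.L + 1 →
    ∀ S : Finset ℕ, (∀ w ∈ S, HeavyValue P mu (P.L - 3 * Real.log P.L) w ∧ (w : ℝ) ≤ y) →
    (S.card : ℝ) ≤ y / Real.exp P.L * Real.exp (-(P.L ^ (0.7 : ℝ))) := by
  obtain ⟨C, hC, h⟩ := heavy_card_le
  obtain ⟨L0, h0⟩ := val_eventually C hC
  refine ⟨L0, fun P hP hL mu hmu y hy hly S hS => ?_⟩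
  obtain ⟨hb, herr⟩ := h0 P hP hL
  refine (h P hb mu _ y hy hly S hS).trans (mul_le_mul_of_nonneg_left (Real.exp_le_exp.2 ?_) ?_)
  · linarith
  · exact div_nonneg ((Real.exp_pos _).le.trans hy) (Real.exp_pos _).le

end Vale.Agent.P031
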