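import Mathlib
import Vale.Agent.P031.RepLevels
import Vale.Agent.P031.ValuesSmall
import Vale.Agent.P031.Normal
import Vale.Agent.P031.Assemble.Facts
import Vale.Agent.P031.Crude

/-!
# P031 Q2, section 5: exceptional tails carry negligible weight
-/

open Filter
open scoped Classical
noncomputable section

namespace Vale.Agent.P031

open Assemble

/-- The crude bound on the mass of totient values of bounded scale, as used here. -/
def CrudeBound : Prop :=
  ∃ C : ℝ, 0 ≤ C ∧ ∀ s : ℝ, 3 ≤ s → ∀ S : Finset ℕ, (∀ m ∈ S, m ∈ smoothValues s) →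
    ∑ m ∈ S, (1 : ℝ) / m ≤ Real.exp (C * Real.log s ^ 2)

theorem eventually_sq_gap : ∀ᶠ L : ℝ in atTop, ∀ x : ℝ, L ^ (0.9 : ℝ) ≤ x →
    3 * L ≤ Real.exp x := by
  filter_upwards [(tendsto_rpow_atTop (show (0 : ℝ) < 0.8 by norm_num)).eventually_ge_atTop 6,
    eventually_ge_atTop (1 : ℝ)] with L h6 h1 x hx
  have hL0 : 0 < L := by linarith
  have hx0 : 0 ≤ x := (Real.rpow_nonneg hL0.le _).trans hx
  have hsq : L * L ^ (0.8 : ℝ) ≤ x * x := by
    have h := mul_le_mul hx hx (Real.rpow_nonneg hL0.le _) hx0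
    rw [← Real.rpow_add hL0] at h
    calc L * L ^ (0.8 : ℝ) = L ^ (1 : ℝ) * L ^ (0.8 : ℝ) := by rw [Real.rpow_one]
      _ = L ^ ((0.9 : ℝ) + 0.9) := by rw [← Real.rpow_add hL0]; norm_num
      _ ≤ x * x := h
  have := Real.quadratic_le_exp_of_nonneg hx0
  nlinarith

theorem eventually_repBig : ∃ L0 : ℝ, ∀ P : Params, P.Admissible → L0 ≤ P.L →
    P.RepBig ∧ P.L ^ (0.9 : ℝ) ≤ P.Te := by
  obtain ⟨L1, h1⟩ := eventually_K_ge 16
  obtain ⟨L2, h2⟩ := eventually_atTop.1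
    ((tendsto_rpow_atTop (show (0 : ℝ) < 0.9 by norm_num)).eventually_ge_atTop 2)
  obtain ⟨L3, h3⟩ := eventually_atTop.1 (Real.isLittleO_log_id_atTop.def (show (0 : ℝ) < 1 / 6 by norm_num))
  refine ⟨max (max L1 L2) (max L3 100), fun P hP hL => ?_⟩
  simp only [max_le_iff] at hL
  obtain ⟨⟨hL1, hL2⟩, hL3, hL100⟩ := hL
  have hK := h1 P hL1 hP
  have hTe : P.L ^ (0.9 : ℝ) ≤ P.Te := by
    refine le_trans ?_ (rpow_le_div_two_pow hP (by linarith) 17)
    exact Real.rpow_le_rpow_of_exponent_le (by linarith) (by norm_num)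
  have hep : P.L ^ (0.9 : ℝ) ≤ P.etap * P.L := by
    rw [Params.etap, div_mul_eq_mul_div, one_mul]
    refine le_trans ?_ (rpow_le_div_two_pow hP (by linarith) 14)
    exact Real.rpow_le_rpow_of_exponent_le (by linarith) (by norm_num)
  have h2' := h2 P.L hL2
  have h3' := h3 P.L hL3
  rw [Real.norm_eq_abs, Real.norm_eq_abs, id_eq, abs_of_pos (by linarith : (0 : ℝ) < P.L),
    abs_of_nonneg (Real.log_nonneg (by linarith))] at h3'
  have hTe2 : P.Te ≤ P.L / 4 := by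
    unfold Params.Te
    refine div_le_div_of_nonneg_left (by linarith) (by norm_num) ?_
    calc (4 : ℝ) = 2 ^ 2 := by norm_num
      _ ≤ 2 ^ (17 * P.K) := pow_le_pow_right₀ (by norm_num) (by omega)
  exact ⟨⟨hK, hL100, by linarith, by linarith, by linarith⟩, hTe⟩

/-- Exceptional tails are negligible. -/
theorem bad_tail_weight (hcr : CrudeBound) : ∃ L0 : ℝ, ∀ P : Params, P.Admissible → L0 ≤ P.L →
    ∀ S : Finset ℕ, (∀ m ∈ S, ∃ c, SmoothLam (P.L + 1) c ∧ Nat.totient c = m ∧ P.Bad c) →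
      ∑ m ∈ S, (1 : ℝ) / m ≤ Real.exp (-(P.L ^ (0.63 : ℝ))) := by
  obtain ⟨C, hC, haux⟩ := Params.bad_weight_aux
  obtain ⟨Cg, hCg, hG⟩ := hcr
  obtain ⟨Ln, hnorm⟩ := normal_weight
  obtain ⟨Lh, hheavy⟩ := heavy_weight_small
  obtain ⟨Lb, hbig⟩ := eventually_repBig
  obtain ⟨La, habs⟩ := eventually_atTop.1
    (eventually_absorb (4 * Cg) (3 + C) (show (0.63 : ℝ) < 0.65 by norm_num) (by norm_num))
  obtain ⟨Ls, hsq⟩ := eventually_atTop.1 eventually_sq_gap
  obtain ⟨Lt, htw⟩ := eventually_atTop.1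
    (((tendsto_rpow_atTop (show (0 : ℝ) < 0.1 by norm_num)).eventually_ge_atTop 20).and
      (eventually_ge_atTop C))
  refine ⟨max (max (max Ln Lh) (max Lb La)) (max Ls Lt), fun P hP hL S hS => ?_⟩
  simp only [max_le_iff] at hL
  obtain ⟨⟨⟨hLn, hLh⟩, hLb, hLa⟩, hLs, hLt⟩ := hL
  obtain ⟨hb, hTe⟩ := hbig P hP hLb
  obtain ⟨h20, hLC⟩ := htw P.L hLt
  have h100 := hb.L_ge
  have hL0 : 0 < P.L := by linarith
  set G := Real.exp (4 * Cg * Real.log P.L ^ 2) with hGdef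
  have hG1 : 1 ≤ G := Real.one_le_exp (by positivity)
  have hGS : ∀ S : Finset ℕ, (∀ m ∈ S, m ∈ smoothValues (P.L + 1)) →
      ∑ m ∈ S, (1 : ℝ) / m ≤ G := fun S hS => by
    refine (hG (P.L + 1) (by linarith) S hS).trans (Real.exp_le_exp.2 ?_)
    have h1 : Real.log (P.L + 1) ≤ 2 * Real.log P.L := by
      calc Real.log (P.L + 1) ≤ Real.log (P.L ^ 2) := Real.log_le_log (by linarith) (by nlinarith)
        _ = 2 * Real.log P.L := by rw [Real.log_pow]; norm_num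
    have h0 : 0 ≤ Real.log (P.L + 1) := Real.log_nonneg (by linarith)
    rw [mul_assoc, mul_left_comm]
    refine mul_le_mul_of_nonneg_left ?_ hCg
    nlinarith
  have h := haux P (by linarith) hb.Te_ge G (Real.exp (-(P.L ^ (0.65 : ℝ))))
    (Real.exp (-(P.L ^ (0.7 : ℝ)))) (by linarith) hGS (hnorm P hLn hP)
    (fun S hS => hheavy P hP hLh _ 0 (by nlinarith [hb.etap_ge]) S hS) S hS
  refine h.trans ?_
  have h65 : P.L ^ (0.65 : ℝ) ≤ P.L :=
    (Real.rpow_le_rpow_of_exponent_le (by linarith) (by norm_num)).trans_eq (Real.rpow_one _)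
  have e1 : Real.exp (P.L + C - Real.exp P.Te) ≤ Real.exp (-(P.L ^ (0.65 : ℝ))) :=
    Real.exp_le_exp.2 (by linarith [hsq P.L hLs P.Te hTe])
  have e3 : Real.exp (-(P.L ^ (0.7 : ℝ))) ≤ Real.exp (-(P.L ^ (0.65 : ℝ))) :=
    Real.exp_le_exp.2 (neg_le_neg (Real.rpow_le_rpow_of_exponent_le (by linarith) (by norm_num)))
  have e4 : Real.exp (P.L - Real.exp (P.L / 20)) ≤ Real.exp (-(P.L ^ (0.65 : ℝ))) := by
    have h9 : P.L ^ (0.9 : ℝ) ≤ P.L / 20 := by
      rw [le_div_iff₀ (by norm_num : (0 : ℝ) < 20)]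
      calc P.L ^ (0.9 : ℝ) * 20 ≤ P.L ^ (0.9 : ℝ) * P.L ^ (0.1 : ℝ) :=
            mul_le_mul_of_nonneg_left h20 (Real.rpow_nonneg hL0.le _)
        _ = P.L := by rw [← Real.rpow_add hL0]; norm_num
    exact Real.exp_le_exp.2 (by linarith [hsq P.L hLs _ h9])
  refine le_trans ?_ (habs P.L hLa)
  have hsplit : (3 + C) * Real.exp (4 * Cg * Real.log P.L ^ 2 - P.L ^ (0.65 : ℝ)) =
      (3 + C) * (G * Real.exp (-(P.L ^ (0.65 : ℝ)))) := by
    rw [hGdef, ← Real.exp_add]; ring_nf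
  rw [hsplit]
  set E := Real.exp (-(P.L ^ (0.65 : ℝ))) with hE
  have hE0 : 0 ≤ E := (Real.exp_pos _).le
  have a1 : Real.exp (P.L + C - Real.exp P.Te) ≤ G * E :=
    e1.trans (le_mul_of_one_le_left hE0 hG1)
  have a3 : G * Real.exp (-(P.L ^ (0.7 : ℝ))) ≤ G * E :=
    mul_le_mul_of_nonneg_left e3 (by linarith)
  have a4 : G * (C * Real.exp (P.L - Real.exp (P.L / 20))) ≤ C * (G * E) := by
    rw [mul_left_comm]
    exact mul_le_mul_of_nonneg_left (mul_le_mul_of_nonneg_left e4 (by linarith)) hC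
  linarith

/-- Tails of small scale are good, apart from a negligible weight. -/
theorem tail_bad_small_of (hcr : CrudeBound) : ∃ L0 : ℝ, ∀ P : Params, P.Admissible → L0 ≤ P.L →
    ∀ S : Finset ℕ, (∀ m ∈ S, m ∈ smoothValues (P.L / 3) ∧ ¬ P.TailGood m) →
      ∑ m ∈ S, (1 : ℝ) / m ≤ Real.exp (-(P.L ^ (0.6 : ℝ))) := by
  obtain ⟨L1, h1⟩ := bad_tail_weight hcr
  obtain ⟨L2, h2⟩ := eventually_repBig
  refine ⟨max L1 L2, fun P hP hL S hS => ?_⟩
  obtain ⟨hL1, hL2⟩ := max_le_iff.1 hL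
  obtain ⟨hb, -⟩ := h2 P hP hL2
  have hL0 := hb.L_ge
  refine (h1 P hP hL1 S fun m hm => ?_).trans (Real.exp_le_exp.2 (neg_le_neg
    (Real.rpow_le_rpow_of_exponent_le (by linarith) (by norm_num))))
  obtain ⟨⟨n, hn, hnm⟩, hbad⟩ := hS m hm
  have hm0 : m ≠ 0 := fun h => hn.1 (Nat.totient_eq_zero.1 (hnm.trans h))
  have hc : SmoothLam (0.45 * P.L) (canon m) := by
    refine ⟨canon_ne_zero hnm hm0, fun r hr => ?_⟩
    have hle : r ≤ maxPrime n := (le_maxPrime hr).trans (maxPrime_canon_le hnm)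
    have hne : n.primeFactors.Nonempty := by
      by_contra h
      rw [Finset.not_nonempty_iff_eq_empty] at h
      rw [maxPrime, h, Finset.sup_empty] at hle
      exact (Nat.prime_of_mem_primeFactors hr).ne_zero (Nat.le_zero.1 hle)
    exact ((lam_mono (Nat.prime_of_mem_primeFactors hr).two_le hle).trans
      (hn.2 _ (maxPrime_mem hne))).trans (by linarith)
  exact ⟨canon m, ⟨hc.1, fun r hr => (hc.2 r hr).trans (by linarith)⟩, totient_canon hnm,
    not_not.1 fun hnb => hbad (Params.tailGood_of hb hm0 (totient_canon hnm) hc hnb)⟩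

/-- The crude bound holds. -/
theorem crudeBound : CrudeBound := by
  obtain ⟨C, hC⟩ := valueMass_crude
  refine ⟨max C 0, le_max_right _ _, fun s hs S hS =>
    ((sum_inv_le_valueMass s S hS).trans (hC s hs)).trans (Real.exp_le_exp.2 ?_)⟩
  exact mul_le_mul_of_nonneg_right (le_max_left _ _) (sq_nonneg _)

/-- Tails of small scale are good, apart from a negligible weight. -/
theorem tail_bad_small : ∃ L0 : ℝ, ∀ P : Params, P.Admissible → L0 ≤ P.L →
    ∀ S : Finset ℕ, (∀ m ∈ S, m ∈ smoothValues (P.L / 3) ∧ ¬ P.TailGood m) →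
      ∑ m ∈ S, (1 : ℝ) / m ≤ Real.exp (-(P.L ^ (0.6 : ℝ))) :=
  tail_bad_small_of crudeBound

end Vale.Agent.P031
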