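import Vale.Agent.P031.RepDefs
import Vale.Agent.P031.Geometry
import Vale.Agent.P031.Assemble.Cell
import Vale.Agent.P031.Assemble.Facts

/-!
# P031 Q2, section 6: prime tuples against volumes

The unit cube is cut into cells of side `etap`. A cell carries weight `(L etap + O(1)) ^ (K - 1)`,
and moving a point inside a cell changes slacks and gaps by at most `2 eta`.
-/

open MeasureTheory Finset
open scoped Classical
noncomputable section

namespace Vale.Agent.P031.Assemble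

variable {P : Params} {b : ℕ → ℝ}

/-! ## Weights -/

theorem one_div_prefW {k : ℕ} (x : Fin k → ℕ) :
    (1 : ℝ) / (prefW x : ℝ) = ∏ i, (1 : ℝ) / (Nat.totient (x i) : ℝ) := by
  rw [prefW, Nat.cast_prod, one_div, ← Finset.prod_inv_distrib]
  exact Finset.prod_congr rfl fun i _ => (one_div _).symm

/-! ## Perturbations -/

theorem abs_profile_sub_le {h : ℝ} (hh : 0 ≤ h) {x y : Fin (P.K - 1) → ℝ}
    (hxy : ∀ k, |x k - y k| ≤ h) (i : ℕ) :
    |P.profile b x i - P.profile b y i| ≤ h := by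
  by_cases hi : 1 ≤ i ∧ i < P.K
  · simp only [Params.profile, dif_pos hi]; exact hxy _
  · simp only [Params.profile, dif_neg hi, sub_self, abs_zero]; exact hh

theorem abs_slack_sub_le (hK : 1 ≤ P.K) {h : ℝ} (hh : 0 ≤ h) {x y : Fin (P.K - 1) → ℝ}
    (hxy : ∀ k, |x k - y k| ≤ h) (i : ℕ) :
    |P.slack (P.profile b x) i - P.slack (P.profile b y) i| ≤ (1 + (P.K : ℝ) ^ 2) * h := by
  rw [← Params.slack_sub, Params.slack]
  set u : ℕ → ℝ := fun k => P.profile b x k - P.profile b y k with hu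
  have hb : ∀ k, |u k| ≤ h := fun k => abs_profile_sub_le hh hxy k
  refine (abs_sub _ _).trans ?_
  rw [add_mul, one_mul]
  refine add_le_add (hb i) ((Finset.abs_sum_le_sum_abs _ _).trans ?_)
  calc ∑ j ∈ Ioo 0 (P.K' - i), |fordA j * u (i + j)|
      = ∑ j ∈ (Ioo 0 (P.K' - i)).filter (fun j => i + j < P.K), |fordA j * u (i + j)| := by
        refine (sum_subset (filter_subset _ _) fun j hj hnj => ?_).symm
        have hge : P.K ≤ i + j := by
          by_contra hlt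
          exact hnj (mem_filter.2 ⟨hj, by omega⟩)
        simp [hu, P.profile_of_ge hK hge]
    _ ≤ ∑ j ∈ (Ioo 0 (P.K' - i)).filter (fun j => i + j < P.K), (P.K : ℝ) * h := by
        refine sum_le_sum fun j hj => ?_
        obtain ⟨hj1, hj2⟩ := mem_filter.1 hj
        have hj0 : 1 ≤ j := (mem_Ioo.1 hj1).1
        have ha : fordA j ≤ (P.K : ℝ) := by
          refine (fordA_le_log j).trans ?_
          have := Real.log_le_sub_one_of_pos (show (0 : ℝ) < (j : ℝ) + 1 by positivity)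
          have : (j : ℝ) ≤ P.K := by exact_mod_cast (show j ≤ P.K by omega)
          linarith
        rw [abs_mul, abs_of_nonneg (fordA_nonneg hj0)]
        exact mul_le_mul ha (hb _) (abs_nonneg _) (Nat.cast_nonneg _)
    _ ≤ (P.K : ℝ) ^ 2 * h := by
        rw [sum_const, nsmul_eq_mul, sq, mul_assoc (P.K : ℝ)]
        refine mul_le_mul_of_nonneg_right ?_ (by positivity)
        have : ((Ioo 0 (P.K' - i)).filter (fun j => i + j < P.K)).card ≤ P.K := by
          refine (card_le_card (t := Finset.range P.K) fun j hj => ?_).trans (card_range _).le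
          have := (mem_filter.1 hj).2
          exact Finset.mem_range.2 (by omega)
        exact_mod_cast this

theorem abs_gap_sub_le {h : ℝ} (hh : 0 ≤ h) {x y : Fin (P.K - 1) → ℝ}
    (hxy : ∀ k, |x k - y k| ≤ h) (i : ℕ) :
    |(P.profile b x i - P.profile b x (i + 1)) - (P.profile b y i - P.profile b y (i + 1))|
      ≤ 2 * h := by
  have h1 := abs_le.1 (abs_profile_sub_le (b := b) hh hxy i)
  have h2 := abs_le.1 (abs_profile_sub_le (b := b) hh hxy (i + 1))
  rw [abs_le]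
  constructor <;> linarith

/-- A move of `etap` costs at most `2 eta`. -/
theorem move_le (hK : 1 ≤ P.K) :
    (1 + (P.K : ℝ) ^ 2) * P.etap ≤ 2 * P.eta ∧ 2 * P.etap ≤ 2 * P.eta := by
  rw [Params.eta_eq, Params.etap_eq]
  have hKZ : (P.K : ℝ) ≤ (2 : ℝ) ^ P.K := Params.cast_le_two_pow _
  have hZ : (2 : ℝ) ≤ (2 : ℝ) ^ P.K :=
    le_self_pow₀ (by norm_num) (by omega)
  set Z : ℝ := (2 : ℝ) ^ P.K
  have hZ8 : Z ^ 2 ≤ Z ^ 8 := pow_le_pow_right₀ (by linarith) (by norm_num)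
  have h1 : (1 : ℝ) ≤ Z ^ 8 := one_le_pow₀ (by linarith)
  have h2 : (P.K : ℝ) ^ 2 ≤ Z ^ 8 := (pow_le_pow_left₀ (Nat.cast_nonneg _) hKZ 2).trans hZ8
  have e : Z ^ 8 * (1 / Z ^ 14) = 1 / Z ^ 6 := by field_simp
  have hp : 0 ≤ 1 / Z ^ 14 := by positivity
  constructor <;> nlinarith

theorem mem_pplus_of_close (hK : 1 ≤ P.K) {e : ℝ} {x y : Fin (P.K - 1) → ℝ}
    (hxy : ∀ k, |x k - y k| ≤ P.etap) (hx : x ∈ P.PPlus e b) :
    y ∈ P.PPlus (e + 2 * P.eta) b := by
  intro i hi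
  obtain ⟨m1, m2⟩ := move_le hK
  have h1 := abs_le.1 (abs_slack_sub_le (b := b) hK Params.etap_pos.le hxy i)
  have h2 := abs_le.1 (abs_gap_sub_le (b := b) Params.etap_pos.le hxy i)
  obtain ⟨g1, g2⟩ := hx i hi
  constructor <;> linarith

theorem mem_pminus_of_close (hK : 1 ≤ P.K) {e : ℝ} {x y : Fin (P.K - 1) → ℝ}
    (hxy : ∀ k, |x k - y k| ≤ P.etap) (hx : x ∈ P.PMinus (e + 2 * P.eta) b) :
    y ∈ P.PMinus e b := by
  intro i hi
  obtain ⟨m1, m2⟩ := move_le hK
  have h1 := abs_le.1 (abs_slack_sub_le (b := b) hK Params.etap_pos.le hxy i)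
  have h2 := abs_le.1 (abs_gap_sub_le (b := b) Params.etap_pos.le hxy i)
  obtain ⟨g1, g2⟩ := hx i hi
  constructor <;> linarith

/-! ## Boundedness -/

theorem profile_bounds (hK : 1 ≤ P.K) {x : Fin (P.K - 1) → ℝ} {d : ℝ}
    (hgap : ∀ i < P.K, d ≤ P.profile b x i - P.profile b x (i + 1)) {i : ℕ} (hi : i ≤ P.K) :
    P.profile b x i ≤ 1 - (i : ℝ) * d ∧
      b P.K + ((P.K : ℝ) - i) * d ≤ P.profile b x i := by
  constructor
  · induction i with
    | zero => simp [Params.profile_zero]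
    | succ n ih =>
      have := ih (by omega)
      have := hgap n (by omega)
      push_cast
      linarith
  · have H : ∀ m, m ≤ P.K → b P.K + (m : ℝ) * d ≤ P.profile b x (P.K - m) := by
      intro m
      induction m with
      | zero => intro _; simp [P.profile_of_ge hK le_rfl]
      | succ n ih =>
        intro hn
        have h1 := ih (by omega)
        have h2 := hgap (P.K - (n + 1)) (by omega)
        rw [show P.K - (n + 1) + 1 = P.K - n by omega] at h2
        push_cast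
        linarith
    have := H (P.K - i) (Nat.sub_le _ _)
    rwa [show P.K - (P.K - i) = i by omega, Nat.cast_sub hi] at this

theorem tail_start_nonneg (hK : 1 ≤ P.K) (hb : P.TailOk b) : 0 ≤ b P.K :=
  hb.nonneg P.K le_rfl (by rw [Params.K'_eq]; omega)

theorem pplus_subset_Icc (hK : 16 ≤ P.K) (hb : P.TailOk b) {e : ℝ} (he : e ≤ 16 * P.eta) :
    P.PPlus e b ⊆ Set.Icc (fun _ : Fin (P.K - 1) => (-1 : ℝ)) (fun _ => 2) := by
  intro x hx
  have hKe : (P.K : ℝ) * (16 * P.eta) ≤ 1 := by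
    rw [Params.eta_eq]
    have hKZ : (P.K : ℝ) ≤ (2 : ℝ) ^ P.K := Params.cast_le_two_pow _
    have hZ : (2 : ℝ) ^ 16 ≤ (2 : ℝ) ^ P.K := pow_le_pow_right₀ (by norm_num) hK
    set Z : ℝ := (2 : ℝ) ^ P.K
    have hZ0 : 0 < Z := by positivity
    have h16 : (16 : ℝ) ≤ Z ^ 5 :=
      le_trans (by linarith) (le_self_pow₀ (by linarith) (by norm_num))
    calc (P.K : ℝ) * (16 * (1 / Z ^ 6)) ≤ Z * (16 * (1 / Z ^ 6)) :=
          mul_le_mul_of_nonneg_right hKZ (by positivity)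
      _ = 16 / Z ^ 5 := by field_simp
      _ ≤ 1 := (div_le_one (by positivity)).2 h16
  have key : ∀ k : Fin (P.K - 1), -1 ≤ x k ∧ x k ≤ 2 := by
    intro k
    have hk : k.val + 1 < P.K := by have := k.isLt; omega
    have hgap : ∀ i < P.K, -(16 * P.eta) ≤ P.profile b x i - P.profile b x (i + 1) :=
      fun i hi => le_trans (by linarith) (hx i hi).2
    obtain ⟨h1, h2⟩ := profile_bounds (by omega) hgap hk.le
    rw [P.profile_mid (by omega) hk] at h1 h2
    have hc : ((k.val + 1 : ℕ) : ℝ) ≤ P.K := by exact_mod_cast hk.le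
    have hc0 : (0 : ℝ) ≤ ((k.val + 1 : ℕ) : ℝ) := Nat.cast_nonneg _
    have he16 : 0 ≤ 16 * P.eta := by linarith [Params.eta_pos (P := P)]
    have hb0 := tail_start_nonneg (by omega) hb
    have hm := mul_le_mul_of_nonneg_right hc he16
    have hm0 := mul_nonneg hc0 he16
    have hxk : x ⟨k.val + 1 - 1, by omega⟩ = x k := by simp
    rw [hxk] at h1 h2
    constructor <;> linarith
  exact ⟨fun k => (key k).1, fun k => (key k).2⟩

theorem volume_pplus_lt_top (hK : 16 ≤ P.K) (hb : P.TailOk b) {e : ℝ} (he : e ≤ 16 * P.eta) :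
    volume (P.PPlus e b) < ⊤ :=
  lt_of_le_of_lt (measure_mono (pplus_subset_Icc hK hb he)) measure_Icc_lt_top

theorem pminus_bounds (hK : 1 ≤ P.K) (hb : P.TailOk b) {e : ℝ} (he : 0 ≤ e)
    {x : Fin (P.K - 1) → ℝ} (hx : x ∈ P.PMinus e b) (k : Fin (P.K - 1)) :
    e ≤ x k ∧ x k ≤ 1 := by
  have hk : k.val + 1 < P.K := by have := k.isLt; omega
  obtain ⟨h1, h2⟩ := profile_bounds hK (fun i hi => (hx i hi).2) hk.le
  rw [P.profile_mid (by omega) hk] at h1 h2
  have hxk : x ⟨k.val + 1 - 1, by omega⟩ = x k := by simp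
  rw [hxk] at h1 h2
  have hb0 := tail_start_nonneg hK hb
  have hc : (1 : ℝ) ≤ (P.K : ℝ) - ((k.val + 1 : ℕ) : ℝ) := by
    have : ((k.val + 1 + 1 : ℕ) : ℝ) ≤ P.K := by exact_mod_cast hk
    push_cast at this ⊢
    linarith
  have hc0 : (0 : ℝ) ≤ ((k.val + 1 : ℕ) : ℝ) := Nat.cast_nonneg _
  have hm := mul_le_mul_of_nonneg_right hc he
  have hm0 := mul_nonneg hc0 he
  constructor <;> linarith

/-! ## The grid -/

/-- Index of the cell of side `1 / N` of a point of the unit interval (top point in last cell). -/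
def gridIdx (N : ℕ) (t : ℝ) : ℕ := min ⌊(N : ℝ) * t⌋₊ (N - 1)

theorem gridIdx_lt {N : ℕ} (hN : 0 < N) (t : ℝ) : gridIdx N t < N := by
  unfold gridIdx; omega

theorem gridIdx_spec {N : ℕ} {h t : ℝ} (hN : 0 < N) (hNh : (N : ℝ) * h = 1) (ht0 : 0 ≤ t)
    (ht1 : t ≤ 1) :
    (gridIdx N t : ℝ) * h ≤ t ∧ t ≤ (gridIdx N t : ℝ) * h + h := by
  have hN0 : (0 : ℝ) < N := by exact_mod_cast hN
  have hh : h = 1 / (N : ℝ) := by rw [eq_div_iff hN0.ne', mul_comm]; exact hNh
  subst hh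
  rw [mul_one_div, ← add_div, div_le_iff₀ hN0, le_div_iff₀ hN0]
  have h1 := Nat.floor_le (show 0 ≤ (N : ℝ) * t by positivity)
  have h2 := Nat.lt_floor_add_one ((N : ℝ) * t)
  have h3 : (gridIdx N t : ℝ) ≤ (⌊(N : ℝ) * t⌋₊ : ℝ) := by exact_mod_cast min_le_left _ _
  refine ⟨by linarith, ?_⟩
  by_cases h : ⌊(N : ℝ) * t⌋₊ ≤ N - 1
  · rw [gridIdx, min_eq_left h]; linarith
  · rw [gridIdx, min_eq_right (by omega), Nat.cast_sub (by omega), Nat.cast_one]
    have := mul_le_mul_of_nonneg_left ht1 hN0.le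
    linarith

theorem two_pow_mul_etap : ((2 ^ (14 * P.K) : ℕ) : ℝ) * P.etap = 1 := by
  unfold Params.etap; push_cast; field_simp

/-- Disjoint half-open cells inside a set count at most its volume. -/
theorem card_mul_le_volume {n : ℕ} (h : ℝ) (hh : 0 ≤ h) (A : Finset (Fin n → ℕ))
    (S : Set (Fin n → ℝ)) (hS : volume S < ⊤)
    (hsub : ∀ c ∈ A, ∀ y : Fin n → ℝ,
      (∀ i, (c i : ℝ) * h ≤ y i ∧ y i < (c i : ℝ) * h + h) → y ∈ S) :
    (A.card : ℝ) * h ^ n ≤ (volume S).toReal := by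
  set Q : (Fin n → ℕ) → Set (Fin n → ℝ) :=
    fun c => Set.pi Set.univ fun i => Set.Ico ((c i : ℝ) * h) ((c i : ℝ) * h + h) with hQ
  have hvol : ∀ c, volume (Q c) = ENNReal.ofReal (h ^ n) := fun c => by
    rw [hQ, Real.volume_pi_Ico, ENNReal.ofReal_pow hh]
    simp
  have hdisj : (A : Set (Fin n → ℕ)).PairwiseDisjoint Q := by
    intro c _ c' _ hne
    rw [Function.onFun, Set.disjoint_left]
    intro y hy hy'
    apply hne
    funext i
    obtain ⟨a1, a2⟩ := hy i (Set.mem_univ i)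
    obtain ⟨b1, b2⟩ := hy' i (Set.mem_univ i)
    rcases lt_trichotomy (c i) (c' i) with hl | hl | hl
    · have : (c i : ℝ) + 1 ≤ c' i := by exact_mod_cast hl
      nlinarith
    · exact hl
    · have : (c' i : ℝ) + 1 ≤ c i := by exact_mod_cast hl
      nlinarith
  have hm : volume (⋃ c ∈ A, Q c) ≤ volume S := by
    refine measure_mono (Set.iUnion₂_subset fun c hc y hy => hsub c hc y fun i => ?_)
    exact hy i (Set.mem_univ i)
  rw [measure_biUnion_finset hdisj fun c _ =>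
    MeasurableSet.univ_pi fun i => measurableSet_Ico] at hm
  simp only [hvol, sum_const, nsmul_eq_mul] at hm
  have := ENNReal.toReal_mono hS.ne hm
  rwa [ENNReal.toReal_mul, ENNReal.toReal_natCast, ENNReal.toReal_ofReal (by positivity)] at this

/-- A set covered by closed cells has volume at most their count. -/
theorem volume_le_card_mul {n : ℕ} (h : ℝ) (hh : 0 ≤ h) (A : Finset (Fin n → ℕ))
    (S : Set (Fin n → ℝ))
    (hsub : ∀ y ∈ S, ∃ c ∈ A, ∀ i, (c i : ℝ) * h ≤ y i ∧ y i ≤ (c i : ℝ) * h + h) :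
    (volume S).toReal ≤ (A.card : ℝ) * h ^ n := by
  set Q : (Fin n → ℕ) → Set (Fin n → ℝ) :=
    fun c => Set.Icc (fun i => (c i : ℝ) * h) (fun i => (c i : ℝ) * h + h) with hQ
  have hvol : ∀ c, volume (Q c) = ENNReal.ofReal (h ^ n) := fun c => by
    rw [hQ, Real.volume_Icc_pi, ENNReal.ofReal_pow hh]
    simp
  have hm : volume S ≤ volume (⋃ c ∈ A, Q c) := by
    refine measure_mono fun y hy => ?_
    obtain ⟨c, hc, hcy⟩ := hsub y hy
    exact Set.mem_iUnion₂.2 ⟨c, hc, fun i => (hcy i).1, fun i => (hcy i).2⟩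
  replace hm := hm.trans (measure_biUnion_finset_le A Q)
  simp only [hvol, sum_const, nsmul_eq_mul] at hm
  have := ENNReal.toReal_mono (ENNReal.mul_ne_top (by simp) ENNReal.ofReal_ne_top) hm
  rwa [ENNReal.toReal_mul, ENNReal.toReal_natCast, ENNReal.toReal_ofReal (by positivity)] at this

/-! ## The error factor -/

theorem eventually_cell_error (C : ℝ) (hC : 0 ≤ C) :
    ∃ L0 : ℝ, ∀ P : Params, L0 ≤ P.L → P.Admissible →
      16 ≤ P.K ∧ 0 < P.L * P.etap ∧ 1 ≤ P.L ∧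
        2 * (P.K : ℝ) * (C / (P.L * P.etap)) ≤ 1 / 2 ^ (2 * P.K) := by
  obtain ⟨L1, hL1⟩ := eventually_K_ge 16
  obtain ⟨L2, hL2⟩ := Filter.eventually_atTop.1
    ((tendsto_rpow_atTop (show (0 : ℝ) < 1 - (17 : ℕ) / 250 by norm_num)).eventually_ge_atTop
      (2 * C))
  refine ⟨max L1 (max L2 2), fun P hL hP => ?_⟩
  simp only [max_le_iff] at hL
  obtain ⟨hA, hB, h2⟩ := hL
  have hK := hL1 P hA hP
  have hL0 : 0 < P.L := by linarith
  have hpos : 0 < P.L * P.etap := mul_pos hL0 Params.etap_pos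
  refine ⟨hK, hpos, by linarith, ?_⟩
  have hbig : 2 * C ≤ P.L / 2 ^ (17 * P.K) :=
    (hL2 P.L hB).trans (rpow_le_div_two_pow hP (by linarith) 17)
  rw [le_div_iff₀ (by positivity)] at hbig
  rw [Params.etap_eq, mul_comm 2 P.K, pow_mul, mul_one_div, div_div_eq_mul_div, mul_div_assoc',
    div_le_div_iff₀ hL0 (by positivity)]
  rw [mul_comm 17 P.K, pow_mul] at hbig
  have hKZ : (P.K : ℝ) ≤ (2 : ℝ) ^ P.K := Params.cast_le_two_pow _
  set Z : ℝ := (2 : ℝ) ^ P.K
  have hZ : 1 ≤ Z := one_le_pow₀ (by norm_num)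
  calc 2 * (P.K : ℝ) * (C * Z ^ 14) * Z ^ 2 ≤ 2 * Z * (C * Z ^ 14) * Z ^ 2 := by gcongr
    _ = 2 * C * Z ^ 17 := by ring
    _ ≤ 1 * P.L := by linarith

theorem one_add_pow_le {x : ℝ} (hx : 0 ≤ x) {n : ℕ} (hn : 2 * (n : ℝ) * x ≤ 1) :
    (1 + x) ^ n ≤ 1 + 2 * (n : ℝ) * x := by
  induction n with
  | zero => simp
  | succ n ih =>
    push_cast at hn ⊢
    have hih := ih (by nlinarith)
    rw [pow_succ]
    have h1 := mul_le_mul_of_nonneg_right hih (show 0 ≤ 1 + x by linarith)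
    have h2 : 2 * (n : ℝ) * x * x ≤ 1 * x := mul_le_mul_of_nonneg_right (by linarith) hx
    nlinarith

/-! ## The comparison -/

/-- Tuples with coordinates in the outer polytope, from above. -/
theorem tuples_le : ∃ L0 : ℝ, ∀ P : Params, P.Admissible → L0 ≤ P.L → ∀ b : ℕ → ℝ, P.TailOk b →
    ∀ e : ℝ, 0 ≤ e → e ≤ 8 * P.eta → ∀ T : Finset (Fin (P.K - 1) → ℕ),
    (∀ x ∈ T, (∀ i, x i = 1 ∨ ((x i).Prime ∧ lam (x i : ℝ) ≤ P.L + 1)) ∧
      P.coord x ∈ P.PPlus e b) →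
    ∑ x ∈ T, ∏ i, (1 : ℝ) / (Nat.totient (x i) : ℝ) ≤
      (1 + 1 / 2 ^ (2 * P.K)) * P.L ^ (P.K - 1) *
        (volume (P.PPlus (e + 2 * P.eta) b)).toReal := by
  obtain ⟨C, hC0, hbox⟩ := box_le
  obtain ⟨L0, hL0⟩ := eventually_cell_error C hC0
  refine ⟨L0, fun P hP hL b hb e _ he T hT => ?_⟩
  obtain ⟨hK, hLh, hL1, herr⟩ := hL0 P hL hP
  have hN : 0 < 2 ^ (14 * P.K) := by positivity
  set N := 2 ^ (14 * P.K) with hNdef
  have hNh : (N : ℝ) * P.etap = 1 := by rw [hNdef]; exact two_pow_mul_etap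
  have hh := Params.etap_pos (P := P)
  set idx : (Fin (P.K - 1) → ℕ) → (Fin (P.K - 1) → ℕ) :=
    fun x i => gridIdx N (P.coord x i) with hidx
  have hspec : ∀ x : Fin (P.K - 1) → ℕ, ∀ i, (idx x i : ℝ) * P.etap ≤ P.coord x i ∧
      P.coord x i ≤ (idx x i : ℝ) * P.etap + P.etap := fun x i =>
    gridIdx_spec hN hNh (P.clipX_nonneg _) (P.clipX_le_one _)
  set A := T.image idx with hA
  have hcard : (A.card : ℝ) * P.etap ^ (P.K - 1) ≤
      (volume (P.PPlus (e + 2 * P.eta) b)).toReal := by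
    refine card_mul_le_volume P.etap hh.le A _
      (volume_pplus_lt_top hK hb (by linarith [Params.eta_pos (P := P)])) fun c hc y hy => ?_
    obtain ⟨x, hx, rfl⟩ := mem_image.1 hc
    refine mem_pplus_of_close (by omega) (fun k => ?_) (hT x hx).2
    have h1 := hspec x k
    have h2 := hy k
    rw [abs_le]
    constructor <;> linarith
  have hsum : ∑ x ∈ T, ∏ i, (1 : ℝ) / (Nat.totient (x i) : ℝ) ≤
      (A.card : ℝ) * (P.L * P.etap + C) ^ (P.K - 1) := by
    rw [← sum_fiberwise_of_maps_to (g := idx) (fun x hx => mem_image_of_mem idx hx)]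
    refine (sum_le_sum fun c _ => ?_).trans (le_of_eq (by rw [sum_const, nsmul_eq_mul]))
    refine hbox P.L P.etap (P.K - 1) (fun i => (c i : ℝ) * P.etap) _ hL1 hh.le fun x hx i => ?_
    obtain ⟨hxT, rfl⟩ := mem_filter.1 hx
    exact ⟨(hT x hxT).1 i, hspec x i⟩
  have hx0 : 0 ≤ C / (P.L * P.etap) := by positivity
  have hnK : ((P.K - 1 : ℕ) : ℝ) ≤ P.K := by exact_mod_cast Nat.sub_le _ _
  have hmul := mul_le_mul_of_nonneg_right
    (mul_le_mul_of_nonneg_left hnK (show (0 : ℝ) ≤ 2 by norm_num)) hx0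
  have hle1 : (1 : ℝ) / 2 ^ (2 * P.K) ≤ 1 := by
    rw [div_le_one (by positivity)]; exact one_le_pow₀ (by norm_num)
  have hpow : (P.L * P.etap + C) ^ (P.K - 1) ≤
      (1 + 1 / 2 ^ (2 * P.K)) * P.L ^ (P.K - 1) * P.etap ^ (P.K - 1) := by
    calc (P.L * P.etap + C) ^ (P.K - 1)
        = (P.L * P.etap) ^ (P.K - 1) * (1 + C / (P.L * P.etap)) ^ (P.K - 1) := by
          rw [← mul_pow, mul_one_add, mul_div_cancel₀ _ hLh.ne']
      _ ≤ (P.L * P.etap) ^ (P.K - 1) * (1 + 1 / 2 ^ (2 * P.K)) := by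
          refine mul_le_mul_of_nonneg_left ?_ (by positivity)
          exact (one_add_pow_le hx0 (by linarith)).trans (by linarith)
      _ = _ := by rw [mul_pow]; ring
  calc ∑ x ∈ T, ∏ i, (1 : ℝ) / (Nat.totient (x i) : ℝ)
      ≤ (A.card : ℝ) * (P.L * P.etap + C) ^ (P.K - 1) := hsum
    _ ≤ (A.card : ℝ) * ((1 + 1 / 2 ^ (2 * P.K)) * P.L ^ (P.K - 1) * P.etap ^ (P.K - 1)) :=
        mul_le_mul_of_nonneg_left hpow (Nat.cast_nonneg _)
    _ = (1 + 1 / 2 ^ (2 * P.K)) * P.L ^ (P.K - 1) * ((A.card : ℝ) * P.etap ^ (P.K - 1)) := by ring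
    _ ≤ _ := by
        refine mul_le_mul_of_nonneg_left hcard ?_
        have : 0 ≤ P.L := by linarith
        positivity

/-- All-prime tuples with coordinates in the inner polytope, from below. -/
theorem tuples_ge : ∃ L0 : ℝ, ∀ P : Params, P.Admissible → L0 ≤ P.L → ∀ b : ℕ → ℝ, P.TailOk b →
    ∀ e : ℝ, 0 ≤ e → e ≤ 8 * P.eta → ∃ T : Finset (Fin (P.K - 1) → ℕ),
      (∀ x ∈ T, (∀ i, (x i).Prime ∧ P.Te < lam (x i : ℝ) ∧ lam (x i : ℝ) ≤ P.L) ∧
        P.coord x ∈ P.PMinus e b) ∧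
      (1 - 1 / 2 ^ (2 * P.K)) * P.L ^ (P.K - 1) *
          (volume (P.PMinus (e + 2 * P.eta) b)).toReal ≤
        ∑ x ∈ T, ∏ i, (1 : ℝ) / (Nat.totient (x i) : ℝ) := by
  obtain ⟨C, hC0, hbox⟩ := box_ge
  obtain ⟨L0, hL0⟩ := eventually_cell_error C hC0
  refine ⟨L0, fun P hP hL b hb e he0 he => ?_⟩
  obtain ⟨hK, hLh, hL1, herr⟩ := hL0 P hL hP
  have hN : 0 < 2 ^ (14 * P.K) := by positivity
  set N := 2 ^ (14 * P.K) with hNdef
  have hNh : (N : ℝ) * P.etap = 1 := by rw [hNdef]; exact two_pow_mul_etap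
  have hh := Params.etap_pos (P := P)
  have heta := Params.eta_pos (P := P)
  obtain ⟨-, hm2⟩ := move_le (P := P) (by omega)
  set h := P.etap with hhdef
  set A := (Fintype.piFinset fun _ : Fin (P.K - 1) => Finset.range N).filter fun c =>
    ∃ y : Fin (P.K - 1) → ℝ,
    y ∈ P.PMinus (e + 2 * P.eta) b ∧ ∀ i, (c i : ℝ) * h ≤ y i ∧ y i ≤ (c i : ℝ) * h + h
    with hA
  have hvol : (volume (P.PMinus (e + 2 * P.eta) b)).toReal ≤ (A.card : ℝ) * h ^ (P.K - 1) := by
    refine volume_le_card_mul h hh.le A _ fun y hy => ?_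
    have hb' := fun k => pminus_bounds (b := b) (by omega) hb
      (show 0 ≤ e + 2 * P.eta by linarith) hy k
    have hs : ∀ i, (gridIdx N (y i) : ℝ) * h ≤ y i ∧ y i ≤ (gridIdx N (y i) : ℝ) * h + h :=
      fun i => gridIdx_spec hN hNh (by linarith [(hb' i).1]) (hb' i).2
    refine ⟨fun i => gridIdx N (y i), mem_filter.2 ⟨Fintype.mem_piFinset.2 fun i =>
      Finset.mem_range.2 (gridIdx_lt hN _), y, hy, hs⟩, hs⟩
  have hCle : 2 * C ≤ P.L * h := by
    have h1 : (1 : ℝ) ≤ P.K := by exact_mod_cast (show 1 ≤ P.K by omega)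
    have h2 : (1 : ℝ) / 2 ^ (2 * P.K) ≤ 1 := by
      rw [div_le_one (by positivity)]; exact one_le_pow₀ (by norm_num)
    have h3 := mul_le_mul_of_nonneg_right h1 (show 0 ≤ C / (P.L * h) by positivity)
    have h4 : 2 * C / (P.L * h) ≤ 1 := by rw [mul_div_assoc]; linarith
    rwa [div_le_one hLh] at h4
  have hcell : ∀ c ∈ A, ∀ i, 0 ≤ (c i : ℝ) * h ∧ (c i : ℝ) * h + h ≤ 1 := by
    intro c hc i
    obtain ⟨hc1, -⟩ := mem_filter.1 hc
    have hci := Finset.mem_range.1 (Fintype.mem_piFinset.1 hc1 i)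
    have hci' : (c i : ℝ) + 1 ≤ N := by exact_mod_cast hci
    have := mul_le_mul_of_nonneg_right hci' hh.le
    exact ⟨by positivity, by linarith⟩
  choose! F hF hFsum using fun c (hc : c ∈ A) =>
    hbox P.L h (P.K - 1) (fun i => (c i : ℝ) * h) (by linarith) (hcell c hc) (by linarith)
  have hcoord : ∀ c ∈ A, ∀ x ∈ F c, ∀ i,
      P.coord x i ∈ Set.Ioc ((c i : ℝ) * h) ((c i : ℝ) * h + h) := by
    intro c hc x hx i
    obtain ⟨-, h1, h2, -, h4⟩ := hF c hc x hx i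
    have hL0' : 0 < P.L := by linarith
    refine ⟨?_, h4⟩
    have h0 := (hcell c hc i).1
    have hlt : (c i : ℝ) * h < lam (x i : ℝ) / P.L := by
      rw [lt_div_iff₀ hL0']; linarith
    have h1' : (c i : ℝ) * h < 1 := by linarith [(hcell c hc i).2]
    exact lt_max_of_lt_right (lt_min h1' hlt)
  have hdisj : (A : Set (Fin (P.K - 1) → ℕ)).PairwiseDisjoint F := by
    intro c hc c' hc' hne
    rw [Function.onFun, Finset.disjoint_left]
    intro x hx hx'
    apply hne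
    funext i
    obtain ⟨a1, a2⟩ := hcoord c hc x hx i
    obtain ⟨b1, b2⟩ := hcoord c' hc' x hx' i
    rcases lt_trichotomy (c i) (c' i) with hl | hl | hl
    · have : (c i : ℝ) + 1 ≤ c' i := by exact_mod_cast hl
      nlinarith
    · exact hl
    · have : (c' i : ℝ) + 1 ≤ c i := by exact_mod_cast hl
      nlinarith
  refine ⟨A.biUnion F, fun x hx => ?_, ?_⟩
  · obtain ⟨c, hc, hxc⟩ := mem_biUnion.1 hx
    obtain ⟨-, y, hy, hcy⟩ := mem_filter.1 hc
    refine ⟨fun i => ?_, ?_⟩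
    · obtain ⟨h0, h1, h2, -, -⟩ := hF c hc x hxc i
      refine ⟨h0, lt_of_le_of_lt ?_ h1, h2⟩
      have hy1 := (pminus_bounds (b := b) (by omega) hb (show 0 ≤ e + 2 * P.eta by linarith) hy i).1
      have hge : P.eta ≤ (c i : ℝ) * h := by linarith [(hcy i).2]
      rw [Params.Te, div_eq_mul_one_div]
      refine mul_le_mul_of_nonneg_left (le_trans ?_ hge) (by linarith)
      rw [Params.eta]
      exact one_div_le_one_div_of_le (by positivity)
        (pow_le_pow_right₀ (by norm_num) (by omega))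
    · refine mem_pminus_of_close (by omega) (fun k => ?_) hy
      obtain ⟨a1, a2⟩ := hcoord c hc x hxc k
      have h2 := hcy k
      rw [abs_le]
      constructor <;> linarith
  · rw [sum_biUnion hdisj]
    have hx0 : 0 ≤ C / (P.L * h) := by positivity
    have hx1 : C / (P.L * h) ≤ 1 := by rw [div_le_one hLh]; linarith
    have hnK : ((P.K - 1 : ℕ) : ℝ) ≤ P.K := by exact_mod_cast Nat.sub_le _ _
    have hmul := mul_le_mul_of_nonneg_right hnK hx0
    have hbern := one_add_mul_le_pow (a := -(C / (P.L * h))) (by linarith) (P.K - 1)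
    have hpow : (1 - 1 / 2 ^ (2 * P.K)) * P.L ^ (P.K - 1) * h ^ (P.K - 1) ≤
        (P.L * h - C) ^ (P.K - 1) := by
      calc (1 - 1 / 2 ^ (2 * P.K)) * P.L ^ (P.K - 1) * h ^ (P.K - 1)
          ≤ (1 + -(C / (P.L * h))) ^ (P.K - 1) * (P.L * h) ^ (P.K - 1) := by
            rw [mul_pow, mul_assoc]
            refine mul_le_mul_of_nonneg_right (le_trans ?_ hbern) (by positivity)
            have : 0 ≤ (P.K : ℝ) * (C / (P.L * h)) := by positivity
            linarith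
        _ = (P.L * h - C) ^ (P.K - 1) := by
            rw [← mul_pow, add_mul, one_mul, neg_mul, div_mul_cancel₀ _ hLh.ne', sub_eq_add_neg]
    have hfac : 0 ≤ (1 - 1 / (2 : ℝ) ^ (2 * P.K)) * P.L ^ (P.K - 1) := by
      refine mul_nonneg (sub_nonneg.2 ?_) (by positivity)
      rw [div_le_one (by positivity)]; exact one_le_pow₀ (by norm_num)
    calc (1 - 1 / 2 ^ (2 * P.K)) * P.L ^ (P.K - 1) *
          (volume (P.PMinus (e + 2 * P.eta) b)).toReal
        ≤ (1 - 1 / 2 ^ (2 * P.K)) * P.L ^ (P.K - 1) * ((A.card : ℝ) * h ^ (P.K - 1)) :=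
          mul_le_mul_of_nonneg_left hvol hfac
      _ = (A.card : ℝ) * ((1 - 1 / 2 ^ (2 * P.K)) * P.L ^ (P.K - 1) * h ^ (P.K - 1)) := by ring
      _ ≤ (A.card : ℝ) * (P.L * h - C) ^ (P.K - 1) :=
          mul_le_mul_of_nonneg_left hpow (Nat.cast_nonneg _)
      _ = ∑ c ∈ A, (P.L * h - C) ^ (P.K - 1) := by rw [sum_const, nsmul_eq_mul]
      _ ≤ _ := sum_le_sum fun c hc => hFsum c hc

end Vale.Agent.P031.Assemble
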