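import Vale.Agent.P031.Assemble.Pairs
import Vale.Agent.P031.Assemble.Cell
import Vale.Agent.P031.Assemble.Facts
import Vale.Agent.P031.Geometry
import Vale.Agent.P031.Normal
import Vale.Agent.P031.RepBasics
import Vale.Agent.P031.Crude
import Vale.Agent.P031.RepTails
import Vale.Agent.P031.Tuples

/-!
# P031 Q2, section 6: the outer pairs outweigh the inner ones by a negligible amount

The fibres over the tails are compared: thick ones by volume, thin ones by a box, and the choice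
of `K` makes the thin ones negligible.
-/

open MeasureTheory Finset Filter
open scoped Classical
noncomputable section

namespace Vale.Agent.P031

/-! ## Small facts -/

theorem hRec_le_two_pow (n : ℕ) : hRec n ≤ 2 ^ n := by
  induction n using Nat.strong_induction_on with
  | _ n ih =>
    rcases lt_or_ge n 2 with h | h
    · interval_cases n <;> simp
    · rw [hRec_eq h]
      have e : Icc 1 n = Ioo 0 (n + 1) := by ext j; simp; omega
      rw [e]
      have h1 : ∀ j ∈ Ioo 0 (n + 1), hRec (n - j) ≤ 2 ^ n / 2 ^ j := by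
        intro j hj
        have hj' := Finset.mem_Ioo.1 hj
        refine (ih _ (by omega)).trans_eq ?_
        rw [eq_div_iff (by positivity), ← pow_add, Nat.sub_add_cancel (by omega)]
      refine (sum_fordA_le_two_pow (n + 1) _ _ (by positivity) h1).trans ?_
      linarith [show (0 : ℝ) < 2 ^ n by positivity]

theorem two_lt_hRec {n : ℕ} (hn : 16 ≤ n) : 2 < hRec n := by
  have h := hRec_add_ge (n := 1) le_rfl (n - 1)
  rw [hRec_one, mul_one, show 1 + (n - 1) = n by omega] at h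
  refine lt_of_lt_of_le ?_ ((pow_le_pow_right₀ (by norm_num) (show 4 ≤ n - 1 by omega)).trans h)
  norm_num

theorem sq_mul_le_two_pow {n : ℕ} (hn : 25 ≤ n) : 4000 * (n : ℝ) ^ 2 ≤ 2 ^ n := by
  induction n, hn using Nat.le_induction with
  | base => norm_num
  | succ k hk ih =>
    have : (25 : ℝ) ≤ k := by exact_mod_cast hk
    push_cast
    rw [pow_succ (2 : ℝ)]
    nlinarith

namespace Params

variable {P : Params}

theorem le_head_bigPrimes {n r : ℕ} (hr : r ∈ P.bigPrimes n) :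
    r ≤ (P.bigPrimes n).getD 0 1 ∧ (P.bigPrimes n).getD 0 1 ∈ P.bigPrimes n := by
  have hs := P.bigPrimes_sorted n
  cases hl : P.bigPrimes n with
  | nil => rw [hl] at hr; simp at hr
  | cons a l =>
    rw [hl] at hr hs
    simp only [List.getD_cons_zero]
    refine ⟨?_, by simp⟩
    rcases List.mem_cons.1 hr with h | h
    · exact h.le
    · exact (List.rel_of_pairwise_cons hs h).le

theorem tailB_top (m : ℕ) :
    P.tailB m P.K = P.clipX ((P.bigPrimes (canon m)).getD 0 1) := by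
  simp [tailB]

/-- A small first tail entry bounds the whole tail. -/
theorem tail_mem_smoothValues (hK : 16 ≤ P.K) (hL : 0 < P.L) {m : ℕ} (hm : P.TailGood m)
    (h : hRec P.K * P.tailB m P.K ≤ 2) : m ∈ smoothValues (3 * P.L / hRec P.K) := by
  have hp := hRec_pos P.K
  refine ⟨canon m, ⟨hm.pre_ne, fun r hr => ?_⟩, hm.pre⟩
  by_cases hTe : P.Te < lam (r : ℝ)
  · obtain ⟨hle, hmem⟩ := le_head_bigPrimes (P.mem_bigPrimes.2 ⟨hr, hTe⟩)
    set q := (P.bigPrimes (canon m)).getD 0 1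
    have hlam : lam (r : ℝ) ≤ lam (q : ℝ) :=
      lam_mono (Nat.prime_of_mem_primeFactors hr).two_le hle
    refine hlam.trans ?_
    rw [tailB_top] at h
    have hc : P.clipX q ≤ 2 / hRec P.K := by rw [le_div_iff₀ hp]; linarith
    have hlt : 2 / hRec P.K < 1 := by rw [div_lt_one hp]; exact two_lt_hRec hK
    have hmin : min 1 (lam (q : ℝ) / P.L) ≤ 2 / hRec P.K := le_trans (le_max_right _ _) hc
    rcases min_le_iff.1 hmin with h1 | h1
    · linarith
    · rw [div_le_iff₀ hL] at h1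
      refine h1.trans ?_
      rw [div_mul_eq_mul_div]
      gcongr
      norm_num
  · refine (not_lt.1 hTe).trans ?_
    rw [Params.Te, div_le_div_iff₀ (by positivity) hp]
    have h1 : hRec P.K ≤ 2 ^ (17 * P.K) :=
      (hRec_le_two_pow _).trans (pow_le_pow_right₀ (by norm_num) (by omega))
    nlinarith [show (0 : ℝ) < 2 ^ (17 * P.K) by positivity]

/-- A small value has a small first tail entry. -/
theorem tailB_top_small (hL : 0 < P.L) {m : ℕ}
    (hs : m ∈ smoothValues (P.L / (200 * hRec P.K))) : hRec P.K * P.tailB m P.K ≤ 1 / 200 := by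
  obtain ⟨n, hn, hnm⟩ := hs
  have hp := hRec_pos P.K
  rw [tailB_top]
  have hb : P.clipX ((P.bigPrimes (canon m)).getD 0 1) ≤ 1 / (200 * hRec P.K) := by
    cases hl : P.bigPrimes (canon m) with
    | nil => simp only [List.getD_nil]; rw [clipX_one]; positivity
    | cons a l =>
      simp only [List.getD_cons_zero]
      have ha : a ∈ (canon m).primeFactors :=
        (P.mem_bigPrimes.1 (by rw [hl]; simp)).1
      have h1 : a ≤ maxPrime n := (le_maxPrime ha).trans (maxPrime_canon_le hnm)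
      have h2 : 2 ≤ a := (Nat.prime_of_mem_primeFactors ha).two_le
      have hne : n.primeFactors.Nonempty := by
        by_contra h
        rw [Finset.not_nonempty_iff_eq_empty] at h
        simp [maxPrime, h] at h1
        omega
      have h3 : lam (a : ℝ) ≤ P.L / (200 * hRec P.K) :=
        (lam_mono h2 h1).trans (hn.2 _ (maxPrime_mem hne))
      refine max_le (by positivity) ((min_le_right _ _).trans ?_)
      rw [div_le_iff₀ hL]
      refine h3.trans_eq ?_
      field_simp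
  calc hRec P.K * P.clipX ((P.bigPrimes (canon m)).getD 0 1)
      ≤ hRec P.K * (1 / (200 * hRec P.K)) := mul_le_mul_of_nonneg_left hb hp.le
    _ = 1 / 200 := by field_simp

/-! ## Grouping by the tail -/

/-- The level tuples over one tail. -/
def fib (S : Finset P.Pair) (m : ℕ) : Finset (Fin (P.K - 1) → ℕ) :=
  (S.filter fun z => z.2 = m).image Prod.fst

theorem mem_fib {S : Finset P.Pair} {m : ℕ} {x : Fin (P.K - 1) → ℕ} :
    x ∈ fib S m ↔ (x, m) ∈ S := by
  simp [fib]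

theorem one_div_pairW (z : P.Pair) :
    (1 : ℝ) / (P.pairW z : ℝ) =
      1 / (z.2 : ℝ) * ∏ i, (1 : ℝ) / (Nat.totient (z.1 i) : ℝ) := by
  simp [Params.pairW, prefW, Finset.prod_inv_distrib, mul_comm]

theorem mass_eq_tails (S : Finset P.Pair) :
    P.mass S = ∑ m ∈ S.image Prod.snd,
      1 / (m : ℝ) * ∑ x ∈ fib S m, ∏ i, (1 : ℝ) / (Nat.totient (x i) : ℝ) := by
  rw [Params.mass, ← Finset.sum_fiberwise_of_maps_to (g := Prod.snd) (t := S.image Prod.snd)
    fun z hz => Finset.mem_image_of_mem _ hz]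
  refine Finset.sum_congr rfl fun m _ => ?_
  rw [fib, Finset.sum_image, Finset.mul_sum]
  · refine Finset.sum_congr rfl fun z hz => ?_
    rw [one_div_pairW, (Finset.mem_filter.1 hz).2]
  · intro z hz w hw h
    simp only [Finset.mem_coe, Finset.mem_filter] at hz hw
    exact Prod.ext h (hz.2.trans hw.2.symm)

theorem sum_tails_le_mass {S : Finset P.Pair} {M : Finset ℕ}
    {T : ℕ → Finset (Fin (P.K - 1) → ℕ)} (h : ∀ m ∈ M, ∀ x ∈ T m, (x, m) ∈ S) :
    ∑ m ∈ M, 1 / (m : ℝ) * ∑ x ∈ T m, ∏ i, (1 : ℝ) / (Nat.totient (x i) : ℝ) ≤ P.mass S := by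
  rw [mass_eq_tails]
  have hsub : ∀ m ∈ M, T m ⊆ fib S m := fun m hm x hx => mem_fib.2 (h m hm x hx)
  calc ∑ m ∈ M, 1 / (m : ℝ) * ∑ x ∈ T m, ∏ i, (1 : ℝ) / (Nat.totient (x i) : ℝ)
      ≤ ∑ m ∈ M, 1 / (m : ℝ) * ∑ x ∈ fib S m, ∏ i, (1 : ℝ) / (Nat.totient (x i) : ℝ) :=
        Finset.sum_le_sum fun m hm => mul_le_mul_of_nonneg_left
          (Finset.sum_le_sum_of_subset_of_nonneg (hsub m hm) fun _ _ _ => by positivity)
          (by positivity)
    _ = ∑ m ∈ M.filter (fun m => m ∈ S.image Prod.snd),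
          1 / (m : ℝ) * ∑ x ∈ fib S m, ∏ i, (1 : ℝ) / (Nat.totient (x i) : ℝ) := by
        refine (Finset.sum_filter_of_ne fun m _ hne => ?_).symm
        by_contra hm
        refine hne ?_
        rw [Finset.sum_eq_zero fun x hx => absurd
          (Finset.mem_image.2 ⟨(x, m), mem_fib.1 hx, rfl⟩) hm, mul_zero]
    _ ≤ _ := Finset.sum_le_sum_of_subset_of_nonneg
          (fun m hm => (Finset.mem_filter.1 hm).2) fun _ _ _ => by positivity

end Params

open Params Assemble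

/-! ## Eventual facts -/

theorem le_div_two_pow_eventually (C : ℝ) {m : ℕ} (hm : m < 250) :
    ∃ L0 : ℝ, ∀ P : Params, P.Admissible → L0 ≤ P.L → C ≤ P.L / 2 ^ (m * P.K) := by
  have ha : 0 < 1 - (m : ℝ) / 250 := by
    rw [sub_pos, div_lt_one (by norm_num)]; exact_mod_cast hm
  obtain ⟨B, hB⟩ := Filter.eventually_atTop.1 ((tendsto_rpow_atTop ha).eventually_ge_atTop C)
  exact ⟨max B 2, fun P hP hL => (hB _ (le_of_max_le_left hL)).trans
    (rpow_le_div_two_pow hP (by linarith [le_of_max_le_right hL]) m)⟩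

/-- The error from levels which are not normal, over all tails. -/
theorem error_small : ∃ L0 : ℝ, ∀ P : Params, P.Admissible → L0 ≤ P.L →
    (P.K : ℝ) * (2 * P.L) ^ P.K * Real.exp (-(P.L ^ (0.65 : ℝ))) * valueMass (P.L + 1)
        ≤ Real.exp (-(P.L ^ (0.6 : ℝ))) ∧
      Real.exp (-(P.L ^ (0.6 : ℝ))) ≤ 1 / 2 ^ P.K := by
  obtain ⟨C, hC⟩ := valueMass_crude
  have hev : ∀ᶠ L : ℝ in atTop, 8 ≤ L ∧ 1 * Real.log L ≤ L ^ (0.6 : ℝ) ∧
      1 * Real.exp ((4 * |C| + 2) * Real.log L ^ 2 - L ^ (0.65 : ℝ)) ≤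
        Real.exp (-(L ^ (0.6 : ℝ))) :=
    (eventually_ge_atTop 8).and ((eventually_log_le 1 (by norm_num)).and
      (eventually_absorb _ _ (by norm_num) (by norm_num)))
  obtain ⟨B, hB⟩ := Filter.eventually_atTop.1 hev
  refine ⟨B, fun P hP hL => ?_⟩
  obtain ⟨h8, hlog, habs⟩ := hB P.L hL
  rw [one_mul] at hlog habs
  set l := Real.log P.L with hl
  have hl2 : 2 ≤ l := by
    have h1 : Real.log 8 ≤ l := Real.log_le_log (by norm_num) h8
    rw [show (8 : ℝ) = 2 ^ 3 by norm_num, Real.log_pow] at h1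
    push_cast at h1
    linarith [Real.log_two_gt_d9]
  have hKl : (P.K : ℝ) ≤ l / 250 := hP.2.1
  have hK0 : (0 : ℝ) ≤ P.K := Nat.cast_nonneg _
  refine ⟨?_, ?_⟩
  · have hG : valueMass (P.L + 1) ≤ Real.exp (4 * |C| * l ^ 2) := by
      refine (hC _ (by linarith)).trans (Real.exp_le_exp.2 ?_)
      have h1 : Real.log (P.L + 1) ≤ 2 * l := by
        rw [hl, two_mul, ← Real.log_mul (by linarith) (by linarith)]
        exact Real.log_le_log (by linarith) (by nlinarith)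
      have h2 : 0 ≤ Real.log (P.L + 1) := Real.log_nonneg (by linarith)
      have h3 : Real.log (P.L + 1) ^ 2 ≤ (2 * l) ^ 2 := pow_le_pow_left₀ h2 h1 2
      nlinarith [le_abs_self C, abs_nonneg C, sq_nonneg (Real.log (P.L + 1))]
    have h1 : (P.K : ℝ) ≤ Real.exp (l ^ 2) := by
      refine le_trans ?_ (Real.add_one_le_exp _)
      nlinarith
    have h2 : (2 * P.L) ^ P.K ≤ Real.exp (l ^ 2) := by
      rw [← Real.exp_log (show (0 : ℝ) < 2 * P.L by linarith), ← Real.exp_nat_mul]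
      refine Real.exp_le_exp.2 ?_
      rw [Real.log_mul (by norm_num) (by linarith)]
      have := Real.log_two_lt_d9
      nlinarith [Real.log_two_gt_d9]
    refine le_trans ?_ habs
    calc (P.K : ℝ) * (2 * P.L) ^ P.K * Real.exp (-(P.L ^ (0.65 : ℝ))) * valueMass (P.L + 1)
        ≤ Real.exp (l ^ 2) * Real.exp (l ^ 2) * Real.exp (-(P.L ^ (0.65 : ℝ))) *
            Real.exp (4 * |C| * l ^ 2) := by
          have := one_le_valueMass (P.L + 1)
          gcongr
      _ = _ := by rw [← Real.exp_add, ← Real.exp_add, ← Real.exp_add]; ring_nf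
  · rw [one_div, ← Real.exp_log (show (0 : ℝ) < (2 ^ P.K : ℝ) by positivity), ← Real.exp_neg]
    refine Real.exp_le_exp.2 (neg_le_neg ?_)
    rw [Real.log_pow]
    nlinarith [Real.log_two_lt_d9, Real.log_two_gt_d9]

/-- Prime tuples with a level which is not normal. -/
theorem nonnormal_tuples_le : ∃ L0 : ℝ, ∀ P : Params, P.Admissible → L0 ≤ P.L →
    ∀ T : Finset (Fin (P.K - 1) → ℕ),
    (∀ x ∈ T, (∀ i, (x i).Prime ∧ P.Te < lam (x i : ℝ) ∧ lam (x i : ℝ) ≤ P.L) ∧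
      ∃ i, ¬ P.Normal (x i)) →
    ∑ x ∈ T, ∏ i, (1 : ℝ) / (Nat.totient (x i) : ℝ) ≤
      (P.K : ℝ) * (2 * P.L) ^ P.K * Real.exp (-(P.L ^ (0.65 : ℝ))) := by
  obtain ⟨C, hC0, hC⟩ := mertens_lam_pred
  obtain ⟨L1, hN⟩ := normal_weight
  refine ⟨max (max C L1) 1, fun P hP hL T hT => ?_⟩
  simp only [max_le_iff] at hL
  obtain ⟨⟨hLC, hL1⟩, hL0⟩ := hL
  have hTe0 : 0 ≤ P.Te := div_nonneg (by linarith) (by positivity)
  have hTeL : P.Te ≤ P.L := div_le_self (by linarith) (one_le_pow₀ (by norm_num))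
  set A := primesLam P.Te P.L
  set B := A.filter fun p => ¬ P.Normal p
  set E := Real.exp (-(P.L ^ (0.65 : ℝ)))
  have hw : ∀ p ∈ A, (1 : ℝ) / (Nat.totient p : ℝ) = 1 / ((p : ℝ) - 1) := by
    intro p hp
    have hpp := (mem_primesLam.1 hp).1
    rw [Nat.totient_prime hpp, Nat.cast_sub hpp.one_le, Nat.cast_one]
  have hA : ∑ p ∈ A, (1 : ℝ) / (Nat.totient p : ℝ) ≤ 2 * P.L := by
    rw [Finset.sum_congr rfl hw]
    linarith [(abs_le.1 (hC P.Te P.L hTe0 hTeL)).2]
  have hB : ∑ p ∈ B, (1 : ℝ) / (Nat.totient p : ℝ) ≤ E := by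
    rw [Finset.sum_congr rfl fun p hp => hw p (Finset.mem_filter.1 hp).1]
    refine hN P hL1 hP B fun p hp => ?_
    obtain ⟨hp1, hp2⟩ := Finset.mem_filter.1 hp
    obtain ⟨a, b, c⟩ := mem_primesLam.1 hp1
    exact ⟨a, b.le, by linarith, hp2⟩
  set F : Fin (P.K - 1) → Finset (Fin (P.K - 1) → ℕ) := fun i =>
    Fintype.piFinset (Function.update (fun _ => A) i B) with hF
  have hsub : T ⊆ Finset.univ.biUnion F := by
    intro x hx
    obtain ⟨h1, i, hi⟩ := hT x hx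
    refine Finset.mem_biUnion.2 ⟨i, Finset.mem_univ _, Fintype.mem_piFinset.2 fun j => ?_⟩
    obtain ⟨a, b, c⟩ := h1 j
    rcases eq_or_ne j i with rfl | hj
    · rw [Function.update_self]
      exact Finset.mem_filter.2 ⟨mem_primesLam.2 ⟨a, b, c⟩, hi⟩
    · rw [Function.update_of_ne hj]
      exact mem_primesLam.2 ⟨a, b, c⟩
  have hone : ∀ i, ∑ x ∈ F i, ∏ j, (1 : ℝ) / (Nat.totient (x j) : ℝ) ≤ E * (2 * P.L) ^ P.K := by
    intro i
    rw [hF, sum_piFinset_inv_totient, ← Finset.mul_prod_erase _ _ (Finset.mem_univ i),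
      Function.update_self]
    refine mul_le_mul hB ?_ (Finset.prod_nonneg fun _ _ => by positivity) (Real.exp_pos _).le
    calc ∏ j ∈ Finset.univ.erase i,
          ∑ p ∈ Function.update (fun _ => A) i B j, (1 : ℝ) / (Nat.totient p : ℝ)
        ≤ ∏ _j ∈ Finset.univ.erase i, 2 * P.L := by
          refine Finset.prod_le_prod (fun j _ => by positivity) fun j hj => ?_
          rw [Function.update_of_ne (Finset.ne_of_mem_erase hj)]
          exact hA
      _ ≤ (2 * P.L) ^ P.K := by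
          rw [Finset.prod_const]
          refine pow_le_pow_right₀ (by linarith) ?_
          refine (Finset.card_le_univ _).trans ?_
          simp
  calc ∑ x ∈ T, ∏ i, (1 : ℝ) / (Nat.totient (x i) : ℝ)
      ≤ ∑ x ∈ Finset.univ.biUnion F, ∏ i, (1 : ℝ) / (Nat.totient (x i) : ℝ) :=
        Finset.sum_le_sum_of_subset_of_nonneg hsub fun _ _ _ => by positivity
    _ ≤ ∑ i, ∑ x ∈ F i, ∏ j, (1 : ℝ) / (Nat.totient (x j) : ℝ) := by
        have he : Finset.univ.biUnion F = (Finset.univ.sigma F).image Sigma.snd := by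
          ext x; simp
        rw [he, Finset.sum_sigma']
        exact Finset.sum_image_le_of_nonneg fun _ _ => by positivity
    _ ≤ ∑ _i : Fin (P.K - 1), E * (2 * P.L) ^ P.K := Finset.sum_le_sum fun i _ => hone i
    _ ≤ (P.K : ℝ) * (2 * P.L) ^ P.K * E := by
        rw [Finset.sum_const, Finset.card_univ, Fintype.card_fin, nsmul_eq_mul]
        have : ((P.K - 1 : ℕ) : ℝ) ≤ P.K := by exact_mod_cast Nat.sub_le _ _
        nlinarith [show (0 : ℝ) ≤ E * (2 * P.L) ^ P.K by positivity]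

/-! ## The fibres -/

/-- Thick fibres: the good part carries nearly everything. -/
theorem fibre_thick : ∃ L0 : ℝ, ∀ P : Params, P.Admissible → L0 ≤ P.L → 16 ≤ P.K →
    ∀ m : ℕ, P.TailGood m → 1 / 2 ^ (3 * P.K) ≤ P.beta (P.tailB m) →
    ∀ U : Finset (Fin (P.K - 1) → ℕ), (∀ x ∈ U, P.UpperPair (x, m)) →
    ∃ T : Finset (Fin (P.K - 1) → ℕ), (∀ x ∈ T, P.GoodPair (x, m)) ∧
      ∑ x ∈ U, ∏ i, (1 : ℝ) / (Nat.totient (x i) : ℝ) ≤
        (1 + 4 / 2 ^ P.K) * (∑ x ∈ T, ∏ i, (1 : ℝ) / (Nat.totient (x i) : ℝ) +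
          (P.K : ℝ) * (2 * P.L) ^ P.K * Real.exp (-(P.L ^ (0.65 : ℝ)))) := by
  obtain ⟨L1, hle⟩ := tuples_le
  obtain ⟨L2, hge⟩ := tuples_ge
  obtain ⟨L3, hnn⟩ := nonnormal_tuples_le
  refine ⟨max (max L1 L2) (max L3 0), fun P hP hL hK m hm hβ U hU => ?_⟩
  simp only [max_le_iff] at hL
  obtain ⟨⟨hL1, hL2⟩, hL3, hL0⟩ := hL
  have hη : 0 < P.eta := Params.eta_pos
  have hu := hle P hP hL1 _ hm.ok (2 * P.eta) (by linarith) (by linarith) U fun x hx =>
    ⟨fun i => ((hU x hx).1 i).imp id fun h => ⟨h.1, h.2.2.1⟩, (hU x hx).2.2⟩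
  obtain ⟨T, hT, hTs⟩ := hge P hP hL2 _ hm.ok (3 * P.eta) (by linarith) (by linarith)
  rw [show 2 * P.eta + 2 * P.eta = 4 * P.eta by ring] at hu
  rw [show 3 * P.eta + 2 * P.eta = 5 * P.eta by ring] at hTs
  have hv := volume_pplus_le hK hm.ok (e1 := 4 * P.eta) (e2 := 5 * P.eta) (by linarith)
    (by linarith) (by linarith) hβ
  have htop : volume (P.PMinus (5 * P.eta) (P.tailB m)) ≠ ⊤ :=
    ((measure_mono (pminus_subset_pplus (e' := 0) (by linarith))).trans_lt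
      (volume_pplus_lt_top hK hm.ok (by linarith))).ne
  have hv' := ENNReal.toReal_mono htop hv
  rw [ENNReal.toReal_mul] at hv'
  set a : ℝ := 1 / 2 ^ P.K with ha
  have ha0 : 0 ≤ a := by positivity
  have ha8 : a ≤ 1 / 8 := by
    rw [ha, show (8 : ℝ) = 2 ^ 3 by norm_num]
    gcongr
    · norm_num
    · omega
  have ha2 : (1 : ℝ) / 2 ^ (2 * P.K) = a * a := by rw [ha, two_mul, pow_add]; field_simp
  rw [ha2] at hu hTs
  rw [ENNReal.toReal_ofReal (by linarith)] at hv'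
  refine ⟨T.filter fun x => ∀ i, P.Normal (x i), fun x hx => ?_, ?_⟩
  · obtain ⟨hx1, hx2⟩ := Finset.mem_filter.1 hx
    obtain ⟨h1, h2⟩ := hT x hx1
    exact ⟨fun i => ⟨(h1 i).1, (h1 i).2.1, by linarith [(h1 i).2.2], hx2 i⟩, hm, h2⟩
  have hbad := hnn P hP hL3 (T.filter fun x => ¬ ∀ i, P.Normal (x i)) fun x hx => by
    obtain ⟨hx1, hx2⟩ := Finset.mem_filter.1 hx
    exact ⟨(hT x hx1).1, not_forall.1 hx2⟩
  rw [← Finset.sum_filter_add_sum_filter_not T (fun x => ∀ i, P.Normal (x i))] at hTs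
  set Ln := P.L ^ (P.K - 1)
  set Vp := (volume (P.PPlus (4 * P.eta) (P.tailB m))).toReal
  set Vm := (volume (P.PMinus (5 * P.eta) (P.tailB m))).toReal
  have hLn : 0 ≤ Ln := pow_nonneg hL0 _
  have hVp : 0 ≤ Vp := ENNReal.toReal_nonneg
  have hX : 0 ≤ Ln * Vp := mul_nonneg hLn hVp
  set R := ∑ x ∈ T.filter (fun x => ∀ i, P.Normal (x i)),
    ∏ i, (1 : ℝ) / (Nat.totient (x i) : ℝ) +
      (P.K : ℝ) * (2 * P.L) ^ P.K * Real.exp (-(P.L ^ (0.65 : ℝ)))
  have h1 : (1 - a * a) * Ln * Vm ≤ R := by simp only [R]; linarith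
  have h2 : (1 - a * a) * Ln * ((1 - a) * Vp) ≤ (1 - a * a) * Ln * Vm :=
    mul_le_mul_of_nonneg_left hv' (mul_nonneg (by nlinarith) hLn)
  have h3 : (1 + a * a) * (Ln * Vp) ≤ (1 + 4 * a) * ((1 - a * a) * (1 - a)) * (Ln * Vp) := by
    refine mul_le_mul_of_nonneg_right ?_ hX
    nlinarith [mul_nonneg ha0 ha0, mul_nonneg (mul_nonneg ha0 ha0) ha0]
  have h4 := mul_le_mul_of_nonneg_left (h2.trans h1) (show (0 : ℝ) ≤ 1 + 4 * a by linarith)
  have e4 : (4 : ℝ) / 2 ^ P.K = 4 * a := by rw [ha]; ring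
  rw [e4]
  linarith

/-- Thin fibres: a box. -/
theorem fibre_thin : ∃ L0 : ℝ, ∀ P : Params, P.Admissible → L0 ≤ P.L → 16 ≤ P.K →
    ∀ m : ℕ, P.TailGood m → P.beta (P.tailB m) < 1 / 2 ^ (3 * P.K) →
    ∀ U : Finset (Fin (P.K - 1) → ℕ), (∀ x ∈ U, P.UpperPair (x, m)) →
      ∑ x ∈ U, ∏ i, (1 : ℝ) / (Nat.totient (x i) : ℝ) ≤
        (20 * (P.L / 2 ^ (3 * P.K))) ^ (P.K - 1) := by
  obtain ⟨C, hC0, hC⟩ := box_le
  obtain ⟨L1, h1⟩ := le_div_two_pow_eventually C (show 3 < 250 by norm_num)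
  refine ⟨max L1 1, fun P hP hL hK m hm hβ U hU => ?_⟩
  have hη : 0 < P.eta := Params.eta_pos
  have hsub := pplus_subset_box hK hm.ok (e := 2 * P.eta) (by linarith) (by linarith) hβ
  have hLC := h1 P hP (le_of_max_le_left hL)
  have hL1 : 1 ≤ P.L := le_of_max_le_right hL
  refine (hC P.L (10 / 2 ^ (3 * P.K)) (P.K - 1)
    (fun k => P.qfix (P.tailB m) (k.val + 1) - 5 / 2 ^ (3 * P.K)) U hL1 (by positivity)
    fun x hx i => ⟨((hU x hx).1 i).imp id fun h => ⟨h.1, h.2.2.1⟩, ?_, ?_⟩).trans ?_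
  · exact (hsub (hU x hx).2.2).1 i
  · refine ((hsub (hU x hx).2.2).2 i).trans_eq ?_
    ring
  · refine pow_le_pow_left₀ (by positivity) ?_ _
    rw [mul_div_assoc']
    have : P.L * 10 / 2 ^ (3 * P.K) = 10 * (P.L / 2 ^ (3 * P.K)) := by ring
    linarith [show (0 : ℝ) ≤ P.L / 2 ^ (3 * P.K) by positivity]

/-- Small tails carry a box of good tuples. -/
theorem fibre_low : ∃ L0 : ℝ, ∀ P : Params, P.Admissible → L0 ≤ P.L → 25 ≤ P.K →
    8 ≤ P.L * (1 / (2 ^ P.K * 200 * (P.K : ℝ) ^ 2)) ∧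
    ∀ m : ℕ, P.TailGood m → hRec P.K * P.tailB m P.K ≤ 1 / 200 →
    ∃ T : Finset (Fin (P.K - 1) → ℕ), (∀ x ∈ T, P.GoodPair (x, m)) ∧
      (P.L * (1 / (2 ^ P.K * 200 * (P.K : ℝ) ^ 2))) ^ (P.K - 1) / 2 ≤
        ∑ x ∈ T, ∏ i, (1 : ℝ) / (Nat.totient (x i) : ℝ) := by
  obtain ⟨C, hC0, hC⟩ := box_ge
  obtain ⟨L1, h1⟩ := le_div_two_pow_eventually (C + 8) (show 2 < 250 by norm_num)
  obtain ⟨L2, h2⟩ := nonnormal_tuples_le
  obtain ⟨L3, h3⟩ := error_small
  refine ⟨max (max L1 L2) (max L3 1), fun P hP hL hK => ?_⟩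
  simp only [max_le_iff] at hL
  obtain ⟨⟨hL1, hL2⟩, hL3, hL0⟩ := hL
  set r : ℝ := 1 / (2 ^ P.K * 200 * (P.K : ℝ) ^ 2) with hr
  have hK0 : (0 : ℝ) < P.K := by exact_mod_cast (show 0 < P.K by omega)
  have hLr : C + 8 ≤ P.L * r := by
    refine (h1 P hP hL1).trans ?_
    rw [hr, mul_one_div]
    gcongr
    rw [two_mul, pow_add, mul_assoc]
    gcongr
    nlinarith [sq_mul_le_two_pow hK]
  refine ⟨by linarith, fun m hm hs => ?_⟩
  have hη : 0 < P.eta := Params.eta_pos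
  have hbox := box_subset_pminus (show 16 ≤ P.K by omega) hm.ok (e := 3 * P.eta)
    (by linarith) hs
  rw [← hr] at hbox
  have hr0 : 0 ≤ r := by positivity
  set xs := P.xstar (P.tailB m) with hxs
  have hlo : (fun k => xs k - r) ∈ P.PMinus (3 * P.eta) (P.tailB m) :=
    hbox ⟨fun k => le_rfl, fun k => by simp only; linarith⟩
  have hhi : (fun k => xs k + r) ∈ P.PMinus (3 * P.eta) (P.tailB m) :=
    hbox ⟨fun k => by simp only; linarith, fun k => le_rfl⟩
  have hbl := fun k => (pminus_bounds (by omega) hm.ok (by linarith) hlo k).1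
  have hbh := fun k => (pminus_bounds (by omega) hm.ok (by linarith) hhi k).2
  obtain ⟨T, hT, hTs⟩ := hC P.L (2 * r) (P.K - 1) (fun k => xs k - r) (by linarith)
    (fun k => ⟨by linarith [hbl k], by linarith [hbh k]⟩) (by linarith)
  have hTe : ∀ k, P.Te ≤ P.L * (xs k - r) := by
    intro k
    have h17 : P.Te ≤ P.L * (3 * P.eta) := by
      rw [Params.Te, Params.eta, div_eq_mul_one_div]
      refine mul_le_mul_of_nonneg_left ?_ (by linarith)
      have h : (1 : ℝ) / 2 ^ (17 * P.K) ≤ 1 / 2 ^ (6 * P.K) := by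
        gcongr
        · norm_num
        · omega
      linarith [show (0 : ℝ) < 1 / 2 ^ (6 * P.K) by positivity]
    exact h17.trans (mul_le_mul_of_nonneg_left (hbl k) (by linarith))
  have hlev : ∀ x ∈ T, (∀ i, (x i).Prime ∧ P.Te < lam (x i : ℝ) ∧ lam (x i : ℝ) ≤ P.L) :=
    fun x hx i => ⟨(hT x hx i).1, (hTe i).trans_lt (hT x hx i).2.1, (hT x hx i).2.2.1⟩
  refine ⟨T.filter fun x => ∀ i, P.Normal (x i), fun x hx => ?_, ?_⟩
  · obtain ⟨hx1, hx2⟩ := Finset.mem_filter.1 hx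
    refine ⟨fun i => ⟨(hlev x hx1 i).1, (hlev x hx1 i).2.1, by linarith [(hlev x hx1 i).2.2],
      hx2 i⟩, hm, hbox ⟨fun i => (hT x hx1 i).2.2.2.1, fun i => ?_⟩⟩
    refine (hT x hx1 i).2.2.2.2.trans_eq ?_
    ring
  have hbad := h2 P hP hL2 (T.filter fun x => ¬ ∀ i, P.Normal (x i)) fun x hx => by
    obtain ⟨hx1, hx2⟩ := Finset.mem_filter.1 hx
    exact ⟨hlev x hx1, not_forall.1 hx2⟩
  have herr : (P.K : ℝ) * (2 * P.L) ^ P.K * Real.exp (-(P.L ^ (0.65 : ℝ))) ≤ 1 := by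
    obtain ⟨e1, e2⟩ := h3 P hP hL3
    refine le_trans ?_ (e1.trans (e2.trans ?_))
    · exact le_mul_of_one_le_right (by positivity) (one_le_valueMass _)
    · rw [div_le_one (by positivity)]; exact one_le_pow₀ (by norm_num)
  have hmain : (P.L * r) ^ (P.K - 1) ≤ (P.L * (2 * r) - C) ^ (P.K - 1) :=
    pow_le_pow_left₀ (by positivity) (by linarith) _
  have hbig : 8 ≤ (P.L * r) ^ (P.K - 1) :=
    (show (8 : ℝ) ≤ P.L * r by linarith).trans
      (le_self_pow₀ (by linarith) (by omega))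
  rw [← Finset.sum_filter_add_sum_filter_not T (fun x => ∀ i, P.Normal (x i))] at hTs
  linarith

/-- The thin part against the box. -/
theorem thin_le_box {K c : ℕ} (hK : 25 ≤ K) (hc : 2 * c + 2 ≤ K) {L : ℝ} (hL : 0 ≤ L) :
    (20 * (L / 2 ^ (3 * K))) ^ (K - 1) * 2 ^ (2 * c * K) ≤
      1 / 2 ^ K * (L * (1 / (2 ^ K * 200 * (K : ℝ) ^ 2))) ^ (K - 1) := by
  set Y : ℝ := L * (1 / (2 ^ K * 200 * (K : ℝ) ^ 2)) with hY
  have hK0 : (0 : ℝ) < K := by exact_mod_cast (show 0 < K by omega)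
  have hY0 : 0 ≤ Y := by positivity
  have h1 : 20 * (L / 2 ^ (3 * K)) ≤ Y / 2 ^ K := by
    rw [hY, show (3 : ℕ) * K = K + K + K by omega, pow_add, pow_add, mul_one_div, div_div,
      mul_div_assoc', div_le_div_iff₀ (by positivity) (by positivity)]
    have h2 : 20 * (200 * (K : ℝ) ^ 2) ≤ 2 ^ K := by linarith [sq_mul_le_two_pow hK]
    nlinarith [mul_le_mul_of_nonneg_left h2
      (show (0 : ℝ) ≤ L * (2 ^ K * 2 ^ K) by positivity)]
  have h2 : (20 * (L / 2 ^ (3 * K))) ^ (K - 1) ≤ Y ^ (K - 1) / 2 ^ (K * (K - 1)) :=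
    (pow_le_pow_left₀ (by positivity) h1 _).trans_eq (by rw [div_pow, ← pow_mul])
  refine (mul_le_mul_of_nonneg_right h2 (by positivity)).trans ?_
  rw [div_mul_eq_mul_div, one_div_mul_eq_div, div_le_div_iff₀ (by positivity) (by positivity),
    mul_assoc, ← pow_add]
  refine mul_le_mul_of_nonneg_left (pow_le_pow_right₀ (by norm_num) ?_) (by positivity)
  have h3 : (2 * c + 1) * K ≤ (K - 1) * K := Nat.mul_le_mul_right _ (by omega)
  calc 2 * c * K + K = (2 * c + 1) * K := by ring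
    _ ≤ (K - 1) * K := h3
    _ = K * (K - 1) := by ring

/-- The choice of `K`. -/
theorem exists_good_K : ∃ c : ℕ, ∀ k1 : ℕ, ∃ L0 : ℝ, ∀ L, L0 ≤ L → ∃ P : Params,
    P.L = L ∧ P.Admissible ∧ k1 ≤ P.K ∧
      valueMass (3 * L / hRec P.K) ≤ 2 ^ (2 * c * P.K) * valueMass (L / (200 * hRec P.K)) := by
  obtain ⟨C, hC⟩ := valueMass_crude
  refine ⟨⌈60000000 * |C|⌉₊, fun k1 => ⟨max 3 (Real.exp (500 * ((k1 : ℝ) + 32))), fun L hL => ?_⟩⟩
  simp only [max_le_iff] at hL
  obtain ⟨hL3, hLe⟩ := hL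
  set l := Real.log L with hl
  have hlk : 500 * ((k1 : ℝ) + 32) ≤ l := by
    rw [hl, Real.le_log_iff_exp_le (by linarith)]; exact hLe
  have hk10 : (0 : ℝ) ≤ k1 := Nat.cast_nonneg _
  set k0 := ⌊l / 500⌋₊ with hk0
  have hfl : (k0 : ℝ) ≤ l / 500 := Nat.floor_le (by linarith)
  have hfl' : l / 500 < (k0 : ℝ) + 1 := Nat.lt_floor_add_one _
  have hk0ge : k1 + 31 ≤ k0 := by
    have : ((k1 + 31 : ℕ) : ℝ) ≤ k0 := by push_cast; linarith
    exact_mod_cast this
  have hA : Real.log (valueMass L) ≤ |C| * l ^ 2 := by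
    rw [Real.log_le_iff_le_exp (lt_of_lt_of_le one_pos (one_le_valueMass L))]
    exact (hC L hL3).trans (Real.exp_le_exp.2
      (mul_le_mul_of_nonneg_right (le_abs_self C) (sq_nonneg _)))
  obtain ⟨K, hKlo, hKhi, hKG⟩ := exists_ratio valueMass valueMass_mono one_le_valueMass
    (show 0 ≤ L by linarith) (show 30 ≤ k0 by omega) hA
  have hKlo' : (k0 : ℝ) ≤ K := by exact_mod_cast hKlo
  have hKhi' : (K : ℝ) ≤ 2 * k0 := by exact_mod_cast hKhi
  refine ⟨⟨L, K⟩, rfl, ⟨by simp only; omega, by simp only; linarith, by simp only; linarith⟩,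
    by simp only; omega, hKG.trans (mul_le_mul_of_nonneg_right ?_
      (le_trans zero_le_one (one_le_valueMass _)))⟩
  set c := ⌈60000000 * |C|⌉₊ with hc
  have hcC : 60000000 * |C| ≤ (c : ℝ) := Nat.le_ceil _
  have h1 : 30 * (|C| * l ^ 2) / (k0 : ℝ) ≤ (c : ℝ) * K := by
    rw [div_le_iff₀ (by linarith)]
    calc 30 * (|C| * l ^ 2) ≤ 30 * (|C| * ((1000 * (K : ℝ)) * (1000 * (k0 : ℝ)))) := by
          rw [sq]
          gcongr
          · linarith
          · linarith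
          · linarith
      _ = 30000000 * |C| * ((K : ℝ) * k0) := by ring
      _ ≤ (c : ℝ) * ((K : ℝ) * k0) := by
          gcongr
          linarith [abs_nonneg C]
      _ = (c : ℝ) * K * k0 := by ring
  refine (Real.exp_le_exp.2 h1).trans ?_
  simp only
  rw [← Nat.cast_mul, ← Real.exp_one_pow, mul_assoc 2 c K, pow_mul (2 : ℝ) 2 (c * K)]
  refine pow_le_pow_left₀ (Real.exp_pos _).le ?_ _
  linarith [Real.exp_one_lt_d9]

/-- Section 6: the pairs outside the inner polytope are negligible, even after a loss `K`. -/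
theorem mass_upper_sub_good_le_of
    (tail_bad_small : ∃ L0 : ℝ, ∀ P : Params, P.Admissible → L0 ≤ P.L → ∀ S : Finset ℕ,
      (∀ m ∈ S, m ∈ smoothValues (P.L / 3) ∧ ¬ P.TailGood m) →
      ∑ m ∈ S, (1 : ℝ) / m ≤ Real.exp (-(P.L ^ (0.6 : ℝ)))) :
    ∀ del : ℝ, 0 < del → ∃ L0 : ℝ, ∀ L, L0 ≤ L →
    ∃ P : Params, P.L = L ∧ P.Admissible ∧ 16 ≤ P.K ∧ 1 ≤ P.mass P.goodPairs ∧
      (P.K : ℝ) * (P.mass P.upperPairs - P.mass P.goodPairs) ≤ del * P.mass P.goodPairs := by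
  intro del hdel
  obtain ⟨c, hc⟩ := exists_good_K
  obtain ⟨LK, hK⟩ := hc (max 25 (max (2 * c + 2) ⌈17 / del⌉₊))
  obtain ⟨L1, hthick⟩ := fibre_thick
  obtain ⟨L2, hthin⟩ := fibre_thin
  obtain ⟨L3, hlow⟩ := fibre_low
  obtain ⟨L4, herr⟩ := error_small
  obtain ⟨L5, hbad⟩ := tail_bad_small
  refine ⟨max LK (max L1 (max L2 (max L3 (max L4 (max L5 1))))), fun L hL => ?_⟩
  simp only [max_le_iff] at hL
  obtain ⟨hLK, hL1, hL2, hL3, hL4, hL5, hL0⟩ := hL
  obtain ⟨P, rfl, hP, hk, hG⟩ := hK L hLK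
  simp only [max_le_iff] at hk
  obtain ⟨hK25, hKc, hKdel⟩ := hk
  have hK16 : 16 ≤ P.K := by omega
  have hh := hRec_pos P.K
  obtain ⟨hLr, hfl⟩ := hlow P hP hL3 hK25
  obtain ⟨he1, he2⟩ := herr P hP hL4
  set a : ℝ := 1 / 2 ^ P.K with ha
  set Y : ℝ := (P.L * (1 / (2 ^ P.K * 200 * (P.K : ℝ) ^ 2))) ^ (P.K - 1) with hY
  set E := (P.K : ℝ) * (2 * P.L) ^ P.K * Real.exp (-(P.L ^ (0.65 : ℝ))) with hE
  set sD := P.L / (200 * hRec P.K) with hsD
  have ha0 : 0 ≤ a := by positivity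
  have ha4 : a ≤ 1 / 4 := by
    rw [ha, show (4 : ℝ) = 2 ^ 2 by norm_num]
    gcongr
    · norm_num
    · omega
  have hY8 : 8 ≤ Y := hLr.trans (le_self_pow₀ (by linarith) (by omega))
  have hG1 := one_le_valueMass sD
  -- the lower bound
  have hgood : valueMass sD * Y / 8 ≤ P.mass P.goodPairs := by
    obtain ⟨F, hF⟩ : ∃ F : Finset (smoothValues sD),
        valueMass sD / 2 ≤ ∑ m ∈ F, (1 : ℝ) / ((m : ℕ) : ℝ) := by
      by_contra hno
      push Not at hno
      have : valueMass sD ≤ valueMass sD / 2 :=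
        Real.tsum_le_of_sum_le (fun m => by positivity) fun F => (hno F).le
      linarith
    set S := F.map (Function.Embedding.subtype _) with hS
    have hSmem : ∀ m ∈ S, m ∈ smoothValues sD := by
      intro m hm
      obtain ⟨w, -, rfl⟩ := Finset.mem_map.1 hm
      exact w.2
    have hSsum : valueMass sD / 2 ≤ ∑ m ∈ S, (1 : ℝ) / m := by
      rw [hS, Finset.sum_map]; exact hF
    have hsD3 : sD ≤ P.L / 3 := by
      rw [hsD]
      gcongr
      nlinarith [one_le_hRec P.K]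
    have hb := hbad P hP hL5 (S.filter fun m => ¬ P.TailGood m) fun m hm =>
      ⟨smoothValues_mono hsD3 (hSmem m (Finset.mem_filter.1 hm).1), (Finset.mem_filter.1 hm).2⟩
    rw [← Finset.sum_filter_add_sum_filter_not S (fun m => P.TailGood m)] at hSsum
    have hT' : ∀ m ∈ S.filter (fun m => P.TailGood m), ∃ T : Finset (Fin (P.K - 1) → ℕ),
        (∀ x ∈ T, P.GoodPair (x, m)) ∧
          Y / 2 ≤ ∑ x ∈ T, ∏ i, (1 : ℝ) / (Nat.totient (x i) : ℝ) := fun m hm =>
      hfl m (Finset.mem_filter.1 hm).2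
        (tailB_top_small (by linarith) (hSmem m (Finset.mem_filter.1 hm).1))
    choose! T hT using hT'
    refine le_trans ?_ (sum_tails_le_mass (M := S.filter fun m => P.TailGood m) (T := T)
      fun m hm x hx => P.mem_goodPairs.2 ((hT m hm).1 x hx))
    calc valueMass sD * Y / 8 = valueMass sD / 4 * (Y / 2) := by ring
      _ ≤ (∑ m ∈ S.filter (fun m => P.TailGood m), (1 : ℝ) / m) * (Y / 2) := by
          gcongr
          linarith
      _ ≤ _ := by
          rw [Finset.sum_mul]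
          exact Finset.sum_le_sum fun m hm =>
            mul_le_mul_of_nonneg_left (hT m hm).2 (by positivity)
  have hg1 : 1 ≤ P.mass P.goodPairs := by nlinarith
  refine ⟨P, rfl, hP, hK16, hg1, ?_⟩
  -- the upper bound
  set M := P.upperPairs.image Prod.snd with hMdef
  have hM : ∀ m ∈ M, P.TailGood m := by
    intro m hm
    obtain ⟨z, hz, rfl⟩ := Finset.mem_image.1 hm
    exact (P.mem_upperPairs.1 hz).2.1
  have hU : ∀ m, ∀ x ∈ fib P.upperPairs m, P.UpperPair (x, m) := fun m x hx =>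
    P.mem_upperPairs.1 (mem_fib.1 hx)
  have hinv : ∀ M' ⊆ M, ∑ m ∈ M', (1 : ℝ) / m ≤ valueMass (P.L + 1) := fun M' hM' =>
    sum_inv_le_valueMass _ _ fun m hm =>
      ⟨canon m, (hM m (hM' hm)).smooth, (hM m (hM' hm)).pre⟩
  set W : ℕ → ℝ := fun m =>
    ∑ x ∈ fib P.upperPairs m, ∏ i, (1 : ℝ) / (Nat.totient (x i) : ℝ) with hW
  have hthickBound : ∑ m ∈ M.filter (fun m => 1 / 2 ^ (3 * P.K) ≤ P.beta (P.tailB m)),
      1 / (m : ℝ) * W m ≤ (1 + 4 * a) * (P.mass P.goodPairs + a) := by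
    have hT' : ∀ m ∈ M.filter (fun m => 1 / 2 ^ (3 * P.K) ≤ P.beta (P.tailB m)),
        ∃ T : Finset (Fin (P.K - 1) → ℕ), (∀ x ∈ T, P.GoodPair (x, m)) ∧
          W m ≤ (1 + 4 / 2 ^ P.K) *
            (∑ x ∈ T, ∏ i, (1 : ℝ) / (Nat.totient (x i) : ℝ) + E) := fun m hm =>
      hthick P hP hL1 hK16 m (hM m (Finset.mem_filter.1 hm).1) (Finset.mem_filter.1 hm).2 _ (hU m)
    choose! T hT using hT'
    have hs := sum_tails_le_mass (S := P.goodPairs) (T := T) fun m hm x hx =>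
      P.mem_goodPairs.2 ((hT m hm).1 x hx)
    have hE' : E * ∑ m ∈ M.filter (fun m => 1 / 2 ^ (3 * P.K) ≤ P.beta (P.tailB m)),
        (1 : ℝ) / m ≤ a := by
      refine le_trans ?_ (he1.trans he2)
      exact mul_le_mul_of_nonneg_left (hinv _ (Finset.filter_subset _ _)) (by positivity)
    rw [show (4 : ℝ) * a = 4 / 2 ^ P.K by rw [ha]; ring]
    refine (Finset.sum_le_sum fun m hm => mul_le_mul_of_nonneg_left (hT m hm).2
      (show (0 : ℝ) ≤ 1 / (m : ℝ) by positivity)).trans ?_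
    simp only [mul_left_comm _ (1 + 4 / (2 : ℝ) ^ P.K), ← Finset.mul_sum]
    refine mul_le_mul_of_nonneg_left ?_ (by positivity)
    simp only [mul_add, Finset.sum_add_distrib]
    rw [← Finset.sum_mul]
    refine add_le_add hs ?_
    rw [mul_comm]
    exact hE'
  have hthinBound : ∑ m ∈ M.filter (fun m => ¬ 1 / 2 ^ (3 * P.K) ≤ P.beta (P.tailB m)),
      1 / (m : ℝ) * W m ≤ 8 * a * P.mass P.goodPairs := by
    set B := (20 * (P.L / 2 ^ (3 * P.K))) ^ (P.K - 1)
    have hB0 : 0 ≤ B := by positivity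
    refine (Finset.sum_le_sum fun m hm => mul_le_mul_of_nonneg_left
      (hthin P hP hL2 hK16 m (hM m (Finset.mem_filter.1 hm).1)
        (not_le.1 (Finset.mem_filter.1 hm).2) _ (hU m))
      (show (0 : ℝ) ≤ 1 / (m : ℝ) by positivity)).trans ?_
    rw [← Finset.sum_mul]
    have hsum : ∑ m ∈ M.filter (fun m => ¬ 1 / 2 ^ (3 * P.K) ≤ P.beta (P.tailB m)),
        (1 : ℝ) / m ≤ valueMass (3 * P.L / hRec P.K) := by
      refine sum_inv_le_valueMass _ _ fun m hm => ?_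
      have hmM := (Finset.mem_filter.1 hm).1
      refine tail_mem_smoothValues hK16 (by linarith) (hM m hmM) ?_
      obtain ⟨z, hz, rfl⟩ := Finset.mem_image.1 hmM
      have hη : 0 < P.eta := Params.eta_pos
      exact hRec_mul_le_two hK16 (hM _ hmM).ok (e := 2 * P.eta) (by linarith) (by linarith)
        ⟨_, (P.mem_upperPairs.1 hz).2.2⟩
    calc (∑ m ∈ M.filter (fun m => ¬ 1 / 2 ^ (3 * P.K) ≤ P.beta (P.tailB m)), (1 : ℝ) / m) * B
        ≤ 2 ^ (2 * c * P.K) * valueMass sD * B :=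
          mul_le_mul_of_nonneg_right (hsum.trans hG) hB0
      _ = valueMass sD * (B * 2 ^ (2 * c * P.K)) := by ring
      _ ≤ valueMass sD * (a * Y) := by
          refine mul_le_mul_of_nonneg_left ?_ (by linarith)
          exact thin_le_box hK25 hKc (by linarith)
      _ = 8 * a * (valueMass sD * Y / 8) := by ring
      _ ≤ 8 * a * P.mass P.goodPairs := mul_le_mul_of_nonneg_left hgood (by positivity)
  have hup : P.mass P.upperPairs ≤
      (1 + 4 * a) * (P.mass P.goodPairs + a) + 8 * a * P.mass P.goodPairs := by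
    rw [mass_eq_tails, ← Finset.sum_filter_add_sum_filter_not M
      (fun m => 1 / 2 ^ (3 * P.K) ≤ P.beta (P.tailB m))]
    exact add_le_add hthickBound hthinBound
  set g := P.mass P.goodPairs
  have hd : P.mass P.upperPairs - g ≤ 17 * a * g := by nlinarith
  have hKa : (P.K : ℝ) * (17 * a) ≤ del := by
    have h1 : 17 / del ≤ (P.K : ℝ) := le_trans (Nat.le_ceil _) (by exact_mod_cast hKdel)
    rw [div_le_iff₀ hdel] at h1
    have h2 := sq_mul_le_two_pow hK25
    rw [ha, ← mul_assoc, mul_one_div, div_le_iff₀ (by positivity)]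
    have hK0 : (0 : ℝ) ≤ P.K := Nat.cast_nonneg _
    nlinarith [mul_le_mul_of_nonneg_left h1 hK0, mul_le_mul_of_nonneg_left h2 hdel.le,
      sq_nonneg (P.K : ℝ)]
  calc (P.K : ℝ) * (P.mass P.upperPairs - g) ≤ P.K * (17 * a * g) := by gcongr
    _ = P.K * (17 * a) * g := by ring
    _ ≤ del * g := by gcongr

/-- Section 6, with no remaining hypothesis. -/
theorem mass_upper_sub_good_le : ∀ del : ℝ, 0 < del → ∃ L0 : ℝ, ∀ L, L0 ≤ L →
    ∃ P : Params, P.L = L ∧ P.Admissible ∧ 16 ≤ P.K ∧ 1 ≤ P.mass P.goodPairs ∧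
      (P.K : ℝ) * (P.mass P.upperPairs - P.mass P.goodPairs) ≤ del * P.mass P.goodPairs :=
  mass_upper_sub_good_le_of tail_bad_small

end Vale.Agent.P031
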