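import Mathlib

/-!
# Newman's analytic theorem, in multiplicative form, with rectangular contours
-/

open Complex MeasureTheory Set Filter Topology
open scoped Interval

noncomputable section

namespace Vale.Agent.P031.Newman

variable {h : ℝ → ℝ} {B : ℝ}

/-- The truncated transform. -/
def gT (h : ℝ → ℝ) (T : ℝ) (z : ℂ) : ℂ := ∫ t in Ioc (1 : ℝ) T, (h t : ℂ) * (t : ℂ) ^ (-(z + 1))

/-- Newman's kernel. -/
def ker (R T : ℝ) (z : ℂ) : ℂ := (T : ℂ) ^ z * (1 + z ^ 2 / (R : ℂ) ^ 2)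

theorem norm_integrand (hB : ∀ t, |h t| ≤ B) {t : ℝ} (ht : 0 < t) (z : ℂ) :
    ‖(h t : ℂ) * (t : ℂ) ^ (-(z + 1))‖ ≤ B * t ^ (-(z.re + 1)) := by
  rw [norm_mul, norm_cpow_eq_rpow_re_of_pos ht, Complex.norm_real, Real.norm_eq_abs]
  simp only [neg_re, add_re, one_re]
  exact mul_le_mul_of_nonneg_right (hB t) (Real.rpow_nonneg ht.le _)

theorem measurable_integrand (hm : Measurable h) (z : ℂ) :
    Measurable fun t : ℝ => (h t : ℂ) * (t : ℂ) ^ (-(z + 1)) :=
  (measurable_ofReal.comp hm).mul (measurable_ofReal.pow_const _)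

theorem integrableOn_tail (hm : Measurable h) (hB : ∀ t, |h t| ≤ B) {T : ℝ} (hT : 1 ≤ T) {z : ℂ}
    (hz : 0 < z.re) : IntegrableOn (fun t : ℝ => (h t : ℂ) * (t : ℂ) ^ (-(z + 1))) (Ioi T) := by
  refine Integrable.mono' (g := fun t => B * t ^ (-(z.re + 1))) ?_
    (measurable_integrand hm z).aestronglyMeasurable ?_
  · exact (integrableOn_Ioi_rpow_of_lt (by linarith) (by linarith)).const_mul B
  · exact (ae_restrict_iff' measurableSet_Ioi).2
      (ae_of_all _ fun t ht => norm_integrand hB (lt_of_lt_of_le (by linarith) (le_of_lt ht)) z)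

theorem norm_tail (hB : ∀ t, |h t| ≤ B) {T : ℝ} (hT : 1 ≤ T) {z : ℂ} (hz : 0 < z.re) :
    ‖∫ t in Ioi T, (h t : ℂ) * (t : ℂ) ^ (-(z + 1))‖ ≤ B * T ^ (-z.re) / z.re := by
  refine (norm_integral_le_of_norm_le (g := fun t => B * t ^ (-(z.re + 1)))
    ((integrableOn_Ioi_rpow_of_lt (by linarith) (by linarith)).const_mul B) ?_).trans ?_
  · exact (ae_restrict_iff' measurableSet_Ioi).2
      (ae_of_all _ fun t ht => norm_integrand hB (lt_of_lt_of_le (by linarith) (le_of_lt ht)) z)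
  · rw [integral_const_mul, integral_Ioi_rpow_of_lt (by linarith) (by linarith)]
    apply le_of_eq
    rw [show -(z.re + 1) + 1 = -z.re by ring]
    field_simp

theorem norm_gT (hB : ∀ t, |h t| ≤ B) {T : ℝ} (hT : 1 ≤ T) {z : ℂ} (hz : z.re < 0) :
    ‖gT h T z‖ ≤ B * T ^ (-z.re) / (-z.re) := by
  have hB0 : 0 ≤ B := (abs_nonneg _).trans (hB 0)
  have hint : IntervalIntegrable (fun t : ℝ => t ^ (-(z.re + 1))) volume 1 T :=
    intervalIntegral.intervalIntegrable_rpow' (by linarith)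
  unfold gT
  rw [← intervalIntegral.integral_of_le hT]
  refine (intervalIntegral.norm_integral_le_of_norm_le hT
    (g := fun t => B * t ^ (-(z.re + 1)))
    (ae_of_all _ fun t ht => norm_integrand hB (lt_trans one_pos ht.1) z) (hint.const_mul B)).trans ?_
  rw [intervalIntegral.integral_const_mul, integral_rpow (Or.inl (by linarith)),
    show -(z.re + 1) + 1 = -z.re by ring, Real.one_rpow, mul_div_assoc]
  refine mul_le_mul_of_nonneg_left (div_le_div_of_nonneg_right ?_ (by linarith)) hB0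
  linarith

theorem differentiable_gT (hm : Measurable h) (hB : ∀ t, |h t| ≤ B) (T : ℝ) :
    Differentiable ℂ (gT h T) := by
  have hB0 : 0 ≤ B := (abs_nonneg _).trans (hB 0)
  intro z0
  have hfin : IsFiniteMeasure (volume.restrict (Ioc (1 : ℝ) T)) :=
    isFiniteMeasure_restrict.2 measure_Ioc_lt_top.ne
  set C := B * max T 1 ^ (|z0.re| + 2) with hC
  have hbd : ∀ z ∈ Metric.ball z0 1, ∀ t ∈ Ioc (1 : ℝ) T,
      ‖(h t : ℂ) * (t : ℂ) ^ (-(z + 1))‖ ≤ C := by
    intro z hz t ht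
    refine (norm_integrand hB (lt_trans one_pos ht.1) z).trans (mul_le_mul_of_nonneg_left ?_ hB0)
    have hre : |z.re - z0.re| < 1 := by
      rw [← sub_re]
      exact (abs_re_le_norm _).trans_lt (by rwa [← dist_eq])
    calc t ^ (-(z.re + 1)) ≤ t ^ (|z0.re| + 2) :=
          Real.rpow_le_rpow_of_exponent_le ht.1.le (by
            have := abs_lt.1 hre; have := neg_abs_le z0.re; linarith)
      _ ≤ max T 1 ^ (|z0.re| + 2) :=
          Real.rpow_le_rpow (by linarith [ht.1]) (ht.2.trans (le_max_left _ _)) (by positivity)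
  refine (hasDerivAt_integral_of_dominated_loc_of_deriv_le
    (F := fun z (t : ℝ) => (h t : ℂ) * (t : ℂ) ^ (-(z + 1)))
    (F' := fun z (t : ℝ) => (h t : ℂ) * (t : ℂ) ^ (-(z + 1)) * (-Complex.log t))
    (bound := fun t => C * Real.log (max T 1)) (Metric.ball_mem_nhds z0 one_pos)
    (Eventually.of_forall fun z => (measurable_integrand hm z).aestronglyMeasurable)
    ?_ ?_ ?_ (integrable_const _) ?_).2.differentiableAt
  · exact Integrable.mono' (integrable_const C) (measurable_integrand hm z0).aestronglyMeasurable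
      ((ae_restrict_iff' measurableSet_Ioc).2
        (ae_of_all _ fun t ht => hbd z0 (Metric.mem_ball_self one_pos) t ht))
  · exact ((measurable_integrand hm z0).mul
      (Complex.measurable_log.comp measurable_ofReal).neg).aestronglyMeasurable
  · refine (ae_restrict_iff' measurableSet_Ioc).2 (ae_of_all _ fun t ht z hz => ?_)
    have h0 : 0 < t := lt_trans one_pos ht.1
    rw [norm_mul, norm_neg, ← ofReal_log h0.le, Complex.norm_real, Real.norm_eq_abs,
      abs_of_nonneg (Real.log_nonneg ht.1.le)]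
    exact mul_le_mul (hbd z hz t ht) (Real.log_le_log h0 (ht.2.trans (le_max_left _ _)))
      (Real.log_nonneg ht.1.le) ((norm_nonneg _).trans (hbd z hz t ht))
  · refine (ae_restrict_iff' measurableSet_Ioc).2 (ae_of_all _ fun t ht z _ => ?_)
    have h0 : (t : ℂ) ≠ 0 := ofReal_ne_zero.2 (lt_trans one_pos ht.1).ne'
    have h1 := ((hasDerivAt_id z).add_const (1 : ℂ)).neg.const_cpow (c := (t : ℂ)) (Or.inl h0)
    exact (h1.const_mul (h t : ℂ)).congr_deriv (by simp; ring)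

theorem norm_ker_hor {R T : ℝ} (hR : 0 < R) (hT : 0 < T) {z : ℂ} (hy : |z.im| = R)
    (hx : |z.re| ≤ R) : ‖ker R T z / z‖ ≤ T ^ z.re * (3 * |z.re| / R ^ 2) := by
  have hz : R ≤ ‖z‖ := hy ▸ abs_im_le_norm z
  have hfac : 1 + z ^ 2 / (R : ℂ) ^ 2 = (z.re : ℂ) * ((z.re : ℂ) + 2 * z.im * I) / (R : ℂ) ^ 2 := by
    have hR' : (R : ℂ) ≠ 0 := ofReal_ne_zero.2 hR.ne'
    have h2 : z.im * z.im = R * R := by rw [← hy, ← abs_mul, abs_mul_self]
    rw [eq_div_iff (pow_ne_zero 2 hR'), add_mul, div_mul_cancel₀ _ (pow_ne_zero 2 hR'), one_mul]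
    apply Complex.ext
    · simp [pow_two, mul_re, mul_im]; linarith
    · simp [pow_two, mul_re, mul_im]; ring
  unfold ker
  rw [norm_div, norm_mul, norm_cpow_eq_rpow_re_of_pos hT, hfac, norm_div, norm_mul, norm_pow,
    Complex.norm_real, Complex.norm_real, Real.norm_eq_abs, Real.norm_eq_abs, abs_of_pos hR]
  have h3 : ‖(z.re : ℂ) + 2 * z.im * I‖ ≤ 3 * ‖z‖ := by
    refine (norm_add_le _ _).trans ?_
    have := abs_re_le_norm z
    have := abs_im_le_norm z
    simp
    linarith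
  rw [div_le_iff₀ (by linarith), mul_assoc (T ^ z.re)]
  refine mul_le_mul_of_nonneg_left ?_ (Real.rpow_nonneg hT.le _)
  rw [div_mul_eq_mul_div, div_le_div_iff_of_pos_right (by positivity)]
  calc |z.re| * ‖(z.re : ℂ) + 2 * z.im * I‖ ≤ |z.re| * (3 * ‖z‖) := by gcongr
    _ = 3 * |z.re| * ‖z‖ := by ring

theorem norm_ker_ver {R T c : ℝ} (hR : 0 < R) (hT : 0 < T) {z : ℂ} (hc : 0 < c)
    (hcx : c ≤ |z.re|) (hx : |z.re| ≤ R) (hy : |z.im| ≤ R) :
    ‖ker R T z / z‖ ≤ T ^ z.re * (3 / c) := by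
  have hz : c ≤ ‖z‖ := hcx.trans (abs_re_le_norm z)
  have hn : ‖z‖ ^ 2 ≤ 2 * R ^ 2 := by
    rw [Complex.sq_norm, normSq_apply]
    have h1 := sq_abs z.re
    have h2 := sq_abs z.im
    nlinarith [abs_nonneg z.re, abs_nonneg z.im]
  have h3 : ‖1 + z ^ 2 / (R : ℂ) ^ 2‖ ≤ 3 := by
    refine (norm_add_le _ _).trans ?_
    rw [norm_div, norm_pow, norm_pow, norm_one, Complex.norm_real, Real.norm_eq_abs, sq_abs]
    have : ‖z‖ ^ 2 / R ^ 2 ≤ 2 := by rw [div_le_iff₀ (by positivity)]; linarith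
    linarith
  unfold ker
  rw [norm_div, norm_mul, norm_cpow_eq_rpow_re_of_pos hT, div_le_iff₀ (by linarith), mul_assoc]
  refine mul_le_mul_of_nonneg_left (h3.trans ?_) (Real.rpow_nonneg hT.le _)
  rw [div_mul_eq_mul_div, le_div_iff₀ hc]
  linarith

theorem mul_ker_hor {R T : ℝ} (hR : 0 < R) (hT : 0 < T) (hB0 : 0 ≤ B) {z w : ℂ}
    (hy : |z.im| = R) (hx : |z.re| ≤ R) (hw : z.re ≠ 0 → ‖w‖ ≤ B * T ^ (-z.re) / |z.re|) :
    ‖w * ker R T z / z‖ ≤ 3 * B / R ^ 2 := by
  rw [mul_div_assoc, norm_mul]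
  have hk := norm_ker_hor hR hT hy hx
  rcases eq_or_ne z.re 0 with h0 | h0
  · rw [h0, abs_zero, mul_zero, zero_div, mul_zero] at hk
    rw [le_antisymm hk (norm_nonneg _), mul_zero]
    positivity
  · refine (mul_le_mul (hw h0) hk (norm_nonneg _) ((norm_nonneg w).trans (hw h0))).trans_eq ?_
    have hx0 : |z.re| ≠ 0 := abs_ne_zero.2 h0
    rw [Real.rpow_neg hT.le]
    field_simp [(Real.rpow_pos_of_pos hT z.re).ne']

theorem mul_ker_ver {R T : ℝ} (hR : 0 < R) (hT : 0 < T) {z w : ℂ}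
    (hx : |z.re| = R) (hy : |z.im| ≤ R) (hw : ‖w‖ ≤ B * T ^ (-z.re) / |z.re|) :
    ‖w * ker R T z / z‖ ≤ 3 * B / R ^ 2 := by
  rw [mul_div_assoc, norm_mul]
  refine (mul_le_mul hw (norm_ker_ver hR hT hR hx.ge hx.le hy) (norm_nonneg _)
    ((norm_nonneg w).trans hw)).trans_eq ?_
  rw [hx, Real.rpow_neg hT.le]
  field_simp [(Real.rpow_pos_of_pos hT z.re).ne']

theorem norm_edge {F : ℂ → ℂ} {p : ℝ → ℂ} {a b K : ℝ} (hab : a ≤ b)
    (h : ∀ x, a ≤ x → x ≤ b → ‖F (p x)‖ ≤ K) : ‖∫ x in a..b, F (p x)‖ ≤ K * (b - a) := by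
  have := intervalIntegral.norm_integral_le_of_norm_le_const (a := a) (b := b) (C := K)
    (f := fun x => F (p x)) (fun x hx => by
      rw [uIoc_of_le hab] at hx
      exact h x hx.1.le hx.2)
  rwa [abs_of_nonneg (by linarith)] at this

theorem intervalIntegrable_edge {F : ℂ → ℂ} {s : Set ℂ} (hF : ContinuousOn F s) {p : ℝ → ℂ}
    (hp : Continuous p) {a b : ℝ} (h : ∀ x ∈ uIcc a b, p x ∈ s) :
    IntervalIntegrable (fun x => F (p x)) volume a b :=
  (hF.comp hp.continuousOn h).intervalIntegrable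

/-- The winding integral of the reciprocal round a rectangle containing the origin. -/
theorem one_le_winding {R d : ℝ} (hR : 0 < R) (hd : 0 < d) :
    1 ≤ ‖(∫ x : ℝ in -d..R, ((x : ℂ) + (-R : ℝ) * I)⁻¹) -
      (∫ x : ℝ in -d..R, ((x : ℂ) + (R : ℝ) * I)⁻¹) +
      I * (∫ y : ℝ in -R..R, ((R : ℂ) + y * I)⁻¹) -
      I * (∫ y : ℝ in -R..R, (((-d : ℝ) : ℂ) + y * I)⁻¹)‖ := by
  have hh : ∀ s : ℝ, s ≠ 0 → ∀ a b : ℝ,
      (∫ x : ℝ in a..b, ((x : ℂ) + s * I)⁻¹).im = ∫ x : ℝ in a..b, -s / (x ^ 2 + s ^ 2) := by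
    intro s hs a b
    rw [← Complex.imCLM_apply, ← Complex.imCLM.intervalIntegral_comp_comm]
    · refine intervalIntegral.integral_congr fun x _ => ?_
      simp [Complex.inv_im, normSq_apply, sq]
    · refine Continuous.intervalIntegrable ?_ _ _
      refine Continuous.inv₀ (by fun_prop) fun x h0 => hs ?_
      simpa using congrArg Complex.im h0
  have hv : ∀ c : ℝ, c ≠ 0 →
      (∫ y : ℝ in -R..R, ((c : ℂ) + y * I)⁻¹).re = ∫ y : ℝ in -R..R, c / (c ^ 2 + y ^ 2) := by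
    intro c hc
    rw [← Complex.reCLM_apply, ← Complex.reCLM.intervalIntegral_comp_comm]
    · refine intervalIntegral.integral_congr fun x _ => ?_
      simp [Complex.inv_re, normSq_apply, sq]
    · refine Continuous.intervalIntegrable ?_ _ _
      refine Continuous.inv₀ (by fun_prop) fun x h0 => hc ?_
      simpa using congrArg Complex.re h0
  refine le_trans ?_ (abs_im_le_norm _)
  refine le_trans ?_ (le_abs_self _)
  simp only [sub_im, add_im, mul_im, I_re, I_im, zero_mul, one_mul, zero_add]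
  rw [hh (-R) (by linarith), hh R hR.ne', hv R hR.ne', hv (-d) (by linarith)]
  have h1 : 0 ≤ ∫ y : ℝ in -R..R, R / (R ^ 2 + y ^ 2) :=
    intervalIntegral.integral_nonneg (by linarith) fun y _ => by positivity
  have h2 : (∫ y : ℝ in -R..R, -d / ((-d) ^ 2 + y ^ 2)) ≤ 0 := by
    rw [← neg_nonneg, ← intervalIntegral.integral_neg]
    refine intervalIntegral.integral_nonneg (by linarith) fun y _ => ?_
    rw [neg_div, neg_neg]
    positivity
  have h3 : 1 / 2 ≤ ∫ x : ℝ in -d..R, R / (x ^ 2 + R ^ 2) := by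
    have hc : Continuous fun x : ℝ => R / (x ^ 2 + R ^ 2) :=
      continuous_const.div (by fun_prop) fun x => by positivity
    rw [← intervalIntegral.integral_add_adjacent_intervals (hc.intervalIntegrable (-d) 0)
      (hc.intervalIntegrable 0 R)]
    have h4 : 0 ≤ ∫ x : ℝ in -d..0, R / (x ^ 2 + R ^ 2) :=
      intervalIntegral.integral_nonneg (by linarith) fun x _ => by positivity
    have h5 : (∫ _x : ℝ in (0 : ℝ)..R, 1 / (2 * R)) ≤ ∫ x : ℝ in (0 : ℝ)..R, R / (x ^ 2 + R ^ 2) := by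
      refine intervalIntegral.integral_mono_on hR.le intervalIntegrable_const
        (hc.intervalIntegrable _ _) fun x hx => ?_
      rw [div_le_div_iff₀ (by positivity) (by positivity)]
      nlinarith [hx.1, hx.2]
    rw [intervalIntegral.integral_const, smul_eq_mul, sub_zero,
      show R * (1 / (2 * R)) = 1 / 2 by field_simp] at h5
    linarith
  simp only [neg_neg, neg_sq, neg_div, intervalIntegral.integral_neg] at *
  linarith

/-- The main estimate at fixed radius. -/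
theorem newman_bound (hm : Measurable h) (hB : ∀ t, |h t| ≤ B) {g : ℂ → ℂ} {U : Set ℂ}
    (hU : IsOpen U) (hsub : {z : ℂ | 0 ≤ z.re} ⊆ U) (hg : DifferentiableOn ℂ g U)
    (hgeq : ∀ z : ℂ, 0 < z.re → g z = ∫ t in Ioi (1 : ℝ), (h t : ℂ) * (t : ℂ) ^ (-(z + 1)))
    {R : ℝ} (hR : 1 ≤ R) :
    ∀ᶠ T : ℝ in atTop, ‖g 0 - gT h T 0‖ ≤ (30 * B + 7) / R := by
  have hB0 : 0 ≤ B := (abs_nonneg _).trans (hB 0)
  have hR0 : 0 < R := by linarith
  obtain ⟨d0, hd0, hd0U⟩ : ∃ d0 > 0, ∀ z : ℂ, -d0 ≤ z.re → |z.im| ≤ R → z ∈ U := by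
    have hc : IsCompact ((fun y : ℝ => (y : ℂ) * I) '' Icc (-R) R) :=
      isCompact_Icc.image (by fun_prop)
    obtain ⟨d0, hd0, hU'⟩ := hc.exists_cthickening_subset_open hU (by
      rintro _ ⟨y, -, rfl⟩
      exact hsub (by simp))
    refine ⟨d0, hd0, fun z hz hy => ?_⟩
    rcases le_or_gt 0 z.re with hp | hn
    · exact hsub hp
    · refine hU' (Metric.mem_cthickening_of_dist_le z ((z.im : ℂ) * I) d0 _
        ⟨z.im, abs_le.1 hy, rfl⟩ ?_)
      have hd : z - (z.im : ℂ) * I = (z.re : ℂ) := by apply Complex.ext <;> simp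
      rw [dist_eq, hd, Complex.norm_real, Real.norm_eq_abs, abs_of_neg hn]
      linarith
  have hK : IsCompact ((fun p : ℝ × ℝ => (p.1 : ℂ) + p.2 * I) '' (Icc (-d0) 0 ×ˢ Icc (-R) R)) :=
    (isCompact_Icc.prod isCompact_Icc).image (by fun_prop)
  obtain ⟨M, hM⟩ := hK.exists_bound_of_continuousOn (hg.continuousOn.mono (by
    rintro _ ⟨⟨a, b⟩, ⟨ha, hb⟩, rfl⟩
    exact hd0U _ (by simpa using ha.1) (by simpa [abs_le] using hb)))
  have hgM : ∀ z : ℂ, -d0 ≤ z.re → z.re ≤ 0 → |z.im| ≤ R → ‖g z‖ ≤ |M| := fun z h1 h2 h3 =>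
    (hM z ⟨(z.re, z.im), ⟨⟨h1, h2⟩, abs_le.1 h3⟩, re_add_im z⟩).trans (le_abs_self M)
  set d := min d0 (1 / (R * (|M| + 1))) with hd_def
  have hd : 0 < d := lt_min hd0 (by positivity)
  have hdd0 : d ≤ d0 := min_le_left _ _
  have hd1 : d * (R * (|M| + 1)) ≤ 1 := by
    rw [← le_div_iff₀ (by positivity)]; exact min_le_right _ _
  have hdR : d ≤ R := by nlinarith [abs_nonneg M, mul_nonneg hd.le (abs_nonneg M)]
  have hdM : |M| * d * d ≤ R := by nlinarith [abs_nonneg M, mul_nonneg hd.le (abs_nonneg M)]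
  have hlim : Tendsto (fun T : ℝ => 6 * |M| * R / d * T ^ (-d)) atTop (𝓝 (6 * |M| * R / d * 0)) :=
    (tendsto_rpow_neg_atTop hd).const_mul _
  rw [mul_zero] at hlim
  filter_upwards [hlim.eventually (ge_mem_nhds (show (0 : ℝ) < 1 / R by positivity)),
    eventually_ge_atTop (1 : ℝ)] with T hTd hT
  have hT0 : 0 < T := by linarith
  have hTc : (T : ℂ) ≠ 0 := ofReal_ne_zero.2 hT0.ne'
  have hker : Differentiable ℂ (ker R T) := fun z =>
    (differentiableAt_id.const_cpow (Or.inl hTc)).mul (by fun_prop)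
  have hgTd := differentiable_gT hm hB T
  set φ : ℂ → ℂ := fun z => (g z - gT h T z) * ker R T z with hφ
  have hU0 : U ∈ 𝓝 (0 : ℂ) := hU.mem_nhds (hsub (by simp))
  have hG : DifferentiableOn ℂ (dslope φ 0) U :=
    (differentiableOn_dslope hU0).2 ((hg.sub hgTd.differentiableOn).mul hker.differentiableOn)
  set S : Set ℂ := {z | z ∈ U ∧ z ≠ 0} with hS
  have hGeq : ∀ z : ℂ, z ≠ 0 → dslope φ 0 z = φ z / z - φ 0 * z⁻¹ := by
    intro z hz
    rw [dslope_of_ne _ hz, slope_def_field, sub_zero, sub_div, div_eq_mul_inv (φ 0)]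
  have hc1 : ContinuousOn (fun z => φ z / z) S :=
    (((hg.sub hgTd.differentiableOn).mul hker.differentiableOn).continuousOn.mono
      fun z hz => hz.1).div continuousOn_id fun z hz => hz.2
  have hc2 : ContinuousOn (fun z : ℂ => φ 0 * z⁻¹) S :=
    continuousOn_const.mul (continuousOn_id.inv₀ fun z hz => hz.2)
  have hedge : ∀ (p : ℝ → ℂ) (a b : ℝ), Continuous p → (∀ x ∈ uIcc a b, p x ∈ S) →
      (∫ x in a..b, dslope φ 0 (p x)) = (∫ x in a..b, φ (p x) / p x) - φ 0 * ∫ x in a..b, (p x)⁻¹ := by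
    intro p a b hp hmem
    rw [← intervalIntegral.integral_const_mul,
      ← intervalIntegral.integral_sub (intervalIntegrable_edge hc1 hp hmem)
        (intervalIntegrable_edge hc2 hp hmem)]
    exact intervalIntegral.integral_congr fun x hx => hGeq _ (hmem x hx).2
  have hmemH : ∀ s : ℝ, |s| = R → ∀ a b : ℝ, -d ≤ a → a ≤ b →
      ∀ x ∈ uIcc a b, (x : ℂ) + s * I ∈ S := by
    intro s hs a b ha hab x hx
    rw [uIcc_of_le hab] at hx
    refine ⟨hd0U _ (by simp; linarith [hx.1]) (by simp [hs]), fun h0 => ?_⟩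
    have : s = 0 := by simpa using congrArg Complex.im h0
    rw [this, abs_zero] at hs; linarith
  have hmemV : ∀ c : ℝ, c ≠ 0 → -d ≤ c → ∀ y ∈ uIcc (-R) R, (c : ℂ) + y * I ∈ S := by
    intro c hc hdc y hy
    rw [uIcc_of_le (by linarith)] at hy
    refine ⟨hd0U _ (by simp; linarith) (by simpa [abs_le] using hy), fun h0 => hc ?_⟩
    simpa using congrArg Complex.re h0
  have hrect : DifferentiableOn ℂ (dslope φ 0)
      ([[((-d : ℝ) + (-R : ℝ) * I : ℂ).re, ((R : ℝ) + (R : ℝ) * I : ℂ).re]] ×ℂ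
       [[((-d : ℝ) + (-R : ℝ) * I : ℂ).im, ((R : ℝ) + (R : ℝ) * I : ℂ).im]]) := by
    refine hG.mono fun z hz => ?_
    rw [mem_reProdIm] at hz
    simp only [add_re, ofReal_re, mul_re, I_re, mul_zero, ofReal_im, I_im, sub_zero, add_zero,
      add_im, mul_im, mul_one, zero_add, zero_mul, sub_self] at hz
    rw [uIcc_of_le (by linarith), uIcc_of_le (by linarith)] at hz
    exact hd0U z (by linarith [hz.1.1]) (abs_le.2 hz.2)
  have key := integral_boundary_rect_eq_zero_of_differentiableOn _ _ _ hrect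
  simp only [add_re, ofReal_re, mul_re, I_re, mul_zero, ofReal_im, I_im, sub_zero, add_zero,
      add_im, mul_im, mul_one, zero_add, zero_mul, sub_self, smul_eq_mul] at key
  rw [hedge (fun x : ℝ => (x : ℂ) + (-R : ℝ) * I) _ _ (by fun_prop)
      (hmemH (-R) (by rw [abs_neg, abs_of_pos hR0]) _ _ le_rfl (by linarith)),
    hedge (fun x : ℝ => (x : ℂ) + (R : ℝ) * I) _ _ (by fun_prop)
      (hmemH R (abs_of_pos hR0) _ _ le_rfl (by linarith)),
    hedge (fun y : ℝ => (R : ℂ) + y * I) _ _ (by fun_prop) (hmemV R hR0.ne' (by linarith)),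
    hedge (fun y : ℝ => ((-d : ℝ) : ℂ) + y * I) _ _ (by fun_prop)
      (hmemV (-d) (by linarith) le_rfl)] at key
  set A1 := ∫ x : ℝ in -d..R, φ ((x : ℂ) + (-R : ℝ) * I) / ((x : ℂ) + (-R : ℝ) * I) with hA1
  set A2 := ∫ x : ℝ in -d..R, φ ((x : ℂ) + (R : ℝ) * I) / ((x : ℂ) + (R : ℝ) * I) with hA2
  set A3 := ∫ y : ℝ in -R..R, φ ((R : ℂ) + y * I) / ((R : ℂ) + y * I) with hA3
  set A4 := ∫ y : ℝ in -R..R, φ (((-d : ℝ) : ℂ) + y * I) / (((-d : ℝ) : ℂ) + y * I) with hA4
  have hfin : ‖φ 0‖ ≤ ‖A1‖ + ‖A2‖ + ‖A3‖ + ‖A4‖ := by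
    have hw := one_le_winding hR0 hd
    have e : φ 0 * ((∫ x : ℝ in -d..R, ((x : ℂ) + (-R : ℝ) * I)⁻¹) -
        (∫ x : ℝ in -d..R, ((x : ℂ) + (R : ℝ) * I)⁻¹) +
        I * (∫ y : ℝ in -R..R, ((R : ℂ) + y * I)⁻¹) -
        I * (∫ y : ℝ in -R..R, (((-d : ℝ) : ℂ) + y * I)⁻¹)) = A1 - A2 + I * A3 - I * A4 := by
      linear_combination -key
    refine le_trans (le_mul_of_one_le_right (norm_nonneg _) hw) ?_
    rw [← norm_mul, e]
    refine (norm_sub_le _ _).trans (add_le_add ((norm_add_le _ _).trans (add_le_add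
      (norm_sub_le _ _) ?_)) ?_) <;> simp
  have hφ0 : φ 0 = g 0 - gT h T 0 := by simp [hφ, ker]
  have hsplit : ∀ z : ℂ, φ z / z = g z * ker R T z / z - gT h T z * ker R T z / z := fun z => by
    simp only [hφ]; ring
  have hsm : ∀ z : ℂ, 0 < z.re → g z - gT h T z = ∫ t in Ioi T, (h t : ℂ) * (t : ℂ) ^ (-(z + 1)) := by
    intro z hz
    have hI := integrableOn_tail hm hB le_rfl hz
    rw [hgeq z hz, gT, ← Ioc_union_Ioi_eq_Ioi hT, setIntegral_union Ioc_disjoint_Ioi_same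
      measurableSet_Ioi (hI.mono_set Ioc_subset_Ioi_self) (hI.mono_set (Ioi_subset_Ioi hT))]
    ring
  have hright : ∀ z : ℂ, |z.im| ≤ R → 0 ≤ z.re → (z.re = R ∨ |z.im| = R) → z.re ≤ R →
      ‖φ z / z‖ ≤ 3 * B / R ^ 2 := by
    intro z hy hx hor hxR
    have hw : z.re ≠ 0 → ‖g z - gT h T z‖ ≤ B * T ^ (-z.re) / |z.re| := fun hx0 => by
      have hpos : 0 < z.re := lt_of_le_of_ne hx (Ne.symm hx0)
      rw [hsm z hpos, abs_of_pos hpos]
      exact norm_tail hB hT hpos
    rcases hor with h1 | h1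
    · exact mul_ker_ver hR0 hT0 (by rw [h1, abs_of_pos hR0]) hy (hw (by linarith))
    · exact mul_ker_hor hR0 hT0 hB0 h1 (by rw [abs_of_nonneg hx]; exact hxR) hw
  have hgTbd : ∀ z : ℂ, z.re < 0 → ‖gT h T z‖ ≤ B * T ^ (-z.re) / |z.re| := fun z hz => by
    rw [abs_of_neg hz]; exact norm_gT hB hT hz
  have hhor : ∀ s : ℝ, |s| = R →
      ‖∫ x : ℝ in -d..R, φ ((x : ℂ) + s * I) / ((x : ℂ) + s * I)‖ ≤ (6 * B + 3) / R := by
    intro s hs
    rw [← intervalIntegral.integral_add_adjacent_intervals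
      (intervalIntegrable_edge hc1 (by fun_prop) (hmemH s hs (-d) 0 le_rfl (by linarith)))
      (intervalIntegrable_edge hc1 (by fun_prop) (hmemH s hs 0 R (by linarith) hR0.le))]
    refine (norm_add_le _ _).trans ((add_le_add
      (norm_edge (F := fun z => φ z / z) (p := fun x : ℝ => (x : ℂ) + s * I)
        (K := 3 * (|M| * d + B) / R ^ 2) (by linarith) ?_)
      (norm_edge (F := fun z => φ z / z) (p := fun x : ℝ => (x : ℂ) + s * I)
        (K := 3 * B / R ^ 2) hR0.le ?_)).trans ?_)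
    · intro x hx1 hx2
      set z : ℂ := (x : ℂ) + s * I with hz
      have hre : z.re = x := by simp [hz]
      have him : |z.im| = R := by simp [hz, hs]
      have hxR : |z.re| ≤ R := by rw [hre, abs_of_nonpos hx2]; linarith
      rw [hsplit z, mul_add 3, add_div]
      refine (norm_sub_le _ _).trans (add_le_add ?_ ?_)
      · rw [mul_div_assoc, norm_mul]
        refine (mul_le_mul (hgM z (by rw [hre]; linarith) (hre ▸ hx2) him.le)
          (norm_ker_hor hR0 hT0 him hxR) (norm_nonneg _) (abs_nonneg M)).trans ?_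
        rw [hre, abs_of_nonpos hx2]
        have hTx : T ^ x ≤ 1 := Real.rpow_le_one_of_one_le_of_nonpos hT hx2
        calc |M| * (T ^ x * (3 * -x / R ^ 2)) ≤ |M| * (1 * (3 * d / R ^ 2)) := by
              gcongr
              · have : 0 ≤ 3 * -x / R ^ 2 := div_nonneg (by linarith) (by positivity)
                linarith
              · linarith
          _ = 3 * (|M| * d) / R ^ 2 := by ring
      · exact mul_ker_hor hR0 hT0 hB0 him hxR fun h0 =>
          hgTbd z (lt_of_le_of_ne (hre ▸ hx2) h0)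
    · intro x hx1 hx2
      exact hright _ (by simp [hs]) (by simpa using hx1) (Or.inr (by simp [hs])) (by simpa using hx2)
    · calc 3 * (|M| * d + B) / R ^ 2 * (0 - -d) + 3 * B / R ^ 2 * (R - 0)
          = (3 * (|M| * d * d) + 3 * B * d + 3 * B * R) / R ^ 2 := by ring
        _ ≤ (3 * R + 3 * B * R + 3 * B * R) / R ^ 2 := by gcongr
        _ = (6 * B + 3) / R := by field_simp; ring
  have h1b : ‖A1‖ ≤ (6 * B + 3) / R := hhor (-R) (by rw [abs_neg, abs_of_pos hR0])
  have h2b : ‖A2‖ ≤ (6 * B + 3) / R := hhor R (abs_of_pos hR0)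
  have h3b : ‖A3‖ ≤ 6 * B / R := by
    refine (norm_edge (F := fun z => φ z / z) (p := fun y : ℝ => (R : ℂ) + y * I)
      (K := 3 * B / R ^ 2) (by linarith) fun y h1 h2 => ?_).trans_eq (by field_simp; ring)
    exact hright _ (by simpa [abs_le] using And.intro h1 h2) (by simp; linarith)
      (Or.inl (by simp)) (by simp)
  have h4b : ‖A4‖ ≤ (12 * B + 1) / R := by
    set F : ℂ → ℂ := fun z => gT h T z * ker R T z / z with hF
    have hc3 : ContinuousOn (fun z => g z * ker R T z / z) S :=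
      ((hg.continuousOn.mono fun z hz => hz.1).mul hker.continuous.continuousOn).div
        continuousOn_id fun z hz => hz.2
    have hFd : DifferentiableOn ℂ F {z | z.re < 0} :=
      (hgTd.mul hker).differentiableOn.div differentiableOn_id fun z hz h0 => by
        rw [h0] at hz; simp at hz
    have hc4 : ContinuousOn F S :=
      (hgTd.mul hker).continuous.continuousOn.div continuousOn_id fun z hz => hz.2
    have hmV := hmemV (-d) (by linarith) le_rfl
    have e4 : A4 = (∫ y : ℝ in -R..R, g (((-d : ℝ) : ℂ) + y * I) * ker R T (((-d : ℝ) : ℂ) + y * I)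
        / (((-d : ℝ) : ℂ) + y * I)) - ∫ y : ℝ in -R..R, F (((-d : ℝ) : ℂ) + y * I) := by
      rw [hA4, ← intervalIntegral.integral_sub (intervalIntegrable_edge hc3 (by fun_prop) hmV)
        (intervalIntegrable_edge hc4 (by fun_prop) hmV)]
      exact intervalIntegral.integral_congr fun y _ => hsplit _
    have hr2 : DifferentiableOn ℂ F
        ([[((-R : ℝ) + (-R : ℝ) * I : ℂ).re, ((-d : ℝ) + (R : ℝ) * I : ℂ).re]] ×ℂ
         [[((-R : ℝ) + (-R : ℝ) * I : ℂ).im, ((-d : ℝ) + (R : ℝ) * I : ℂ).im]]) := by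
      refine hFd.mono fun z hz => ?_
      rw [mem_reProdIm] at hz
      simp only [add_re, ofReal_re, mul_re, I_re, mul_zero, ofReal_im, I_im, sub_zero, add_zero,
        add_im, mul_im, mul_one, zero_add, zero_mul, sub_self] at hz
      rw [uIcc_of_le (by linarith)] at hz
      exact lt_of_le_of_lt hz.1.2 (by linarith)
    have k2 := integral_boundary_rect_eq_zero_of_differentiableOn _ _ _ hr2
    simp only [add_re, ofReal_re, mul_re, I_re, mul_zero, ofReal_im, I_im, sub_zero, add_zero,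
      add_im, mul_im, mul_one, zero_add, zero_mul, sub_self, smul_eq_mul] at k2
    have hbH : ∀ s : ℝ, |s| = R →
        ‖∫ x : ℝ in -R..-d, F ((x : ℂ) + s * I)‖ ≤ 3 * B / R ^ 2 * R := by
      intro s hs
      refine (norm_edge (F := F) (p := fun x : ℝ => (x : ℂ) + s * I) (by linarith)
        fun x h1 h2 => ?_).trans (mul_le_mul_of_nonneg_left (by linarith) (by positivity))
      have hxn : ((x : ℂ) + s * I).re < 0 := by simp; linarith
      refine mul_ker_hor hR0 hT0 hB0 (by simp [hs]) ?_ fun _ => hgTbd _ hxn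
      simp only [add_re, ofReal_re, mul_re, I_re, mul_zero, ofReal_im, I_im, zero_mul, sub_zero,
        add_zero]
      rw [abs_of_neg (by linarith)]
      linarith
    have hbL : ‖∫ y : ℝ in -R..R, F (((-R : ℝ) : ℂ) + y * I)‖ ≤ 3 * B / R ^ 2 * (2 * R) := by
      refine (norm_edge (F := F) (p := fun y : ℝ => ((-R : ℝ) : ℂ) + y * I) (K := 3 * B / R ^ 2)
        (by linarith) fun y h1 h2 => ?_).trans_eq (by ring)
      exact mul_ker_ver hR0 hT0 (by simp [abs_of_pos hR0]) (by simpa [abs_le] using And.intro h1 h2)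
        (hgTbd _ (by simp; linarith))
    have hbR : ‖∫ y : ℝ in -R..R, F (((-d : ℝ) : ℂ) + y * I)‖ ≤ 12 * B / R := by
      have e : I * (∫ y : ℝ in -R..R, F (((-d : ℝ) : ℂ) + y * I)) =
          I * (∫ y : ℝ in -R..R, F (((-R : ℝ) : ℂ) + y * I))
          - (∫ x : ℝ in -R..-d, F ((x : ℂ) + (-R : ℝ) * I))
          + ∫ x : ℝ in -R..-d, F ((x : ℂ) + (R : ℝ) * I) := by linear_combination k2
      have en := congrArg norm e
      rw [norm_mul, norm_I, one_mul] at en
      rw [en]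
      have hbL' : ‖I * ∫ y : ℝ in -R..R, F (((-R : ℝ) : ℂ) + y * I)‖ ≤ 3 * B / R ^ 2 * (2 * R) := by
        rw [norm_mul, norm_I, one_mul]; exact hbL
      refine (norm_add_le _ _).trans ((add_le_add ((norm_sub_le _ _).trans (add_le_add hbL'
        (hbH (-R) (by rw [abs_neg, abs_of_pos hR0])))) (hbH R (abs_of_pos hR0))).trans_eq ?_)
      field_simp; ring
    have hbg : ‖∫ y : ℝ in -R..R, g (((-d : ℝ) : ℂ) + y * I) * ker R T (((-d : ℝ) : ℂ) + y * I)
        / (((-d : ℝ) : ℂ) + y * I)‖ ≤ 1 / R := by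
      refine ((norm_edge (F := fun z => g z * ker R T z / z)
        (p := fun y : ℝ => ((-d : ℝ) : ℂ) + y * I) (K := |M| * (T ^ (-d) * (3 / d)))
        (by linarith) fun y h1 h2 => ?_).trans_eq (by ring)).trans hTd
      rw [mul_div_assoc, norm_mul]
      have hy : |(((-d : ℝ) : ℂ) + y * I).im| ≤ R := by simpa [abs_le] using And.intro h1 h2
      refine mul_le_mul (hgM _ (by simp; linarith) (by simp; linarith) hy) ?_ (norm_nonneg _)
        (abs_nonneg M)
      refine (norm_ker_ver hR0 hT0 hd ?_ ?_ hy).trans_eq (by simp) <;>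
        simp [abs_of_pos hd, hdR]
    rw [e4]
    refine (norm_sub_le _ _).trans ((add_le_add hbg hbR).trans_eq ?_)
    ring
  rw [hφ0] at hfin
  refine hfin.trans ((add_le_add (add_le_add (add_le_add h1b h2b) h3b) h4b).trans_eq ?_)
  ring

/-- Newman's theorem. -/
theorem newman (hm : Measurable h) (hB : ∀ t, |h t| ≤ B) {g : ℂ → ℂ} {U : Set ℂ}
    (hU : IsOpen U) (hsub : {z : ℂ | 0 ≤ z.re} ⊆ U) (hg : DifferentiableOn ℂ g U)
    (hgeq : ∀ z : ℂ, 0 < z.re → g z = ∫ t in Ioi (1 : ℝ), (h t : ℂ) * (t : ℂ) ^ (-(z + 1))) :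
    Tendsto (fun T : ℝ => ∫ t in Ioc (1 : ℝ) T, h t / t) atTop (𝓝 (g 0).re) := by
  have hB0 : 0 ≤ B := (abs_nonneg _).trans (hB 0)
  have hre : ∀ T, 1 ≤ T → (gT h T 0).re = ∫ t in Ioc (1 : ℝ) T, h t / t := by
    intro T _
    have e : gT h T 0 = ∫ t in Ioc (1 : ℝ) T, ((h t / t : ℝ) : ℂ) := by
      refine setIntegral_congr_fun measurableSet_Ioc fun t _ => ?_
      simp [cpow_neg, div_eq_mul_inv]
    rw [e, integral_complex_ofReal, ofReal_re]
  rw [Metric.tendsto_nhds]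
  intro e he
  have hR : 1 ≤ (30 * B + 7) / e + 1 := le_add_of_nonneg_left (by positivity)
  filter_upwards [newman_bound hm hB hU hsub hg hgeq hR, eventually_ge_atTop (1 : ℝ)] with T hT hT1
  rw [← hre T hT1, Real.dist_eq, abs_sub_comm, ← sub_re]
  refine (abs_re_le_norm _).trans_lt (hT.trans_lt ?_)
  rw [div_lt_iff₀ (by linarith), mul_add, mul_one, mul_div_cancel₀ _ he.ne']
  linarith

end Vale.Agent.P031.Newman
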