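import Mathlib
import Vale.Agent.P031.Defs
import Vale.Agent.P031.Newman

/-!
# The prime number theorem, in the forms used for P031

Newman's route: the transform of `ψ t / t - 1` extends holomorphically to the closed right half
plane, so its logarithmic integral converges, and monotonicity of `ψ` gives `ψ x ~ x`.
-/

open Filter Topology MeasureTheory Set Chebyshev Asymptotics
open scoped ArithmeticFunction.vonMangoldt

noncomputable section

namespace Vale.Agent.P031

/-- The relative error in Chebyshev's function. -/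
def psiErr (t : ℝ) : ℝ := if 1 ≤ t then ψ t / t - 1 else 0

theorem measurable_psiErr : Measurable psiErr :=
  Measurable.ite measurableSet_Ici
    ((psi_mono.measurable.div measurable_id).sub_const 1) measurable_const

theorem abs_psiErr_le (t : ℝ) : |psiErr t| ≤ Real.log 4 + 5 := by
  have h4 : 0 ≤ Real.log 4 := Real.log_nonneg (by norm_num)
  unfold psiErr
  split_ifs with ht
  · have h0 : 0 < t := by linarith
    have h1 : 0 ≤ ψ t / t := div_nonneg (psi_nonneg t) h0.le
    have h2 : ψ t / t ≤ Real.log 4 + 4 := (div_le_iff₀ h0).2 (psi_le_const_mul_self h0.le)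
    rw [abs_le]
    constructor <;> linarith
  · rw [abs_zero]; linarith

/-- The holomorphic continuation of the transform of `psiErr`. -/
def psiTransform (z : ℂ) : ℂ :=
  (-1 - deriv riemannZeta₁ (z + 1) / riemannZeta₁ (z + 1)) / (z + 1)

/-- A neighbourhood of the closed right half plane. -/
def psiDomain : Set ℂ := {z | riemannZeta₁ (z + 1) ≠ 0 ∧ z + 1 ≠ 0}

theorem isOpen_psiDomain : IsOpen psiDomain :=
  (isOpen_ne_fun (differentiable_riemannZeta₁.continuous.comp (continuous_add_const 1))
    continuous_const).inter (isOpen_ne_fun (continuous_add_const 1) continuous_const)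

theorem halfPlane_subset_psiDomain : {z : ℂ | 0 ≤ z.re} ⊆ psiDomain := by
  intro z hz
  have hz' : 0 ≤ z.re := hz
  refine ⟨?_, fun h => ?_⟩
  · rcases eq_or_ne z 0 with rfl | h0
    · simp
    · intro h
      refine riemannZeta_ne_zero_of_one_le_re (s := z + 1) (by simp; linarith) ?_
      rw [riemannZeta_eq_inv_sub_mul (by simpa using h0), h, mul_zero]
  · have := congrArg Complex.re h
    simp at this
    linarith

theorem differentiableOn_psiTransform : DifferentiableOn ℂ psiTransform psiDomain := by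
  intro z hz
  refine DifferentiableAt.differentiableWithinAt ?_
  have hs : DifferentiableAt ℂ (fun z : ℂ => z + 1) z := differentiableAt_id.add_const 1
  refine DifferentiableAt.div ((differentiableAt_const _).sub
    (DifferentiableAt.div ?_ ?_ hz.1)) hs hz.2
  · exact (differentiable_riemannZeta₁.deriv.differentiableAt).comp z hs
  · exact (differentiable_riemannZeta₁.differentiableAt).comp z hs

theorem isBigO_sum_vonMangoldt :
    (fun n : ℕ => ∑ k ∈ Finset.Icc 1 n, Λ k) =O[atTop] fun n => (n : ℝ) ^ (1 : ℝ) := by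
  refine IsBigO.of_bound (Real.log 4 + 4) (Eventually.of_forall fun n => ?_)
  have e : ∑ k ∈ Finset.Icc 1 n, Λ k = ψ n := by
    rw [psi, Nat.floor_natCast]
    rfl
  rw [e, Real.rpow_one, Real.norm_of_nonneg (psi_nonneg _), Real.norm_natCast]
  exact psi_le_const_mul_self (Nat.cast_nonneg n)

theorem psiTransform_eq {z : ℂ} (hz : 0 < z.re) :
    psiTransform z = ∫ t in Ioi (1 : ℝ), (psiErr t : ℂ) * (t : ℂ) ^ (-(z + 1)) := by
  have hs : 1 < (z + 1).re := by simp; linarith
  have hz0 : z ≠ 0 := fun h => by simp [h] at hz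
  have hz1 : z + 1 ≠ 0 := fun h => by rw [h] at hs; simp at hs; linarith
  have hs1 : z + 1 ≠ 1 := by simpa using hz0
  have hlam := LSeries_eq_mul_integral_of_nonneg (fun n => Λ n) (r := 1) zero_le_one hs
    isBigO_sum_vonMangoldt fun n => ArithmeticFunction.vonMangoldt_nonneg
  rw [ArithmeticFunction.LSeries_vonMangoldt_eq_deriv_riemannZeta_div hs] at hlam
  have hi1 : IntegrableOn (fun t : ℝ => (psiErr t : ℂ) * (t : ℂ) ^ (-(z + 1))) (Ioi 1) :=
    Newman.integrableOn_tail measurable_psiErr abs_psiErr_le le_rfl hz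
  have hre : (-(z + 1)).re < -1 := by simp; linarith
  have hi2 : IntegrableOn (fun t : ℝ => (t : ℂ) ^ (-(z + 1))) (Ioi 1) :=
    integrableOn_Ioi_cpow_of_lt hre one_pos
  have e : ∀ t ∈ Ioi (1 : ℝ),
      (∑ k ∈ Finset.Icc 1 ⌊t⌋₊, ((Λ k : ℝ) : ℂ)) * (t : ℂ) ^ (-(z + 1 + 1)) =
        (psiErr t : ℂ) * (t : ℂ) ^ (-(z + 1)) + (t : ℂ) ^ (-(z + 1)) := by
    intro t ht
    have h1 : (1 : ℝ) ≤ t := (mem_Ioi.1 ht).le
    have h0 : (t : ℂ) ≠ 0 := Complex.ofReal_ne_zero.2 (by linarith)
    have hsum : (∑ k ∈ Finset.Icc 1 ⌊t⌋₊, ((Λ k : ℝ) : ℂ)) = (ψ t : ℂ) := by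
      rw [psi, Complex.ofReal_sum]
      rfl
    rw [hsum, psiErr, if_pos h1, show -(z + 1 + 1) = -(z + 1) + -1 by ring,
      Complex.cpow_add _ _ h0, Complex.cpow_neg_one]
    push_cast
    field_simp
    ring
  rw [setIntegral_congr_fun measurableSet_Ioi e, integral_add hi1 hi2,
    integral_Ioi_cpow_of_lt hre one_pos, Complex.ofReal_one, Complex.one_cpow,
    deriv_riemannZeta_eq_neg_inv_sub_sq_mul_add hs1, riemannZeta_eq_inv_sub_mul hs1] at hlam
  have hr : riemannZeta₁ (z + 1) ≠ 0 := (halfPlane_subset_psiDomain hz.le).1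
  simp only [add_sub_cancel_right, show -(z + 1) + 1 = -z by ring] at hlam
  set J := ∫ t in Ioi (1 : ℝ), (psiErr t : ℂ) * (t : ℂ) ^ (-(z + 1))
  unfold psiTransform
  field_simp at hlam ⊢
  apply mul_left_cancel₀ hz0
  linear_combination hlam

/-- The logarithmic integral of the relative error converges. -/
theorem exists_tendsto_integral_psiErr :
    ∃ l : ℝ, Tendsto (fun T : ℝ => ∫ t in Ioc (1 : ℝ) T, psiErr t / t) atTop (𝓝 l) :=
  ⟨_, Newman.newman measurable_psiErr abs_psiErr_le isOpen_psiDomain halfPlane_subset_psiDomain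
    differentiableOn_psiTransform fun _ => psiTransform_eq⟩

theorem integrableOn_psiErr_div {a b : ℝ} (ha : 1 ≤ a) :
    IntegrableOn (fun t => psiErr t / t) (Ioc a b) := by
  refine IntegrableOn.of_bound measure_Ioc_lt_top
    (measurable_psiErr.div measurable_id).aestronglyMeasurable (Real.log 4 + 5) ?_
  refine (ae_restrict_iff' measurableSet_Ioc).2 (ae_of_all _ fun t ht => ?_)
  have h1 : 1 ≤ t := ha.trans ht.1.le
  rw [Real.norm_eq_abs, abs_div, abs_of_pos (by linarith : (0 : ℝ) < t)]
  exact (div_le_self (abs_nonneg _) h1).trans (abs_psiErr_le t)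

/-- Short logarithmic integrals of the relative error are small. -/
theorem tendsto_integral_short {a b : ℝ} (ha : 0 < a) (hab : a ≤ b) :
    Tendsto (fun x : ℝ => ∫ t in Ioc (a * x) (b * x), psiErr t / t) atTop (𝓝 0) := by
  obtain ⟨l, hl⟩ := exists_tendsto_integral_psiErr
  have hb : 0 < b := ha.trans_le hab
  have h := (hl.comp (tendsto_id.const_mul_atTop hb)).sub (hl.comp (tendsto_id.const_mul_atTop ha))
  rw [sub_self] at h
  refine h.congr' ?_
  filter_upwards [eventually_ge_atTop (1 / a)] with x hx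
  have hx1 : 1 ≤ a * x := by rwa [div_le_iff₀' ha] at hx
  have hx2 : a * x ≤ b * x := mul_le_mul_of_nonneg_right hab (by nlinarith)
  simp only [Function.comp_apply, id_eq]
  rw [← Ioc_union_Ioc_eq_Ioc hx1 hx2, setIntegral_union (Ioc_disjoint_Ioc_of_le le_rfl)
    measurableSet_Ioc (integrableOn_psiErr_div le_rfl) (integrableOn_psiErr_div hx1)]
  ring

theorem integral_Ioc_const {a b c : ℝ} (hab : a ≤ b) :
    ∫ _t in Ioc a b, c = (b - a) * c := by
  rw [setIntegral_const, Real.volume_real_Ioc_of_le hab, smul_eq_mul]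

theorem eventually_psi_lt {e : ℝ} (he : 0 < e) : ∀ᶠ x : ℝ in atTop, ψ x < (1 + 2 * e) * x := by
  have hk : 0 < (e / (1 + e)) ^ 2 := by positivity
  filter_upwards [(tendsto_integral_short one_pos (show (1 : ℝ) ≤ 1 + e by linarith)).eventually
    (gt_mem_nhds hk), eventually_ge_atTop (1 : ℝ)] with x hx hx1
  by_contra! hc
  rw [one_mul] at hx
  refine absurd hx (not_lt.2 ?_)
  have hle : x ≤ (1 + e) * x := by nlinarith
  calc (e / (1 + e)) ^ 2 = ((1 + e) * x - x) * (e / (1 + e) / ((1 + e) * x)) := by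
        field_simp; ring
    _ = ∫ _t in Ioc x ((1 + e) * x), e / (1 + e) / ((1 + e) * x) := (integral_Ioc_const hle).symm
    _ ≤ ∫ t in Ioc x ((1 + e) * x), psiErr t / t := by
        refine setIntegral_mono_on (integrableOn_const measure_Ioc_lt_top.ne)
          (integrableOn_psiErr_div hx1) measurableSet_Ioc fun t ht => ?_
        have ht0 : 0 < t := by linarith [ht.1]
        have hb : e / (1 + e) ≤ psiErr t := by
          rw [psiErr, if_pos (by linarith [ht.1]), le_sub_iff_add_le, le_div_iff₀ ht0]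
          refine le_trans ?_ (hc.trans (psi_mono ht.1.le))
          calc (e / (1 + e) + 1) * t ≤ (e / (1 + e) + 1) * ((1 + e) * x) := by
                gcongr; exact ht.2
            _ = (1 + 2 * e) * x := by field_simp; ring
        exact div_le_div₀ (le_trans (by positivity) hb) hb ht0 ht.2

theorem eventually_lt_psi {e : ℝ} (he : 0 < e) (he1 : e < 1) :
    ∀ᶠ x : ℝ in atTop, (1 - 2 * e) * x < ψ x := by
  have hk : -(e ^ 2) < 0 := by nlinarith
  filter_upwards [(tendsto_integral_short (sub_pos.2 he1) (show 1 - e ≤ 1 by linarith)).eventually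
    (lt_mem_nhds hk), eventually_ge_atTop (1 / (1 - e))] with x hx hx1
  by_contra! hc
  rw [one_mul] at hx
  refine absurd hx (not_lt.2 ?_)
  have hx1' : 1 ≤ (1 - e) * x := by rwa [div_le_iff₀' (sub_pos.2 he1)] at hx1
  have hx0 : 0 < x := pos_of_mul_pos_right (by linarith) (sub_pos.2 he1).le
  have hle : (1 - e) * x ≤ x := by nlinarith
  calc (∫ t in Ioc ((1 - e) * x) x, psiErr t / t)
      ≤ ∫ _t in Ioc ((1 - e) * x) x, -(e / x) := by
        refine setIntegral_mono_on (integrableOn_psiErr_div hx1')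
          (integrableOn_const measure_Ioc_lt_top.ne) measurableSet_Ioc fun t ht => ?_
        have ht0 : 0 < t := by linarith [ht.1]
        have hb : psiErr t ≤ -e := by
          rw [psiErr, if_pos (by linarith [ht.1]), sub_le_iff_le_add, div_le_iff₀ ht0]
          refine le_trans ((psi_mono ht.2).trans hc) ?_
          calc (1 - 2 * e) * x ≤ (1 - e) * ((1 - e) * x) := by
                nlinarith [mul_nonneg (sq_nonneg e) hx0.le]
            _ ≤ (1 - e) * t := by gcongr; exact ht.1.le
            _ = (-e + 1) * t := by ring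
        calc psiErr t / t ≤ -e / t := div_le_div_of_nonneg_right hb ht0.le
          _ ≤ -(e / x) := by
            rw [neg_div, neg_le_neg_iff]
            exact div_le_div_of_nonneg_left he.le ht0 ht.2
    _ = (x - (1 - e) * x) * -(e / x) := integral_Ioc_const hle
    _ = -(e ^ 2) := by field_simp; ring

/-- The prime number theorem for Chebyshev's function. -/
theorem tendsto_psi_div_id : Tendsto (fun x : ℝ => ψ x / x) atTop (𝓝 1) := by
  rw [Metric.tendsto_nhds]
  intro e he
  have h0 : 0 < min (e / 2) (1 / 2) := lt_min (by linarith) (by norm_num)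
  have h1 : min (e / 2) (1 / 2) < 1 := (min_le_right _ _).trans_lt (by norm_num)
  filter_upwards [eventually_psi_lt h0, eventually_lt_psi h0 h1, eventually_gt_atTop (0 : ℝ)]
    with x hu hl hx
  rw [Real.dist_eq, abs_sub_lt_iff]
  have := (div_lt_iff₀ hx).2 hu
  have := (lt_div_iff₀ hx).2 hl
  have := min_le_left (e / 2) (1 / 2)
  constructor <;> linarith

/-- The prime number theorem for the other Chebyshev function. -/
theorem tendsto_theta_div_id : Tendsto (fun x : ℝ => θ x / x) atTop (𝓝 1) := by
  have hz : Tendsto (fun x : ℝ => 2 * (Real.log x / x ^ (1 / 2 : ℝ))) atTop (𝓝 (2 * 0)) :=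
    ((isLittleO_log_rpow_atTop (by norm_num : (0 : ℝ) < 1 / 2)).tendsto_div_nhds_zero).const_mul 2
  have hl : Tendsto (fun x : ℝ => ψ x / x - 2 * (Real.log x / x ^ (1 / 2 : ℝ))) atTop (𝓝 1) := by
    simpa using tendsto_psi_div_id.sub hz
  refine tendsto_of_tendsto_of_tendsto_of_le_of_le' hl tendsto_psi_div_id ?_ ?_
  · filter_upwards [eventually_ge_atTop (1 : ℝ)] with x hx
    have hx0 : 0 < x := by linarith
    have h := psi_sub_theta_le hx
    rw [← Real.sqrt_eq_rpow, le_div_iff₀ hx0, sub_mul, div_mul_cancel₀ _ hx0.ne']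
    have hs : 2 * (Real.log x / √x) * x = 2 * √x * Real.log x := by
      field_simp
      rw [Real.sq_sqrt hx0.le]
    linarith
  · filter_upwards [eventually_gt_atTop (0 : ℝ)] with x hx
    exact div_le_div_of_nonneg_right (theta_le_psi x) hx.le

theorem card_primesUpTo_eq_primeCounting (y : ℝ) :
    (primesUpTo y).card = Nat.primeCounting ⌊y⌋₊ := by
  rw [primesUpTo, Nat.primeCounting, Nat.primeCounting', Nat.count_eq_card_filter_range]

/-- The prime number theorem. -/
theorem pnt : Tendsto (fun y : ℝ => ((primesUpTo y).card : ℝ) * Real.log y / y) atTop (𝓝 1) := by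
  have h0 : Tendsto (fun y : ℝ =>
      ((Nat.primeCounting ⌊y⌋₊ : ℝ) - θ y / Real.log y) * (Real.log y / y)) atTop (𝓝 0) := by
    refine (primeCounting_sub_theta_div_log_isBigO.mul
      (isBigO_refl (fun y : ℝ => Real.log y / y) atTop)).trans_tendsto ?_
    refine (tendsto_inv_atTop_zero.comp Real.tendsto_log_atTop).congr' ?_
    filter_upwards [eventually_gt_atTop (1 : ℝ)] with y hy
    have : 0 < Real.log y := Real.log_pos hy
    have : 0 < y := by linarith
    simp only [Function.comp_apply]
    field_simp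
  have h1 := h0.add tendsto_theta_div_id
  rw [zero_add] at h1
  refine h1.congr' ?_
  filter_upwards [eventually_gt_atTop (1 : ℝ)] with y hy
  have : 0 < Real.log y := Real.log_pos hy
  rw [card_primesUpTo_eq_primeCounting]
  field_simp
  ring

/-- The prime number theorem at a multiple of the variable. -/
theorem pnt_mul (c : ℝ) (hc : 0 < c) :
    Tendsto (fun y : ℝ => ((primesUpTo (c * y)).card : ℝ) * Real.log y / y) atTop (𝓝 c) := by
  have h1 := pnt.comp (tendsto_id.const_mul_atTop hc)
  have h2 : Tendsto (fun y : ℝ => 1 - Real.log c / Real.log (c * y)) atTop (𝓝 1) := by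
    simpa using ((Real.tendsto_log_atTop.comp (tendsto_id.const_mul_atTop hc)).const_div_atTop
      (Real.log c)).const_sub 1
  have h3 := (h1.mul h2).const_mul c
  rw [mul_one, mul_one] at h3
  refine h3.congr' ?_
  filter_upwards [eventually_gt_atTop (1 : ℝ), eventually_gt_atTop (1 / c)] with y hy hy'
  have hcy : 1 < c * y := by rwa [div_lt_iff₀' hc] at hy'
  have := Real.log_pos hcy
  have hy0 : 0 < y := by linarith
  have e : Real.log y = Real.log (c * y) - Real.log c := by
    rw [Real.log_mul hc.ne' hy0.ne']; ring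
  simp only [Function.comp_apply, id_eq]
  rw [e]
  field_simp

/-- The prime number theorem at `y / M + u`, uniformly for `log M` small compared with `log y`. -/
theorem pnt_uniform : ∀ ε > 0, ∃ δ > 0, ∃ Y : ℝ, ∀ y ≥ Y, ∀ M ≥ (1 : ℝ), ∀ u ∈ Icc (0 : ℝ) 1,
    Real.log M ≤ δ * Real.log y →
      |((primesUpTo (y / M + u)).card : ℝ) * (M * Real.log y) / y - 1| ≤ ε := by
  intro ε hε
  set η := min ε 1 / 7 with hη
  have hη0 : 0 < η := div_pos (lt_min hε one_pos) (by norm_num)
  have hη1 : η ≤ 1 / 7 := by rw [hη]; have := min_le_right ε 1; linarith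
  have hηε : 7 * η ≤ ε := by rw [hη]; have := min_le_left ε 1; linarith
  obtain ⟨Y0, hY0⟩ := eventually_atTop.1 (pnt.eventually (Metric.ball_mem_nhds 1 hη0))
  refine ⟨η / (1 + η), by positivity,
    max 4 (max (Y0 ^ 2) (max (1 / η ^ 2) (Real.exp (Real.log 2 / η)))), ?_⟩
  intro y hy M hM u hu hMy
  simp only [ge_iff_le, max_le_iff] at hy
  obtain ⟨hy4, hyY, hyη, hye⟩ := hy
  have hy0 : 0 < y := by linarith
  have hM0 : 0 < M := by linarith
  have hl2 : 0 < Real.log 2 := Real.log_pos (by norm_num)
  have hly : 0 < Real.log y := Real.log_pos (by linarith)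
  have hδ : η / (1 + η) ≤ 1 / 2 := by rw [div_le_iff₀ (by positivity)]; linarith
  have hMs : M ≤ √y := by
    rw [← Real.log_le_log_iff hM0 (Real.sqrt_pos.2 hy0), Real.log_sqrt hy0.le]
    nlinarith
  have hsy : √y ≤ y / M := by
    rw [le_div_iff₀ hM0]
    nlinarith [Real.mul_self_sqrt hy0.le, Real.sqrt_nonneg y]
  set x := y / M + u with hx
  have hxs : √y ≤ x := by linarith [hu.1]
  have hs2 : 2 ≤ √y := Real.le_sqrt_of_sq_le (by linarith)
  have hxY : Y0 ≤ x := by
    have : |Y0| ≤ √y := Real.le_sqrt_of_sq_le (by rw [sq_abs]; exact hyY)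
    linarith [le_abs_self Y0]
  have hA := hY0 x hxY
  rw [Real.dist_eq, abs_sub_lt_iff] at hA
  have hx0 : 0 < x := by linarith
  have hlx : 0 < Real.log x := Real.log_pos (by linarith)
  have hxy : x ≤ 2 * y := by
    have : y / M ≤ y := div_le_self hy0.le hM
    linarith [hu.2]
  -- the factor `x * M / y`
  have hB1 : 1 ≤ x * M / y := by
    rw [le_div_iff₀ hy0, hx, add_mul, div_mul_cancel₀ _ hM0.ne']
    nlinarith [hu.1]
  have hB2 : x * M / y ≤ 1 + η := by
    rw [div_le_iff₀ hy0, hx, add_mul, div_mul_cancel₀ _ hM0.ne']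
    have h1 : 1 / η ≤ √y := Real.le_sqrt_of_sq_le (by rw [div_pow, one_pow]; exact hyη)
    rw [div_le_iff₀ hη0] at h1
    have : u * M ≤ M := mul_le_of_le_one_left hM0.le hu.2
    nlinarith [Real.mul_self_sqrt hy0.le, Real.sqrt_nonneg y]
  -- the ratio of logarithms
  have hC1 : 1 - η ≤ Real.log y / Real.log x := by
    have h1 : Real.log x ≤ Real.log 2 + Real.log y := by
      rw [← Real.log_mul two_ne_zero hy0.ne']
      exact Real.log_le_log hx0 hxy
    have h2 : Real.log 2 / η ≤ Real.log y := (Real.le_log_iff_exp_le hy0).2 hye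
    rw [div_le_iff₀ hη0] at h2
    rw [le_div_iff₀ hlx]
    nlinarith [mul_nonneg hη0.le hl2.le]
  have hC2 : Real.log y / Real.log x ≤ 1 + η := by
    have h1 : Real.log y - Real.log M ≤ Real.log x := by
      rw [← Real.log_div hy0.ne' hM0.ne']
      exact Real.log_le_log (by positivity) (by linarith [hu.1])
    rw [div_le_iff₀ hlx]
    rw [div_mul_eq_mul_div, le_div_iff₀ (by positivity : (0 : ℝ) < 1 + η)] at hMy
    nlinarith
  set A := ((primesUpTo x).card : ℝ) * Real.log x / x
  have e : ((primesUpTo x).card : ℝ) * (M * Real.log y) / y =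
      A * (x * M / y) * (Real.log y / Real.log x) := by
    simp only [A]
    field_simp
  rw [e, abs_sub_le_iff]
  have hA1 : A ≤ 1 + η := by linarith
  have hA2 : 1 - η ≤ A := by linarith
  have hA0 : 0 ≤ A := by linarith
  constructor
  · have h3 : A * (x * M / y) * (Real.log y / Real.log x) ≤ (1 + η) * (1 + η) * (1 + η) :=
      mul_le_mul (mul_le_mul hA1 hB2 (by positivity) (by linarith)) hC2 (by positivity)
        (by positivity)
    nlinarith
  · have h3 : (1 - η) * 1 * (1 - η) ≤ A * (x * M / y) * (Real.log y / Real.log x) :=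
      mul_le_mul (mul_le_mul hA2 hB1 zero_le_one hA0) hC1 (by linarith) (by positivity)
    nlinarith

end Vale.Agent.P031
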