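import Mathlib
import Vale.Agent.P031.Defs
import Vale.Agent.P031.Mertens
import Vale.Agent.P031.Euler
import Vale.Agent.P031.PNT
import Vale.Agent.P031.Normal

/-!
# P031 Q2, section 5: counting the exceptional values at the top level

Values with no large prime factor, values `(q - 1) * w` with a prescribed cofactor set (also
with an abnormal top prime), and values divisible by `r * (r - 1)` for a large prime `r`.
-/

open scoped Classical
noncomputable section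

namespace Vale.Agent.P031

open Real Filter

namespace TopC

theorem pow_four_le_exp {L : ℝ} (hL : 0 ≤ L) : L ^ 4 / 24 ≤ exp L := by
  have := Real.pow_div_factorial_le_exp L hL 4
  norm_num [Nat.factorial] at this
  exact this

theorem exp_top {L : ℝ} (hL : 0 < L) : exp (L - 3 * log L) = exp L / L ^ 3 := by
  rw [exp_sub, show 3 * log L = ((3 : ℕ) : ℝ) * log L by norm_num, exp_nat_mul, exp_log hL]

theorem level_ge {L : ℝ} (hL : 0 < L) : L / 24 ≤ exp L / L ^ 3 := by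
  rw [le_div_iff₀ (by positivity)]
  have := pow_four_le_exp hL.le
  linarith [show L / 24 * L ^ 3 = L ^ 4 / 24 by ring]

theorem exp_le_target {L x : ℝ} (hL : 1 ≤ L) (hx : x ≤ -(2 * L) - 1) :
    exp x ≤ exp (-L) * exp (-(L ^ (0.63 : ℝ))) / 2 := by
  have h1 : L ^ (0.63 : ℝ) ≤ L := rpow_le_self_of_one_le hL (by norm_num)
  have h2 : (2 : ℝ) ≤ exp 1 := by linarith [exp_one_gt_d9]
  rw [le_div_iff₀ two_pos, ← exp_add]
  calc exp x * 2 ≤ exp x * exp 1 := mul_le_mul_of_nonneg_left h2 (exp_pos x).le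
    _ = exp (x + 1) := (exp_add x 1).symm
    _ ≤ _ := exp_le_exp.2 (by linarith)

theorem log_y_ge {L y : ℝ} (hy : exp (exp L) ≤ y) : exp L ≤ log y := by
  rw [← log_exp (exp L)]
  exact log_le_log (exp_pos _) hy

theorem Te_le_half (P : Params) (hA : P.Admissible) (hL : 0 ≤ P.L) : P.Te ≤ P.L / 2 := by
  rw [Params.Te]
  refine div_le_div_of_nonneg_left hL two_pos ?_
  have := hA.1
  calc (2 : ℝ) = 2 ^ 1 := (pow_one 2).symm
    _ ≤ 2 ^ (17 * P.K) := pow_le_pow_right₀ (by norm_num) (by omega)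

theorem three_log_le_half {L : ℝ} (hL : 144 ≤ L) : 3 * log L ≤ L / 2 := by
  have h1 := Real.log_le_rpow_div (by linarith : (0 : ℝ) ≤ L) (by norm_num : (0 : ℝ) < 1 / 2)
  rw [← Real.sqrt_eq_rpow] at h1
  have h2 := Real.mul_self_sqrt (by linarith : (0 : ℝ) ≤ L)
  have h12 : 12 ≤ √L := Real.le_sqrt_of_sq_le (by linarith)
  have h3 := mul_le_mul_of_nonneg_right h12 (Real.sqrt_nonneg L)
  linarith

/-- Values `(q - 1) * w` from bounds for each cofactor `w`. -/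
theorem cofactor_count {y B : ℝ} (hB : 0 ≤ B) (hy : 0 ≤ y) (Q : ℕ → Prop) (S W : Finset ℕ)
    (hS : ∀ v ∈ S, (v : ℝ) ≤ y ∧ ∃ q, q.Prime ∧ Q q ∧ ∃ w ∈ W, 1 ≤ w ∧ v = (q - 1) * w)
    (hQ : ∀ w : ℕ, 1 ≤ w → ∀ U : Finset ℕ, U.Nonempty →
      (∀ q ∈ U, q.Prime ∧ Q q ∧ (((q - 1) * w : ℕ) : ℝ) ≤ y) → (U.card : ℝ) ≤ B * (y / w)) :
    (S.card : ℝ) ≤ B * y * ∑ w ∈ W, (1 : ℝ) / w := by
  set U : ℕ → Finset ℕ := fun w => (Finset.range (⌊y⌋₊ + 2)).filter fun q =>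
    q.Prime ∧ Q q ∧ 1 ≤ w ∧ (((q - 1) * w : ℕ) : ℝ) ≤ y with hU
  have hsub : S ⊆ W.biUnion fun w => (U w).image fun q => (q - 1) * w := by
    intro v hv
    obtain ⟨hvy, q, hq, hQq, w, hw, hw1, rfl⟩ := hS v hv
    refine Finset.mem_biUnion.2 ⟨w, hw, Finset.mem_image.2 ⟨q, ?_, rfl⟩⟩
    refine Finset.mem_filter.2 ⟨Finset.mem_range.2 ?_, hq, hQq, hw1, hvy⟩
    have h1 : (((q - 1 : ℕ)) : ℝ) ≤ y :=
      le_trans (by exact_mod_cast Nat.le_mul_of_pos_right _ hw1) hvy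
    have h2 : q - 1 ≤ ⌊y⌋₊ := Nat.le_floor h1
    omega
  have hcard : (S.card : ℝ) ≤ ∑ w ∈ W, ((U w).card : ℝ) := by
    exact_mod_cast (Finset.card_le_card hsub).trans
      (Finset.card_biUnion_le.trans (Finset.sum_le_sum fun w _ => Finset.card_image_le))
  refine hcard.trans ?_
  rw [Finset.mul_sum]
  refine Finset.sum_le_sum fun w _ => ?_
  rcases (U w).eq_empty_or_nonempty with he | ⟨q₀, hq₀⟩
  · rw [he]; simp; positivity
  · have hw1 : 1 ≤ w := (Finset.mem_filter.1 hq₀).2.2.2.1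
    refine (hQ w hw1 (U w) ⟨q₀, hq₀⟩ fun q hq => ?_).trans_eq (by ring)
    obtain ⟨-, h1, h2, -, h4⟩ := Finset.mem_filter.1 hq
    exact ⟨h1, h2, h4⟩

/-- The range of the top prime for a given cofactor. -/
theorem top_range {L y : ℝ} (hL : 0 < L) (hy : exp (exp L) ≤ y) (hyl : lam y ≤ L + 1)
    {q w : ℕ} (hq : q.Prime) (hw : 1 ≤ w) (hl : L - 3 * log L ≤ lam (q : ℝ))
    (hqw : (((q - 1) * w : ℕ) : ℝ) ≤ y) :
    (q : ℝ) ≤ y / w + 1 ∧ y / w + 1 ≤ 2 * (y / w) ∧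
      exp L / L ^ 3 ≤ log (y / w + 1) ∧ lam (y / w + 1) ≤ L + 2 := by
  have hw0 : (0 : ℝ) < w := by exact_mod_cast hw
  have hw1 : (1 : ℝ) ≤ w := by exact_mod_cast hw
  have hq2 : (2 : ℝ) ≤ q := by exact_mod_cast hq.two_le
  have hy1 : 2 ≤ y := by
    refine le_trans ?_ hy
    have := add_one_le_exp (exp L)
    have := one_le_exp hL.le
    linarith
  have h1 : ((q : ℝ) - 1) ≤ y / w := by
    rw [le_div_iff₀ hw0]
    have := hqw
    rwa [Nat.cast_mul, Nat.cast_sub hq.one_lt.le, Nat.cast_one] at this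
  have hX : y / w + 1 ≤ y ^ 2 := by
    have : y / w ≤ y := div_le_self (by linarith) hw1
    nlinarith
  refine ⟨by linarith, by linarith, ?_, ?_⟩
  · rw [← exp_top hL]
    refine le_trans ?_ (log_le_log (by linarith) (by linarith : (q : ℝ) ≤ y / w + 1))
    exact (le_log_iff_exp_le (log_pos (by linarith))).1 hl
  · have hX1 : (1 : ℝ) < y / w + 1 := by linarith
    have hly : 0 < log y := log_pos (by linarith)
    unfold lam at hyl ⊢
    calc log (log (y / w + 1)) ≤ log (log (y ^ 2)) :=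
          log_le_log (log_pos hX1) (log_le_log (by linarith) hX)
      _ = log 2 + log (log y) := by
          rw [log_pow, Nat.cast_ofNat, log_mul two_ne_zero hly.ne']
      _ ≤ _ := by linarith [log_two_lt_d9]

theorem div_log_le {L y : ℝ} {w : ℕ} (hL : 0 < L) (hy : 0 ≤ y)
    (h2 : y / w + 1 ≤ 2 * (y / w)) (h3 : exp L / L ^ 3 ≤ log (y / w + 1)) :
    (y / w + 1) / log (y / w + 1) ≤ 2 * L ^ 3 * exp (-L) * (y / w) := by
  have h0 : 0 < exp L / L ^ 3 := by positivity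
  have hyw : 0 ≤ y / w := by positivity
  calc (y / w + 1) / log (y / w + 1) ≤ 2 * (y / w) / (exp L / L ^ 3) :=
        div_le_div₀ (by linarith) h2 h0 h3
    _ = _ := by rw [exp_neg]; field_simp

end TopC

open TopC

/-- Values with all prime factors below the top scale are negligible. -/
theorem smooth_value_count : ∃ L0 : ℝ, ∀ P : Params, P.Admissible → L0 ≤ P.L →
    ∀ y : ℝ, exp (exp P.L) ≤ y → lam y ≤ P.L + 1 → ∀ S : Finset ℕ,
    (∀ v ∈ S, 1 ≤ v ∧ (v : ℝ) ≤ y ∧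
      ∀ r ∈ v.primeFactors, lam (r : ℝ) ≤ P.L - 3 * log P.L) →
    (S.card : ℝ) ≤ y * exp (-P.L) * exp (-(P.L ^ (0.63 : ℝ))) := by
  obtain ⟨C, hC0, hC⟩ := smooth_count
  refine ⟨max 1400 (C + 2), fun P _ hL y hy _ S hS => ?_⟩
  set L := P.L
  have hL1 : 1400 ≤ L := le_trans (le_max_left _ _) hL
  have hL2 : C + 2 ≤ L := le_trans (le_max_right _ _) hL
  have hL0 : 0 < L := by linarith
  set t := exp L / L ^ 3 with ht
  have ht0 : 0 < t := by positivity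
  have htL : L / 24 ≤ t := level_ge hL0
  have hy0 : 0 < y := (exp_pos _).trans_le hy
  have hy1 : 1 ≤ y := le_trans (one_le_exp (exp_pos _).le) hy
  have hly := log_y_ge hy
  have h := hC (exp t) y S (by linarith [add_one_le_exp t]) hy1 (fun v hv => ?_)
  swap
  · obtain ⟨h1, h2, h3⟩ := hS v hv
    refine ⟨by omega, h2, fun r hr => ?_⟩
    rw [ht, ← exp_top hL0]
    exact (natPrime_le_expexp (Nat.prime_of_mem_primeFactors hr)).2 (h3 r hr)
  rw [log_exp] at h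
  have hcube : 1400 * 1400 * L ≤ L ^ 3 := by
    calc 1400 * 1400 * L ≤ L * L * L := by gcongr
      _ = L ^ 3 := by ring
  have hL4 : 1400 * L ^ 3 ≤ L ^ 4 := by
    calc 1400 * L ^ 3 ≤ L * L ^ 3 := by gcongr
      _ = L ^ 4 := by ring
  have h1 : √y ≤ y * (exp (-L) * exp (-(L ^ (0.63 : ℝ))) / 2) := by
    have e : √y = y * exp (-(log y / 2)) := by
      rw [sqrt_eq_rpow, rpow_def_of_pos hy0]
      nth_rewrite 2 [← exp_log hy0]
      rw [← exp_add]; ring_nf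
    rw [e]
    refine mul_le_mul_of_nonneg_left (exp_le_target (by linarith) ?_) hy0.le
    have := pow_four_le_exp hL0.le
    linarith
  have h2 : C * y * t * exp (-(log y / (2 * t))) ≤
      y * (exp (-L) * exp (-(L ^ (0.63 : ℝ))) / 2) := by
    have e1 : L ^ 3 / 2 ≤ log y / (2 * t) := by
      rw [le_div_iff₀ (by positivity)]
      calc L ^ 3 / 2 * (2 * t) = exp L := by rw [ht]; field_simp
        _ ≤ _ := hly
    have e2 : C ≤ exp C := by linarith [add_one_le_exp C]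
    have e3 : t ≤ exp L := div_le_self (exp_pos _).le (one_le_pow₀ (by linarith))
    calc C * y * t * exp (-(log y / (2 * t))) = y * (C * t * exp (-(log y / (2 * t)))) := by ring
      _ ≤ y * (exp C * exp L * exp (-(L ^ 3 / 2))) := by gcongr
      _ ≤ _ := by
          refine mul_le_mul_of_nonneg_left ?_ hy0.le
          rw [← exp_add, ← exp_add]
          exact exp_le_target (by linarith) (by linarith)
  linarith

/-- Values `(q - 1) * w` with `q` a top prime. -/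
theorem top_prime_count : ∃ L0 C : ℝ, 0 ≤ C ∧ ∀ P : Params, P.Admissible → L0 ≤ P.L →
    ∀ y : ℝ, exp (exp P.L) ≤ y → lam y ≤ P.L + 1 → ∀ S W : Finset ℕ,
    (∀ v ∈ S, (v : ℝ) ≤ y ∧ ∃ q : ℕ, q.Prime ∧ P.L - 3 * log P.L ≤ lam (q : ℝ) ∧
      ∃ w ∈ W, 1 ≤ w ∧ v = (q - 1) * w) →
    (S.card : ℝ) ≤ C * P.L ^ 3 * (y * exp (-P.L)) * ∑ w ∈ W, (1 : ℝ) / w := by
  obtain ⟨Y, hY⟩ := eventually_atTop.1 (pnt.eventually (eventually_le_nhds one_lt_two))
  refine ⟨max 1 (24 * Y), 4, by norm_num, fun P _ hL y hy hyl S W hS => ?_⟩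
  have hL1 : 1 ≤ P.L := le_trans (le_max_left _ _) hL
  have hLY : 24 * Y ≤ P.L := le_trans (le_max_right _ _) hL
  have hL0 : 0 < P.L := by linarith
  have hy0 : 0 < y := (exp_pos _).trans_le hy
  refine (cofactor_count (B := 4 * P.L ^ 3 * exp (-P.L)) (by positivity) hy0.le
    (fun q => P.L - 3 * log P.L ≤ lam (q : ℝ)) S W hS fun w hw U ⟨q₀, hq₀⟩ hU => ?_).trans_eq
      (by ring)
  obtain ⟨h1, h2, h3⟩ := hU q₀ hq₀
  obtain ⟨hqX, hX2, hlX, -⟩ := top_range hL0 hy hyl h1 hw h2 h3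
  have hsub : U ⊆ primesUpTo (y / w + 1) := fun q hq => by
    obtain ⟨g1, g2, g3⟩ := hU q hq
    exact (mem_primesUpTo (by positivity)).2 ⟨g1, (top_range hL0 hy hyl g1 hw g2 g3).1⟩
  set X := y / w + 1 with hX
  have hXpos : 0 < X := by positivity
  have hlX0 : 0 < log X := lt_of_lt_of_le (by positivity) hlX
  have hXY : Y ≤ X := by
    have := log_le_sub_one_of_pos hXpos
    have := level_ge hL0
    linarith
  have hpi : ((primesUpTo X).card : ℝ) ≤ 2 * (X / log X) := by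
    have h := hY X hXY
    rw [div_le_iff₀ hXpos] at h
    rw [← mul_div_assoc, le_div_iff₀ hlX0]
    exact h
  calc (U.card : ℝ) ≤ ((primesUpTo X).card : ℝ) := by exact_mod_cast Finset.card_le_card hsub
    _ ≤ 2 * (X / log X) := hpi
    _ ≤ 2 * (2 * P.L ^ 3 * exp (-P.L) * (y / w)) := by
        gcongr; exact div_log_le hL0 hy0.le hX2 hlX
    _ = _ := by ring

/-- Values `(q - 1) * w` with `q` an abnormal top prime. -/
theorem abnormal_top_count : ∃ L0 C : ℝ, 0 ≤ C ∧ ∀ P : Params, P.Admissible → L0 ≤ P.L →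
    ∀ y : ℝ, exp (exp P.L) ≤ y → lam y ≤ P.L + 1 → ∀ S W : Finset ℕ,
    (∀ v ∈ S, (v : ℝ) ≤ y ∧ ∃ q : ℕ, q.Prime ∧ P.L - 3 * log P.L ≤ lam (q : ℝ) ∧
      ¬ P.Normal q ∧ ∃ w ∈ W, 1 ≤ w ∧ v = (q - 1) * w) →
    (S.card : ℝ) ≤ C * P.L ^ 3 * (y * exp (-P.L)) * exp (-(P.L ^ (0.7 : ℝ))) *
      ∑ w ∈ W, (1 : ℝ) / w := by
  obtain ⟨L1, hN⟩ := normal_count
  refine ⟨max 144 L1, 2, by norm_num, fun P hA hL y hy hyl S W hS => ?_⟩
  have hL1 : 144 ≤ P.L := le_trans (le_max_left _ _) hL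
  have hL0 : 0 < P.L := by linarith
  have hy0 : 0 < y := (exp_pos _).trans_le hy
  refine (cofactor_count (B := 2 * P.L ^ 3 * exp (-P.L) * exp (-(P.L ^ (0.7 : ℝ))))
    (by positivity) hy0.le (fun q => P.L - 3 * log P.L ≤ lam (q : ℝ) ∧ ¬ P.Normal q) S W ?_
    fun w hw U ⟨q₀, hq₀⟩ hU => ?_).trans_eq (by ring)
  · intro v hv
    obtain ⟨h0, q, h1, h2, h3, h4⟩ := hS v hv
    exact ⟨h0, q, h1, ⟨h2, h3⟩, h4⟩
  obtain ⟨h1, h2, h3⟩ := hU q₀ hq₀
  obtain ⟨hqX, hX2, hlX, hlamX⟩ := top_range hL0 hy hyl h1 hw h2.1 h3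
  have hTe : P.Te ≤ P.L - 3 * log P.L := by
    linarith [Te_le_half P hA hL0.le, three_log_le_half hL1]
  have hsub : U ⊆ (primesUpTo (y / w + 1)).filter
      fun p : ℕ => P.Te ≤ lam (p : ℝ) ∧ ¬ P.Normal p := fun q hq => by
    obtain ⟨g1, g2, g3⟩ := hU q hq
    exact Finset.mem_filter.2 ⟨(mem_primesUpTo (by positivity)).2
      ⟨g1, (top_range hL0 hy hyl g1 hw g2.1 g3).1⟩, hTe.trans g2.1, g2.2⟩
  have hX : 2 ≤ y / w + 1 := le_trans (by exact_mod_cast h1.two_le) hqX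
  calc (U.card : ℝ)
      ≤ _ := by exact_mod_cast Finset.card_le_card hsub
    _ ≤ (y / w + 1) / log (y / w + 1) * exp (-(P.L ^ (0.7 : ℝ))) :=
        hN P (le_trans (le_max_right _ _) hL) hA _ hX hlamX
    _ ≤ 2 * P.L ^ 3 * exp (-P.L) * (y / w) * exp (-(P.L ^ (0.7 : ℝ))) := by
        gcongr; exact div_log_le hL0 hy0.le hX2 hlX
    _ = _ := by ring

/-- Values divisible by `r * (r - 1)` for a large prime `r` are negligible. -/
theorem square_count : ∃ L0 : ℝ, ∀ P : Params, P.Admissible → L0 ≤ P.L →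
    ∀ y : ℝ, exp (exp P.L) ≤ y → lam y ≤ P.L + 1 → ∀ S : Finset ℕ,
    (∀ v ∈ S, 1 ≤ v ∧ (v : ℝ) ≤ y ∧
      ∃ r : ℕ, r.Prime ∧ P.Te < lam (r : ℝ) ∧ r * (r - 1) ∣ v) →
    (S.card : ℝ) ≤ y * exp (-P.L) * exp (-(P.L ^ (0.63 : ℝ))) := by
  refine ⟨30, fun P hA hL y hy _ S hS => ?_⟩
  set L := P.L with hLdef
  have hL1 : 1 ≤ L := by linarith
  have hy0 : 0 < y := (exp_pos _).trans_le hy
  set u := exp (exp P.Te) with hu
  set R := (primesUpTo y).filter fun r : ℕ => u < (r : ℝ) with hR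
  have hsub : S ⊆ R.biUnion fun r => (Finset.Ioc 0 ⌊y⌋₊).filter (r * (r - 1) ∣ ·) := by
    intro v hv
    obtain ⟨hv1, hvy, r, hr, hrl, hrd⟩ := hS v hv
    refine Finset.mem_biUnion.2 ⟨r, Finset.mem_filter.2 ⟨?_, ?_⟩,
      Finset.mem_filter.2 ⟨Finset.mem_Ioc.2 ⟨by omega, Nat.le_floor hvy⟩, hrd⟩⟩
    · refine (mem_primesUpTo hy0.le).2 ⟨hr, le_trans ?_ hvy⟩
      exact_mod_cast le_trans (Nat.le_mul_of_pos_right r (by have := hr.two_le; omega))
        (Nat.le_of_dvd (by omega) hrd)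
    · exact not_le.1 fun h => absurd ((natPrime_le_expexp hr).1 h) (not_le.2 hrl)
  have hcard : (S.card : ℝ) ≤ ∑ r ∈ R, ((⌊y⌋₊ / (r * (r - 1)) : ℕ) : ℝ) := by
    exact_mod_cast (Finset.card_le_card hsub).trans (Finset.card_biUnion_le.trans_eq
      (Finset.sum_congr rfl fun r _ => Nat.Ioc_filter_dvd_card_eq_div _ _))
  have hterm : ∀ r ∈ R, ((⌊y⌋₊ / (r * (r - 1)) : ℕ) : ℝ) ≤ 2 * y * ((1 : ℝ) / (r : ℝ) ^ 2) := by
    intro r hr
    have hp := primesUpTo_prime (Finset.mem_filter.1 hr).1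
    have h2 : (2 : ℝ) ≤ r := by exact_mod_cast hp.two_le
    refine Nat.cast_div_le.trans ?_
    rw [Nat.cast_mul, Nat.cast_sub hp.one_lt.le, Nat.cast_one, div_le_iff₀ (by nlinarith)]
    have e : 2 * y * ((1 : ℝ) / (r : ℝ) ^ 2) * ((r : ℝ) * ((r : ℝ) - 1)) =
        y * (2 * ((r : ℝ) - 1) / r) := by field_simp
    rw [e]
    refine (Nat.floor_le hy0.le).trans (le_mul_of_one_le_right hy0.le ?_)
    rw [le_div_iff₀ (by linarith)]
    linarith
  have hu2 : 2 ≤ u := by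
    have := add_one_le_exp (exp P.Te)
    have : 1 ≤ exp P.Te := one_le_exp (div_nonneg (by linarith) (by positivity))
    linarith
  have hsum := sum_inv_sq_prime_gt hu2 R fun r hr => (Finset.mem_filter.1 hr).2
  have hcard2 : (S.card : ℝ) ≤ y * exp (2 - exp P.Te) := by
    calc (S.card : ℝ) ≤ _ := hcard
      _ ≤ ∑ r ∈ R, 2 * y * ((1 : ℝ) / (r : ℝ) ^ 2) := Finset.sum_le_sum hterm
      _ ≤ 2 * y * (2 / u) := by rw [← Finset.mul_sum]; gcongr
      _ = y * (4 / exp (exp P.Te)) := by rw [hu]; ring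
      _ ≤ _ := by
          rw [exp_sub]
          gcongr
          rw [show (2 : ℝ) = ((2 : ℕ) : ℝ) * 1 by norm_num, exp_nat_mul]
          nlinarith [exp_one_gt_d9]
  have hTe : L ^ (0.94 : ℝ) ≤ P.Te :=
    (Nrm.D_ge ⟨hA.1, hA.2.1⟩ hL1).1.trans (Nrm.D_ge ⟨hA.1, hA.2.1⟩ hL1).2.1
  have hexp : L ^ 2 / 6 ≤ exp P.Te := by
    have h := Real.pow_div_factorial_le_exp P.Te ((rpow_nonneg (by linarith) _).trans hTe) 3
    norm_num [Nat.factorial] at h
    refine le_trans ?_ h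
    gcongr
    calc L ^ 2 = L ^ ((2 : ℕ) : ℝ) := (rpow_natCast L 2).symm
      _ ≤ L ^ ((0.94 : ℝ) * ((3 : ℕ) : ℝ)) := rpow_le_rpow_of_exponent_le hL1 (by norm_num)
      _ = (L ^ (0.94 : ℝ)) ^ 3 := by rw [rpow_mul (by linarith), rpow_natCast]
      _ ≤ _ := pow_le_pow_left₀ (rpow_nonneg (by linarith) _) hTe 3
  have hfin : exp (2 - exp P.Te) ≤ exp (-L) * exp (-(L ^ (0.63 : ℝ))) / 2 :=
    exp_le_target hL1 (by nlinarith)
  have hpos : 0 < exp (-L) * exp (-(L ^ (0.63 : ℝ))) := by positivity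
  calc (S.card : ℝ) ≤ y * exp (2 - exp P.Te) := hcard2
    _ ≤ y * (exp (-L) * exp (-(L ^ (0.63 : ℝ)))) := by gcongr; linarith
    _ = _ := by ring

end Vale.Agent.P031
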