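import Mathlib
import Vale.Agent.P031.RepTails
import Vale.Agent.P031.TopCount

/-!
# P031 Q2, section 5: all but negligibly many totient values have a representation
-/

open Filter
open scoped Classical
noncomputable section

namespace Vale.Agent.P031

open Assemble

/-- The cases for a value with an exceptional preimage. -/
theorem exception_cases {P : Params} (hb : P.RepBig) (hhalf : 3 * Real.log P.L ≤ P.L / 2) {y : ℝ}
    (hy0 : 0 < y) (hly : lam y ≤ P.L + 1) {v n : ℕ} (hv1 : 1 ≤ v) (hvy : (v : ℝ) ≤ y)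
    (hn : Nat.totient n = v) (hexc : ¬ (SmoothLam (P.L + 1) n ∧
      (∃ r ∈ n.primeFactors, P.L - 3 * Real.log P.L < lam (r : ℝ)) ∧ ¬ P.Bad n)) :
    ((((v = ⌊y⌋₊ ∨
      ∀ r ∈ v.primeFactors, lam (r : ℝ) ≤ P.L - 3 * Real.log P.L) ∨
      ∃ r : ℕ, r.Prime ∧ P.Te < lam (r : ℝ) ∧ r * (r - 1) ∣ v) ∨
      (P.L - 3 * Real.log P.L ≤ lam (maxPrime n : ℝ) ∧ ¬ P.Normal (maxPrime n) ∧
        (maxPrime n).Prime ∧ SmoothLam (P.L + 1) n ∧
        v = (maxPrime n - 1) * Nat.totient (part n fun r => r ≠ maxPrime n))) ∨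
      P.HeavyData (P.etap * P.L / 2) (P.L - 3 * Real.log P.L) v) ∨
      (P.L - 3 * Real.log P.L ≤ lam (maxPrime n : ℝ) ∧ (maxPrime n).Prime ∧
        SmoothLam (P.L + 1) n ∧ P.Bad (part n fun r => r ≠ maxPrime n) ∧
        v = (maxPrime n - 1) * Nat.totient (part n fun r => r ≠ maxPrime n)) := by
  have hL0 : 0 < P.L := by linarith [hb.L_ge]
  have hn0 : n ≠ 0 := fun h0 => by rw [h0, Nat.totient_zero] at hn; omega
  set lo := P.L - 3 * Real.log P.L with hlo
  by_cases hsm : SmoothLam (P.L + 1) n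
  swap
  · obtain ⟨r, hr, hr'⟩ : ∃ r ∈ n.primeFactors, P.L + 1 < lam (r : ℝ) := by
      by_contra h
      simp only [not_exists, not_and, not_lt] at h
      exact hsm ⟨hn0, h⟩
    have hp := Nat.prime_of_mem_primeFactors hr
    have hry : y < (r : ℝ) := by
      by_contra h
      have h1 : (1 : ℝ) < (r : ℝ) := by exact_mod_cast hp.one_lt
      have h2 : lam (r : ℝ) ≤ lam y :=
        Real.log_le_log (Real.log_pos h1) (Real.log_le_log (by linarith) (not_lt.1 h))
      linarith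
    obtain ⟨k, hk⟩ : (r - 1) ∣ v := by
      have h := Nat.totient_dvd_of_dvd (Nat.dvd_of_mem_primeFactors hr)
      rwa [Nat.totient_prime hp, hn] at h
    have hvr : v < r := by exact_mod_cast hvy.trans_lt hry
    have hk1 : k = 1 := by
      rcases Nat.lt_trichotomy k 1 with h | h | h
      · simp only [show k = 0 by omega, mul_zero] at hk; omega
      · exact h
      · have : (r - 1) * 2 ≤ (r - 1) * k := Nat.mul_le_mul_left _ h
        have := hp.two_le
        omega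
    rw [hk1, mul_one] at hk
    have : ⌊y⌋₊ = v := by
      rw [Nat.floor_eq_iff hy0.le]
      refine ⟨hvy, hry.trans_le ?_⟩
      exact_mod_cast (show r ≤ v + 1 by omega)
    left; left; left; left; left
    exact this.symm
  by_cases htop' : ∃ r ∈ n.primeFactors, lo < lam (r : ℝ)
  swap
  · left; left; left; left; right
    intro r hr
    rw [← hn] at hr
    obtain ⟨s, hs, hrs⟩ := le_primeFactor_of_mem_totient hr
    simp only [not_exists, not_and, not_lt] at htop'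
    exact (lam_mono (Nat.prime_of_mem_primeFactors hr).two_le hrs).trans (htop' s hs)
  have hB : P.Bad n := not_not.1 fun h => hexc ⟨hsm, htop', h⟩
  obtain ⟨r0, hr0, hr0'⟩ := htop'
  have hqmem : (maxPrime n) ∈ n.primeFactors := maxPrime_mem ⟨r0, hr0⟩
  have hqp := Nat.prime_of_mem_primeFactors hqmem
  have hqlo : lo < lam ((maxPrime n) : ℝ) :=
    hr0'.trans_le (lam_mono (Nat.prime_of_mem_primeFactors hr0).two_le (le_maxPrime hr0))
  by_cases hsq : P.SquareBad n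
  · obtain ⟨r, hr, hrTe, hr2⟩ := hsq
    have hp := Nat.prime_of_mem_primeFactors hr
    have h := Nat.totient_dvd_of_dvd hr2
    rw [Nat.totient_prime_pow hp two_pos, hn] at h
    left; left; left; right
    exact ⟨r, hp, hrTe, by simpa using h⟩
  have hqsq : ¬ ((maxPrime n)) ^ 2 ∣ n := fun h => hsq ⟨(maxPrime n), hqmem, hb.Te_lt.trans hqlo, h⟩
  have heq : v = ((maxPrime n) - 1) * Nat.totient (part n fun r => r ≠ (maxPrime n)) :=
    hn.symm.trans (totient_single hqmem hqsq)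
  by_cases hN : P.Normal ((maxPrime n))
  swap
  · left; left; right
    exact ⟨hqlo.le, hN, hqp, hsm, heq⟩
  have key : P.Bad (part n fun r => r ≠ (maxPrime n)) ∨ P.HeavyData (P.etap * P.L / 2) lo v := by
    by_cases hab : P.AbnormalBad n
    · obtain ⟨r, hr, h1, h2⟩ := hab
      exact Or.inl (Or.inr (Or.inl ⟨r, mem_primeFactors_part.2 ⟨hr, fun h => h2 (h ▸ hN)⟩, h1, h2⟩))
    rcases hB with h | h | h | h
    · exact absurd h hsq
    · exact absurd h hab
    · obtain ⟨N, hNK, pi, hpi, hdec, hs⟩ := h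
      by_cases h0 : pi 0 = (maxPrime n)
      · right
        have h := P.heavyData_of_chain (by linarith [hb.Te_ge]) hsm hNK
          (fun r hr hr' => not_not.1 fun h => hab ⟨r, hr, hr', h⟩) hpi hdec hs
          (lo := lo) (by rw [h0]; exact hqlo.le)
        rw [h0, part_of_forall hn0 (fun r hr => le_maxPrime hr), hn] at h
        exact h
      · left; right; right; left
        have hlt : ∀ i ≤ N, pi i < (maxPrime n) := by
          intro i
          induction i with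
          | zero =>
            intro _
            exact lt_of_le_of_ne (le_maxPrime (hpi 0 (Nat.zero_le _)).1) h0
          | succ i ih => intro hi; exact (hdec i hi).trans (ih (by omega))
        exact ⟨N, hNK, pi, fun i hi =>
          ⟨mem_primeFactors_part.2 ⟨(hpi i hi).1, (hlt i hi).ne⟩, (hpi i hi).2⟩, hdec, hs⟩
    · left; right; right; right
      unfold Params.SizeBad at h ⊢
      rw [part_part, part_congr (A := fun r : ℕ => r ≠ (maxPrime n) ∧ lam (r : ℝ) ≤ 0.45 * P.L)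
        (Q := fun r : ℕ => lam (r : ℝ) ≤ 0.45 * P.L)
        fun r _ => ⟨fun h => h.2, fun h => ⟨fun he => by rw [he] at h; linarith, h⟩⟩]
      exact h
  rcases key with h | h
  · right; exact ⟨hqlo.le, hqp, hsm, h, heq⟩
  · left; right; exact h

theorem smooth_weight_G {Cg L : ℝ} (hCg : 0 ≤ Cg)
    (hG : ∀ s : ℝ, 3 ≤ s → ∀ S : Finset ℕ, (∀ m ∈ S, m ∈ smoothValues s) →
      ∑ m ∈ S, (1 : ℝ) / m ≤ Real.exp (Cg * Real.log s ^ 2))
    (hL : 3 ≤ L) (W : Finset ℕ) (hW : ∀ w ∈ W, w ∈ smoothValues (L + 1)) :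
    ∑ w ∈ W, (1 : ℝ) / w ≤ Real.exp (4 * Cg * Real.log L ^ 2) := by
  refine (hG (L + 1) (by linarith) W hW).trans (Real.exp_le_exp.2 ?_)
  have h1 : Real.log (L + 1) ≤ 2 * Real.log L := by
    calc Real.log (L + 1) ≤ Real.log (L ^ 2) := Real.log_le_log (by linarith) (by nlinarith)
      _ = 2 * Real.log L := by rw [Real.log_pow]; norm_num
  have h0 : 0 ≤ Real.log (L + 1) := Real.log_nonneg (by linarith)
  rw [mul_assoc, mul_left_comm]
  refine mul_le_mul_of_nonneg_left ?_ hCg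
  nlinarith

theorem exceptions_absorb {L Cg Ct Cab E n c0 c1 c2 c3 c4 c5 : ℝ} (hL0 : 0 < L) (h144 : 144 ≤ L)
    (hCg : 0 ≤ Cg) (hCt : 0 ≤ Ct) (hCab : 0 ≤ Cab) (hE0 : 0 ≤ E)
    (hn : n ≤ c0 + c1 + c2 + c3 + c4 + c5)
    (h0 : c0 ≤ E * Real.exp (-(L ^ (0.63 : ℝ)))) (h1 : c1 ≤ E * Real.exp (-(L ^ (0.63 : ℝ))))
    (h2 : c2 ≤ E * Real.exp (-(L ^ (0.63 : ℝ))))
    (h3 : c3 ≤ Cab * (L ^ 3 * Real.exp (4 * Cg * Real.log L ^ 2) *
      (E * Real.exp (-(L ^ (0.63 : ℝ))))))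
    (h4 : c4 ≤ E * Real.exp (-(L ^ (0.63 : ℝ))))
    (h5 : c5 ≤ Ct * (L ^ 3 * Real.exp (4 * Cg * Real.log L ^ 2) *
      (E * Real.exp (-(L ^ (0.63 : ℝ)))))) :
    n ≤ E * ((4 + Ct + Cab) * Real.exp ((4 * Cg + 3) * Real.log L ^ 2 - L ^ (0.63 : ℝ))) := by
  set G := Real.exp (4 * Cg * Real.log L ^ 2) with hG
  set e := Real.exp (-(L ^ (0.63 : ℝ))) with he
  set X := L ^ 3 * G * (E * e) with hX
  have hG1 : 1 ≤ G := Real.one_le_exp (by positivity)
  have hone : E * e ≤ X :=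
    le_mul_of_one_le_left (by positivity)
      (one_le_mul_of_one_le_of_one_le (one_le_pow₀ (by linarith)) hG1)
  have hpow : L ^ 3 ≤ Real.exp (3 * Real.log L ^ 2) := by
    rw [← Real.exp_log (show 0 < L ^ 3 by positivity), Real.log_pow]
    refine Real.exp_le_exp.2 ?_
    have : 1 ≤ Real.log L := by
      rw [Real.le_log_iff_exp_le hL0]
      linarith [Real.exp_one_lt_d9]
    push_cast
    nlinarith
  have hXle : X ≤ E * Real.exp ((4 * Cg + 3) * Real.log L ^ 2 - L ^ (0.63 : ℝ)) := by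
    rw [show (4 * Cg + 3) * Real.log L ^ 2 - L ^ (0.63 : ℝ) =
      3 * Real.log L ^ 2 + 4 * Cg * Real.log L ^ 2 + -(L ^ (0.63 : ℝ)) by ring,
      Real.exp_add, Real.exp_add, ← hG, ← he, hX]
    calc L ^ 3 * G * (E * e) ≤ Real.exp (3 * Real.log L ^ 2) * G * (E * e) := by gcongr
      _ = _ := by ring
  calc n ≤ (4 + Ct + Cab) * X := by linarith
    _ ≤ (4 + Ct + Cab) * (E * Real.exp ((4 * Cg + 3) * Real.log L ^ 2 - L ^ (0.63 : ℝ))) :=
        mul_le_mul_of_nonneg_left hXle (by linarith)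
    _ = _ := by ring

theorem values_have_rep : ∃ L0 : ℝ, ∀ P : Params, P.Admissible → L0 ≤ P.L → ∀ y : ℝ,
    Real.exp (Real.exp P.L) ≤ y → lam y ≤ P.L + 1 → ∀ S : Finset ℕ,
    (∀ v ∈ S, 1 ≤ v ∧ (v : ℝ) ≤ y ∧ (∃ n, Nat.totient n = v) ∧
      ∀ p0 x m, ¬ P.IsRep v p0 x m) →
    (S.card : ℝ) ≤ y * Real.exp (-P.L) * Real.exp (-(P.L ^ (0.6 : ℝ))) := by
  obtain ⟨Cg, hCg, hG⟩ := crudeBound
  obtain ⟨Ls, hsmooth⟩ := smooth_value_count
  obtain ⟨Lt, Ct, hCt, htop⟩ := top_prime_count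
  obtain ⟨Lab, Cab, hCab, habn⟩ := abnormal_top_count
  obtain ⟨Lq, hsquare⟩ := square_count
  obtain ⟨Lh, hheavy⟩ := heavy_count_small
  obtain ⟨Lw, hweight⟩ := bad_tail_weight crudeBound
  obtain ⟨Lb, hbig⟩ := eventually_repBig
  obtain ⟨La, habs⟩ := eventually_atTop.1 (eventually_absorb (4 * Cg + 3) (4 + Ct + Cab)
    (show (0.6 : ℝ) < 0.63 by norm_num) (by norm_num))
  refine ⟨max (max (max Ls Lt) (max Lab Lq)) (max (max Lh Lw) (max Lb (max La 144))),
    fun P hP hL y hy hly S hS => ?_⟩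
  simp only [max_le_iff] at hL
  obtain ⟨⟨⟨hLs, hLt⟩, hLab, hLq⟩, ⟨hLh, hLw⟩, hLb, hLa, h144⟩ := hL
  obtain ⟨hb, -⟩ := hbig P hP hLb
  have hL0 : 0 < P.L := by linarith
  have hy0 : 0 < y := (Real.exp_pos _).trans_le hy
  have hhalf := TopC.three_log_le_half h144
  set lo := P.L - 3 * Real.log P.L with hlo
  -- a bad preimage for every value
  have hbad : ∀ v ∈ S, ∃ n, Nat.totient n = v ∧ ¬ (SmoothLam (P.L + 1) n ∧
      (∃ r ∈ n.primeFactors, lo < lam (r : ℝ)) ∧ ¬ P.Bad n) := by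
    intro v hv
    obtain ⟨hv1, -, ⟨n, hn⟩, hno⟩ := hS v hv
    by_contra h
    obtain ⟨p0, x, m, hrep⟩ := Params.exists_rep_of_good hb hn
      (fun h0 => by rw [h0, Nat.totient_zero] at hn; omega)
      (fun n' hn' => not_not.1 fun hh => h ⟨n', hn', hh⟩)
    exact hno p0 x m hrep
  choose! nn hphi hexc using hbad
  set q : ℕ → ℕ := fun v => maxPrime (nn v) with hq
  -- the seven classes
  set S0 := S.filter fun v : ℕ => v = ⌊y⌋₊ with hS0
  set S1 := S.filter fun v : ℕ => ∀ r ∈ v.primeFactors, lam (r : ℝ) ≤ lo with hS1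
  set S2 := S.filter fun v : ℕ => ∃ r : ℕ, r.Prime ∧ P.Te < lam (r : ℝ) ∧ r * (r - 1) ∣ v with hS2
  set S3 := S.filter fun v : ℕ => lo ≤ lam (q v : ℝ) ∧ ¬ P.Normal (q v) ∧ (q v).Prime ∧
    SmoothLam (P.L + 1) (nn v) ∧ v = (q v - 1) * Nat.totient (part (nn v) fun r => r ≠ q v) with hS3
  set S4 := S.filter fun v : ℕ => P.HeavyData (P.etap * P.L / 2) lo v with hS4
  set S5 := S.filter fun v : ℕ => lo ≤ lam (q v : ℝ) ∧ (q v).Prime ∧ SmoothLam (P.L + 1) (nn v) ∧
    P.Bad (part (nn v) fun r => r ≠ q v) ∧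
    v = (q v - 1) * Nat.totient (part (nn v) fun r => r ≠ q v) with hS5
  have hcover : S ⊆ S0 ∪ S1 ∪ S2 ∪ S3 ∪ S4 ∪ S5 := by
    intro v hv
    obtain ⟨hv1, hvy, -, -⟩ := hS v hv
    simp only [Finset.mem_union, hS0, hS1, hS2, hS3, hS4, hS5, Finset.mem_filter, hv, true_and]
    exact exception_cases hb hhalf hy0 hly hv1 hvy (hphi v hv) (hexc v hv)
  -- bounds
  set E := y * Real.exp (-P.L) with hE
  have hE0 : 0 ≤ E := by positivity
  set G := Real.exp (4 * Cg * Real.log P.L ^ 2) with hGdef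
  have hG1 : 1 ≤ G := Real.one_le_exp (by positivity)
  set e := Real.exp (-(P.L ^ (0.63 : ℝ))) with hedef
  have he0 : 0 ≤ e := (Real.exp_pos _).le
  have e7 : Real.exp (-(P.L ^ (0.7 : ℝ))) ≤ e :=
    Real.exp_le_exp.2 (neg_le_neg (Real.rpow_le_rpow_of_exponent_le (by linarith) (by norm_num)))
  have hL3 : 1 ≤ P.L ^ 3 := one_le_pow₀ (by linarith)
  have h0 : (S0.card : ℝ) ≤ E * e := by
    have h1 : (S0.card : ℝ) ≤ 1 := by
      have : S0.card ≤ 1 := Finset.card_le_one.2 fun a ha b hb' =>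
        (Finset.mem_filter.1 ha).2.trans (Finset.mem_filter.1 hb').2.symm
      exact_mod_cast this
    refine h1.trans ?_
    have h63 : P.L ^ (0.63 : ℝ) ≤ P.L :=
      (Real.rpow_le_rpow_of_exponent_le (by linarith) (by norm_num)).trans_eq (Real.rpow_one _)
    have h2 := Real.quadratic_le_exp_of_nonneg hL0.le
    calc (1 : ℝ) ≤ Real.exp (Real.exp P.L + -P.L + -(P.L ^ (0.63 : ℝ))) :=
          Real.one_le_exp (by nlinarith)
      _ ≤ E * e := by
          rw [Real.exp_add, Real.exp_add, hE, hedef]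
          gcongr
  have h1 : (S1.card : ℝ) ≤ E * e := hsmooth P hP hLs y hy hly S1 fun v hv =>
    ⟨(hS v (Finset.mem_filter.1 hv).1).1, (hS v (Finset.mem_filter.1 hv).1).2.1,
      (Finset.mem_filter.1 hv).2⟩
  have h2 : (S2.card : ℝ) ≤ E * e := hsquare P hP hLq y hy hly S2 fun v hv =>
    ⟨(hS v (Finset.mem_filter.1 hv).1).1, (hS v (Finset.mem_filter.1 hv).1).2.1,
      (Finset.mem_filter.1 hv).2⟩
  have h3 : (S3.card : ℝ) ≤ Cab * (P.L ^ 3 * G * (E * e)) := by
    set W := S3.image fun v => Nat.totient (part (nn v) fun r => r ≠ q v) with hW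
    refine (habn P hP hLab y hy hly S3 W fun v hv => ?_).trans ?_
    · obtain ⟨hvS, h1, h2, h3, -, h5⟩ := Finset.mem_filter.1 hv
      exact ⟨(hS v hvS).2.1, q v, h3, h1, h2, _, Finset.mem_image_of_mem _ hv,
        Nat.totient_pos.2 (Nat.pos_of_ne_zero (part_ne_zero _ _)), h5⟩
    · have hWG : ∑ w ∈ W, (1 : ℝ) / w ≤ G := by
        refine smooth_weight_G hCg hG (by linarith) W fun w hw => ?_
        obtain ⟨v, hv, rfl⟩ := Finset.mem_image.1 hw
        obtain ⟨-, -, -, -, h4, -⟩ := Finset.mem_filter.1 hv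
        exact mem_smoothValues_part h4 _
      calc Cab * P.L ^ 3 * (y * Real.exp (-P.L)) * Real.exp (-(P.L ^ (0.7 : ℝ))) *
            ∑ w ∈ W, (1 : ℝ) / w ≤ Cab * P.L ^ 3 * (y * Real.exp (-P.L)) * e * G := by
            gcongr
        _ = Cab * (P.L ^ 3 * G * (E * e)) := by rw [hE]; ring
  have h4 : (S4.card : ℝ) ≤ E * e := by
    refine (hheavy P hP hLh (P.etap * P.L / 2) (by nlinarith [hb.etap_ge]) y hy hly S4 fun v hv =>
      ⟨(Finset.mem_filter.1 hv).2, (hS v (Finset.mem_filter.1 hv).1).2.1⟩).trans ?_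
    rw [div_eq_mul_inv, ← Real.exp_neg, hE]
    gcongr
  have h5 : (S5.card : ℝ) ≤ Ct * (P.L ^ 3 * G * (E * e)) := by
    set W := S5.image fun v => Nat.totient (part (nn v) fun r => r ≠ q v) with hW
    refine (htop P hP hLt y hy hly S5 W fun v hv => ?_).trans ?_
    · obtain ⟨hvS, h1, h3, -, -, h5⟩ := Finset.mem_filter.1 hv
      exact ⟨(hS v hvS).2.1, q v, h3, h1, _, Finset.mem_image_of_mem _ hv,
        Nat.totient_pos.2 (Nat.pos_of_ne_zero (part_ne_zero _ _)), h5⟩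
    · have hWb : ∑ w ∈ W, (1 : ℝ) / w ≤ e := hweight P hP hLw W fun w hw => by
        obtain ⟨v, hv, rfl⟩ := Finset.mem_image.1 hw
        obtain ⟨-, -, -, h4, h5, -⟩ := Finset.mem_filter.1 hv
        exact ⟨_, smoothLam_part h4 _, rfl, h5⟩
      calc Ct * P.L ^ 3 * (y * Real.exp (-P.L)) * ∑ w ∈ W, (1 : ℝ) / w
            ≤ Ct * P.L ^ 3 * (y * Real.exp (-P.L)) * e * 1 := by
            rw [mul_one]; gcongr
        _ ≤ Ct * P.L ^ 3 * (y * Real.exp (-P.L)) * e * G := by gcongr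
        _ = Ct * (P.L ^ 3 * G * (E * e)) := by rw [hE]; ring
  have hcard : (S.card : ℝ) ≤ S0.card + S1.card + S2.card + S3.card + S4.card + S5.card := by
    have a := Finset.card_le_card hcover
    have a1 := Finset.card_union_le (S0 ∪ S1 ∪ S2 ∪ S3 ∪ S4) S5
    have a2 := Finset.card_union_le (S0 ∪ S1 ∪ S2 ∪ S3) S4
    have a3 := Finset.card_union_le (S0 ∪ S1 ∪ S2) S3
    have a4 := Finset.card_union_le (S0 ∪ S1) S2
    have a5 := Finset.card_union_le S0 S1
    exact_mod_cast (show S.card ≤ S0.card + S1.card + S2.card + S3.card + S4.card + S5.card by omega)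
  exact (exceptions_absorb hL0 h144 hCg hCt hCab hE0 (hcard)
    h0 h1 h2 h3 h4 h5).trans (mul_le_mul_of_nonneg_left (habs P.L hLa) hE0)

end Vale.Agent.P031
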