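import Mathlib
import Vale.Agent.P031.Defs
import Vale.Agent.P031.Mertens

/-!
# P031: prime sums of step weights on a double-log grid
-/

open scoped Classical
open Finset

noncomputable section

namespace Vale.Agent.P031

/-- Prime sum of a step weight over the grid `g 0 ≤ ... ≤ g M`. -/
theorem step_weight_le : ∃ C : ℝ, 0 ≤ C ∧ ∀ (M : ℕ) (g c : ℕ → ℝ) (f : ℕ → ℝ),
    0 ≤ g 0 → (∀ i < M, g i ≤ g (i + 1)) → (∀ i < M, 0 ≤ c i) →
    (∀ i < M, ∀ p : ℕ, p.Prime → g i < lam (p : ℝ) → lam (p : ℝ) ≤ g (i + 1) → f p ≤ c i) →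
    ∑ p ∈ primesLam (g 0) (g M), f p / p
      ≤ ∑ i ∈ Finset.range M, c i * (g (i + 1) - g i) + C * ∑ i ∈ Finset.range M, c i := by
  obtain ⟨C, hC, hM⟩ := mertens_lam
  refine ⟨C, hC, fun M g c f h0 hg hc hf => ?_⟩
  induction M with
  | zero =>
    have : primesLam (g 0) (g 0) = ∅ := by
      ext p; simp only [mem_primesLam, Finset.notMem_empty, iff_false]
      rintro ⟨-, h, h'⟩; linarith
    simp [this]
  | succ M ih =>
    have hg' : ∀ i < M, g i ≤ g (i + 1) := fun i hi => hg i (by omega)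
    have ih' := ih hg' (fun i hi => hc i (by omega)) fun i hi => hf i (by omega)
    have h0M : ∀ k, k ≤ M → g 0 ≤ g k := by
      intro k
      induction k with
      | zero => intro _; exact le_rfl
      | succ k ihk => intro hk; exact (ihk (by omega)).trans (hg' k (by omega))
    have h1 : g 0 ≤ g M := h0M M le_rfl
    have h2 := hg M (Nat.lt_succ_self M)
    have hd : primesLam (g 0) (g (M + 1)) = primesLam (g 0) (g M) ∪ primesLam (g M) (g (M + 1)) := by
      ext p
      simp only [Finset.mem_union, mem_primesLam]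
      constructor
      · rintro ⟨hp, ha, hb⟩
        rcases le_or_gt (lam (p : ℝ)) (g M) with h | h
        · exact Or.inl ⟨hp, ha, h⟩
        · exact Or.inr ⟨hp, h, hb⟩
      · rintro (⟨hp, ha, hb⟩ | ⟨hp, ha, hb⟩) <;> exact ⟨hp, by linarith, by linarith⟩
    have hdis : Disjoint (primesLam (g 0) (g M)) (primesLam (g M) (g (M + 1))) := by
      rw [Finset.disjoint_left]
      intro p hp hp'
      linarith [(mem_primesLam.mp hp).2.2, (mem_primesLam.mp hp').2.1]
    rw [hd, Finset.sum_union hdis, Finset.sum_range_succ, Finset.sum_range_succ]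
    have hlast : ∑ p ∈ primesLam (g M) (g (M + 1)), f p / p
        ≤ c M * (g (M + 1) - g M) + C * c M := by
      refine (Finset.sum_le_sum (g := fun p : ℕ => c M * ((1 : ℝ) / p)) fun p hp => ?_).trans ?_
      · obtain ⟨hpp, ha, hb⟩ := mem_primesLam.mp hp
        rw [mul_one_div]
        gcongr
        exact hf M (Nat.lt_succ_self M) p hpp ha hb
      · rw [← Finset.mul_sum]
        have h := (abs_le.mp (hM (g M) (g (M + 1)) (by linarith) h2)).2
        have hcM := hc M (Nat.lt_succ_self M)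
        nlinarith
    linarith

/-- The same with a bound `B` below the first grid point. -/
theorem step_weight_upTo_le : ∃ C : ℝ, 0 ≤ C ∧ ∀ (M : ℕ) (g c : ℕ → ℝ) (f : ℕ → ℝ) (B : ℝ),
    0 ≤ g 0 → 0 ≤ B → (∀ i < M, g i ≤ g (i + 1)) → (∀ i < M, 0 ≤ c i) →
    (∀ p : ℕ, p.Prime → lam (p : ℝ) ≤ g 0 → f p ≤ B) →
    (∀ i < M, ∀ p : ℕ, p.Prime → g i < lam (p : ℝ) → lam (p : ℝ) ≤ g (i + 1) → f p ≤ c i) →
    ∑ p ∈ primesUpTo (Real.exp (Real.exp (g M))), f p / p
      ≤ B * (g 0 + C) + ∑ i ∈ Finset.range M, c i * (g (i + 1) - g i)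
        + C * ∑ i ∈ Finset.range M, c i := by
  obtain ⟨C1, hC1, hS⟩ := step_weight_le
  obtain ⟨C2, hC2, hU⟩ := mertens_upTo
  refine ⟨C1 + C2, by positivity, fun M g c f B h0 hB hg hc hb hf => ?_⟩
  have h0M : ∀ k, k ≤ M → g 0 ≤ g k := by
    intro k
    induction k with
    | zero => intro _; exact le_rfl
    | succ k ihk => intro hk; exact (ihk (by omega)).trans (hg k (by omega))
  have hd : primesUpTo (Real.exp (Real.exp (g M)))
      = primesUpTo (Real.exp (Real.exp (g 0))) ∪ primesLam (g 0) (g M) := by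
    ext p
    simp only [Finset.mem_union, mem_primesLam, mem_primesLe_lam]
    constructor
    · rintro ⟨hp, hb⟩
      rcases le_or_gt (lam (p : ℝ)) (g 0) with h | h
      · exact Or.inl ⟨hp, h⟩
      · exact Or.inr ⟨hp, h, hb⟩
    · rintro (⟨hp, h⟩ | ⟨hp, -, h⟩)
      · exact ⟨hp, h.trans (h0M M le_rfl)⟩
      · exact ⟨hp, h⟩
  have hdis : Disjoint (primesUpTo (Real.exp (Real.exp (g 0)))) (primesLam (g 0) (g M)) := by
    rw [Finset.disjoint_left]
    intro p hp hp'
    linarith [(mem_primesLe_lam.mp hp).2, (mem_primesLam.mp hp').2.1]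
  rw [hd, Finset.sum_union hdis]
  have hA : ∑ p ∈ primesUpTo (Real.exp (Real.exp (g 0))), f p / p ≤ B * (g 0 + C2) := by
    refine (Finset.sum_le_sum (g := fun p : ℕ => B * ((1 : ℝ) / p)) fun p hp => ?_).trans ?_
    · obtain ⟨hpp, ha⟩ := mem_primesLe_lam.mp hp
      rw [mul_one_div]
      gcongr
      exact hb p hpp ha
    · rw [← Finset.mul_sum]
      have h := (abs_le.mp (hU _ (two_le_expexp h0))).2
      have e : lam (Real.exp (Real.exp (g 0))) = g 0 := by simp [lam]
      rw [e] at h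
      nlinarith
  have hB' := hS M g c f h0 hg hc hf
  have hsum : 0 ≤ ∑ i ∈ Finset.range M, c i :=
    Finset.sum_nonneg fun i hi => hc i (Finset.mem_range.mp hi)
  nlinarith

end Vale.Agent.P031
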