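import Vale.Agent.P031.ValuesSum

/-!
# P031 Q2, section 3: numbers with a prescribed lower profile
-/

open scoped Classical
open Finset Real

noncomputable section

namespace Vale.Agent.P031

namespace Params

variable (P : Params)

/-- The error unit of section 3. -/
def valErr : ℝ := (P.K' : ℝ) ^ 3 * (P.Te + P.theta * P.L + (P.J : ℝ))

theorem D_nonneg (hL : 0 ≤ P.L) : 0 ≤ P.D := by unfold D; positivity

theorem D_pos (hL : 0 < P.L) : 0 < P.D := by
  have : (0 : ℝ) < (P.J : ℝ) := by unfold J; positivity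
  unfold D; positivity

theorem two_pow_mul_D : ((2 : ℕ) ^ P.K : ℕ) * P.D = P.Te := by
  unfold D Te J
  push_cast
  rw [show (2 : ℝ) ^ (18 * P.K) = 2 ^ P.K * 2 ^ (17 * P.K) by rw [← pow_add]; congr 1; omega]
  field_simp

theorem D_le_Te (hL : 0 ≤ P.L) : P.D ≤ P.Te := by
  rw [← P.two_pow_mul_D]
  refine le_mul_of_one_le_left (P.D_nonneg hL) ?_
  exact_mod_cast Nat.one_le_two_pow

theorem J_pos : (1 : ℝ) ≤ (P.J : ℝ) := by unfold J; exact_mod_cast Nat.one_le_two_pow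

theorem J_mul_D : (P.J : ℝ) * P.D = P.L := by
  have : (0 : ℝ) < (P.J : ℝ) := lt_of_lt_of_le one_pos P.J_pos
  unfold D; field_simp

theorem one_le_K' (hK : 1 ≤ P.K) : (20 : ℝ) ≤ (P.K' : ℝ) := by
  unfold K'; exact_mod_cast (by omega : 20 ≤ 20 * P.K)

end Params

/-- Size hypotheses for section 3. -/
def ValBig (P : Params) : Prop :=
  1 ≤ P.K ∧ 1 ≤ P.L ∧ 6 ≤ P.Te ∧ 2 * (P.K' : ℝ) ≤ P.Te

/-- `n_j`: the number of the first `N + 1` levels lying at least two steps above interval `j`. -/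
def profCnt (N : ℕ) (k : ℕ → ℕ) (j : ℕ) : ℕ :=
  ((Finset.range (N + 1)).filter fun i => j + 2 ≤ k i).card

/-- The grid intervals in use. -/
def profWin (P : Params) (k : ℕ → ℕ) : Finset ℕ := Finset.Ico (2 ^ P.K) (k 0 - 1)

/-- `w` has at least the lower profile forced by normal primes in the cells `k`. -/
def HasProfile (P : Params) (N : ℕ) (k : ℕ → ℕ) (w : ℕ) : Prop :=
  ∀ j ∈ profWin P k, (profCnt N k j : ℝ) * ((1 - P.theta) * P.D)
    ≤ (omegaIoc ((j : ℝ) * P.D) (((j : ℝ) + 1) * P.D) w : ℝ)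

/-- The prime weight of section 3. -/
def profWeight (P : Params) (N : ℕ) (k : ℕ → ℕ) (r : ℕ) : ℝ :=
  ∏ j ∈ profWin P k,
    if (j : ℝ) * P.D < lam r ∧ lam r ≤ ((j : ℝ) + 1) * P.D then (profCnt N k j : ℝ) else 1

/-- The gain exponent. -/
def profGain (P : Params) (N : ℕ) (k : ℕ → ℕ) : ℝ :=
  ∑ j ∈ profWin P k, Real.log (profCnt N k j) * ((profCnt N k j : ℝ) * ((1 - P.theta) * P.D))

theorem mem_profWin_iff {P : Params} {k : ℕ → ℕ} {j : ℕ} :
    j ∈ profWin P k ↔ 2 ^ P.K ≤ j ∧ j + 2 ≤ k 0 := by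
  simp only [profWin, Finset.mem_Ico]; omega

theorem one_le_profCnt {P : Params} {N : ℕ} {k : ℕ → ℕ} {j : ℕ} (hj : j ∈ profWin P k) :
    1 ≤ profCnt N k j :=
  Finset.card_pos.2 ⟨0, Finset.mem_filter.2 ⟨by simp, (mem_profWin_iff.1 hj).2⟩⟩

theorem profCnt_le (N : ℕ) (k : ℕ → ℕ) (j : ℕ) : profCnt N k j ≤ N + 1 :=
  (Finset.card_filter_le _ _).trans (by simp)

theorem cells_eq {D x : ℝ} (hD : 0 < D) {i j : ℕ}
    (hi : (i : ℝ) * D < x ∧ x ≤ ((i : ℝ) + 1) * D) (hj : (j : ℝ) * D < x ∧ x ≤ ((j : ℝ) + 1) * D) :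
    i = j := by
  rcases lt_trichotomy i j with h | h | h
  · have : (i : ℝ) + 1 ≤ j := by exact_mod_cast h
    nlinarith
  · exact h
  · have : (j : ℝ) + 1 ≤ i := by exact_mod_cast h
    nlinarith

theorem profWeight_eq (P : Params) (hD : 0 < P.D) (N : ℕ) (k : ℕ → ℕ) (r : ℕ) :
    profWeight P N k r = 1 + ∑ j ∈ profWin P k,
      if (j : ℝ) * P.D < lam r ∧ lam r ≤ ((j : ℝ) + 1) * P.D
      then (profCnt N k j : ℝ) - 1 else 0 := by
  unfold profWeight
  by_cases h : ∃ j ∈ profWin P k, (j : ℝ) * P.D < lam r ∧ lam r ≤ ((j : ℝ) + 1) * P.D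
  · obtain ⟨i, hi, hc⟩ := h
    have hne : ∀ j ∈ profWin P k, j ≠ i →
        ¬ ((j : ℝ) * P.D < lam r ∧ lam r ≤ ((j : ℝ) + 1) * P.D) :=
      fun j _ hji hj => hji (cells_eq hD hj hc)
    rw [Finset.prod_eq_single i (fun j hj hji => if_neg (hne j hj hji)) (fun h => absurd hi h),
      Finset.sum_eq_single i (fun j hj hji => if_neg (hne j hj hji)) (fun h => absurd hi h),
      if_pos hc, if_pos hc]
    ring
  · push Not at h
    rw [Finset.prod_eq_one fun j hj => if_neg fun hc => not_lt.2 hc.2 (h j hj hc.1),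
      Finset.sum_eq_zero fun j hj => if_neg fun hc => not_lt.2 hc.2 (h j hj hc.1), add_zero]

theorem profWeight_bounds {P : Params} (hP : ValBig P) {N : ℕ} (hN : N < P.K') (k : ℕ → ℕ)
    {p : ℕ} (hp : p.Prime) :
    0 ≤ profWeight P N k p ∧ profWeight P N k p ≤ (P.K' : ℝ) ∧
      profWeight P N k p ≤ (p : ℝ) ^ (1/4 : ℝ) ∧ profWeight P N k p ≤ 3 * (p : ℝ) / 4 := by
  obtain ⟨hK, hL, hTe, hKT⟩ := hP
  have hD := P.D_pos (by linarith)
  have hK1 : (1 : ℝ) ≤ (P.K' : ℝ) := by linarith [P.one_le_K' hK]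
  have hp2 : (2 : ℝ) ≤ p := by exact_mod_cast hp.two_le
  have hone : (1 : ℝ) ≤ (p : ℝ) ^ (1/4 : ℝ) := Real.one_le_rpow (by linarith) (by norm_num)
  by_cases h : ∃ j ∈ profWin P k, (j : ℝ) * P.D < lam p ∧ lam p ≤ ((j : ℝ) + 1) * P.D
  · obtain ⟨i, hi, hc⟩ := h
    have hval : profWeight P N k p = (profCnt N k i : ℝ) := by
      unfold profWeight
      rw [Finset.prod_eq_single i
        (fun j hj hji => if_neg fun hj' => hji (cells_eq hD hj' hc)) (fun h => absurd hi h),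
        if_pos hc]
    have hcnt : (profCnt N k i : ℝ) ≤ (P.K' : ℝ) := by
      exact_mod_cast (profCnt_le N k i).trans hN
    have hTel : P.Te ≤ lam (p : ℝ) := by
      refine le_trans ?_ hc.1.le
      rw [← P.two_pow_mul_D]
      exact mul_le_mul_of_nonneg_right (by exact_mod_cast (mem_profWin_iff.1 hi).1) hD.le
    have hbig : Real.exp (Real.exp P.Te) ≤ p := exp_exp_le_of_le_lam hp.two_le hTel
    have hTp : P.Te ≤ (p : ℝ) ^ (1/4 : ℝ) := by
      refine le_trans ?_ (Real.rpow_le_rpow (by positivity) hbig (by norm_num))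
      rw [← Real.exp_mul]
      nlinarith [Real.quadratic_le_exp_of_nonneg (show (0 : ℝ) ≤ P.Te by linarith),
        Real.add_one_le_exp (Real.exp P.Te * (1/4))]
    have hp4 : (p : ℝ) ^ (1/4 : ℝ) ≤ p := by
      simpa using Real.rpow_le_rpow_of_exponent_le (show (1 : ℝ) ≤ p by linarith)
        (show (1/4 : ℝ) ≤ 1 by norm_num)
    rw [hval]
    exact ⟨Nat.cast_nonneg _, hcnt, by linarith, by linarith⟩
  · push Not at h
    have hval : profWeight P N k p = 1 := by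
      unfold profWeight
      exact Finset.prod_eq_one fun j hj => if_neg fun hc => not_lt.2 hc.2 (h j hj hc.1)
    rw [hval]
    exact ⟨zero_le_one, hK1, hone, by linarith⟩

theorem exp_profGain_le {P : Params} {N : ℕ} {k : ℕ → ℕ} {w : ℕ} (hw : HasProfile P N k w) :
    Real.exp (profGain P N k) ≤ cmul (profWeight P N k) w := by
  have hprod : cmul (profWeight P N k) w = ∏ j ∈ profWin P k,
      (profCnt N k j : ℝ) ^ omegaIoc ((j : ℝ) * P.D) (((j : ℝ) + 1) * P.D) w := by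
    unfold cmul omegaIoc profWeight
    induction w.primeFactorsList with
    | nil => simp
    | cons r l ih =>
      rw [List.map_cons, List.prod_cons, ih, ← Finset.prod_mul_distrib]
      refine Finset.prod_congr rfl fun j _ => ?_
      rw [List.filter_cons]
      by_cases hc : (j : ℝ) * P.D < lam r ∧ lam r ≤ ((j : ℝ) + 1) * P.D
      · rw [if_pos hc, if_pos (by simpa using hc), List.length_cons, pow_succ]; ring
      · rw [if_neg hc, if_neg (by simpa using hc), one_mul]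
  rw [hprod, profGain, Real.exp_sum]
  refine Finset.prod_le_prod (fun j _ => (Real.exp_pos _).le) fun j hj => ?_
  have h1 : (1 : ℝ) ≤ (profCnt N k j : ℝ) := by exact_mod_cast one_le_profCnt hj
  rw [← Real.exp_log (show (0 : ℝ) < (profCnt N k j : ℝ) ^ _ by positivity), Real.log_pow,
    mul_comm (Real.log _)]
  exact Real.exp_le_exp.2 (mul_le_mul_of_nonneg_right (hw j hj) (Real.log_nonneg h1))

/-- The exponent of the Euler product minus the gain. -/
theorem profile_exponent : ∃ C : ℝ, 0 ≤ C ∧ ∀ P : Params, ValBig P → ∀ N : ℕ, N < P.K' →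
    ∀ k : ℕ → ℕ, (∀ i < N, k (i + 1) ≤ k i) → k 0 ≤ 2 * P.J → ∀ s : ℝ, 0 ≤ s →
    ∑ p ∈ primesUpTo (Real.exp (Real.exp s)), profWeight P N k p / p + 8 * (P.K' : ℝ) ^ 2
        - profGain P N k
      ≤ s - ∑ i ∈ Finset.Icc 1 N, fordA i * ((k i : ℝ) * P.D) + C * P.valErr := by
  obtain ⟨C₁, hC₁, hup⟩ := mertens_upTo
  obtain ⟨C₂, hC₂, hio⟩ := mertens_lam
  refine ⟨C₁ + 2 * C₂ + 20, by linarith, ?_⟩
  intro P hP N hN k hanti hk0 s hs
  obtain ⟨hK, hL, hTe, hKT⟩ := hP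
  have hD := P.D_pos (by linarith)
  have hK20 := P.one_le_K' hK
  have hDT := P.D_le_Te (by linarith)
  have hJ := P.J_pos
  have hθ : 0 ≤ P.theta := by unfold Params.theta; positivity
  set W := profWin P k with hW
  set n : ℕ → ℝ := fun j => (profCnt N k j : ℝ) with hn
  have hn1 : ∀ j ∈ W, 1 ≤ n j := fun j hj => by
    simpa [hn] using (show (1 : ℝ) ≤ (profCnt N k j : ℝ) by exact_mod_cast one_le_profCnt hj)
  have hnK : ∀ j, n j ≤ (P.K' : ℝ) := fun j => by
    simpa [hn] using (show (profCnt N k j : ℝ) ≤ (P.K' : ℝ) by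
      exact_mod_cast (profCnt_le N k j).trans hN)
  have hWc : (W.card : ℝ) ≤ 2 * (P.J : ℝ) := by
    have : W.card ≤ 2 * P.J := by
      rw [hW, profWin, Nat.card_Ico]; exact (Nat.sub_le _ _).trans ((Nat.sub_le _ _).trans hk0)
    exact_mod_cast this
  have hup' : ∑ p ∈ primesUpTo (Real.exp (Real.exp s)), (1 : ℝ) / p ≤ s + C₁ := by
    have h2 : (2 : ℝ) ≤ Real.exp (Real.exp s) := by
      have h1 := Real.add_one_le_exp (Real.exp s)
      have : (1 : ℝ) ≤ Real.exp s := Real.one_le_exp hs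
      linarith
    have := (abs_le.1 (hup _ h2)).2
    simp only [lam, Real.log_exp] at this
    linarith
  have hsum : ∑ p ∈ primesUpTo (Real.exp (Real.exp s)), profWeight P N k p / p
      ≤ (s + C₁) + ∑ j ∈ W, (n j - 1) * (P.D + C₂) := by
    simp only [profWeight_eq P hD, add_div, Finset.sum_add_distrib]
    refine add_le_add hup' ?_
    simp only [Finset.sum_div]
    rw [Finset.sum_comm]
    refine Finset.sum_le_sum fun j hj => ?_
    have hc : ∑ p ∈ primesLam ((j : ℝ) * P.D) (((j : ℝ) + 1) * P.D), (1 : ℝ) / p ≤ P.D + C₂ := by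
      have := (abs_le.1 (hio ((j : ℝ) * P.D) (((j : ℝ) + 1) * P.D) (by positivity)
        (by linarith [hD]))).2
      linarith
    calc _ = ∑ p ∈ (primesUpTo (Real.exp (Real.exp s))).filter
          (fun p : ℕ => (j : ℝ) * P.D < lam p ∧ lam p ≤ ((j : ℝ) + 1) * P.D),
          (n j - 1) * ((1 : ℝ) / p) := by
          rw [Finset.sum_filter]
          refine Finset.sum_congr rfl fun p _ => ?_
          split_ifs <;> simp [hn, div_eq_mul_inv]
      _ ≤ ∑ p ∈ primesLam ((j : ℝ) * P.D) (((j : ℝ) + 1) * P.D), (n j - 1) * ((1 : ℝ) / p) := by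
          refine Finset.sum_le_sum_of_subset_of_nonneg (fun p hp => ?_)
            fun p _ _ => mul_nonneg (by linarith [hn1 j hj]) (by positivity)
          obtain ⟨hp1, hp2⟩ := Finset.mem_filter.1 hp
          exact mem_primesLam.2 ⟨(mem_primesLe_lam.1 hp1).1, hp2⟩
      _ = (n j - 1) * ∑ p ∈ primesLam ((j : ℝ) * P.D) (((j : ℝ) + 1) * P.D), (1 : ℝ) / p := by
          rw [Finset.mul_sum]
      _ ≤ _ := mul_le_mul_of_nonneg_left hc (by linarith [hn1 j hj])
  have hcell : ∀ j ∈ W, (n j - 1) * (P.D + C₂)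
      - Real.log (n j) * (n j * ((1 - P.theta) * P.D))
      ≤ -(P.D * ∑ i ∈ Finset.Icc 1 N, if j + 2 ≤ k i then fordA i else 0)
        + (P.theta * P.D * (P.K' : ℝ) ^ 2 + C₂ * (P.K' : ℝ)) := by
    intro j hj
    have h1 := hn1 j hj
    have hlog0 : 0 ≤ Real.log (n j) := Real.log_nonneg h1
    have hlog : Real.log (n j) ≤ (P.K' : ℝ) :=
      ((Real.log_le_sub_one_of_pos (by linarith)).trans (by linarith)).trans (hnK j)
    have hF : ∑ i ∈ Finset.Icc 1 N, (if j + 2 ≤ k i then fordA i else 0)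
        ≤ n j * Real.log (n j) - (n j - 1) := by
      obtain ⟨c, hc⟩ : ∃ c, profCnt N k j = c + 1 := ⟨profCnt N k j - 1, by
        have := one_le_profCnt (P := P) (N := N) hj; omega⟩
      have hmono : ∀ l i, l ≤ i → i ≤ N → k i ≤ k l := by
        intro l i hli hiN
        induction i, hli using Nat.le_induction with
        | base => exact le_rfl
        | succ i hli ih => exact (hanti i (by omega)).trans (ih (by omega))
      rw [← Finset.sum_filter]
      have hsub : ((Finset.Icc 1 N).filter fun i => j + 2 ≤ k i) ⊆ Finset.Icc 1 c := by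
        intro i hi
        obtain ⟨hi1, hi2⟩ := Finset.mem_filter.1 hi
        obtain ⟨hi0, hiN⟩ := Finset.mem_Icc.1 hi1
        have : Finset.range (i + 1) ⊆ (Finset.range (N + 1)).filter fun l => j + 2 ≤ k l := by
          intro l hl
          have hli : l ≤ i := Nat.lt_succ_iff.1 (Finset.mem_range.1 hl)
          exact Finset.mem_filter.2 ⟨Finset.mem_range.2 (by omega), hi2.trans (hmono l i hli hiN)⟩
        have := Finset.card_le_card this
        rw [Finset.card_range] at this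
        change i + 1 ≤ profCnt N k j at this
        exact Finset.mem_Icc.2 ⟨hi0, by omega⟩
      refine (Finset.sum_le_sum_of_subset_of_nonneg hsub fun i hi _ =>
        fordA_nonneg_of_pos (Finset.mem_Icc.1 hi).1).trans ?_
      rw [sum_fordA_Icc]
      simp only [hn, hc]; push_cast; ring_nf; rfl
    have e1 : n j * Real.log (n j) * (P.theta * P.D)
        ≤ P.theta * P.D * (P.K' : ℝ) ^ 2 := by
      have : n j * Real.log (n j) ≤ (P.K' : ℝ) ^ 2 := by
        rw [sq]; exact mul_le_mul (hnK j) hlog hlog0 (by linarith)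
      nlinarith [mul_nonneg hθ hD.le]
    have e2 : (n j - 1) * C₂ ≤ C₂ * (P.K' : ℝ) := by nlinarith [hnK j]
    have e3 := mul_le_mul_of_nonneg_left hF hD.le
    linarith
  have hcount : ∀ i ∈ Finset.Icc 1 N,
      fordA i * ((k i : ℝ) * P.D) - fordA i * (2 * P.Te)
        ≤ P.D * ∑ j ∈ W, if j + 2 ≤ k i then fordA i else 0 := by
    intro i hi
    obtain ⟨hi0, hiN⟩ := Finset.mem_Icc.1 hi
    have ha := fordA_nonneg_of_pos hi0
    have hki : k i ≤ k 0 := by
      clear hi hi0 ha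
      induction i with
      | zero => exact le_rfl
      | succ i ih => exact (hanti i (by omega)).trans (ih (by omega))
    rw [← Finset.sum_filter, Finset.sum_const, nsmul_eq_mul]
    have hfil : (W.filter fun j => j + 2 ≤ k i) = Finset.Ico (2 ^ P.K) (k i - 1) := by
      ext j; simp only [hW, Finset.mem_filter, mem_profWin_iff, Finset.mem_Ico]; omega
    rw [hfil, Nat.card_Ico]
    have hc : (k i : ℝ) - 1 - ((2 ^ P.K : ℕ) : ℝ) ≤ ((k i - 1 - 2 ^ P.K : ℕ) : ℝ) := by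
      have h : k i ≤ (k i - 1 - 2 ^ P.K) + 1 + 2 ^ P.K := by omega
      have : (k i : ℝ) ≤ ((k i - 1 - 2 ^ P.K : ℕ) : ℝ) + 1 + ((2 ^ P.K : ℕ) : ℝ) := by
        exact_mod_cast h
      linarith
    have hTe' := P.two_pow_mul_D
    have e := mul_le_mul_of_nonneg_left hc (mul_nonneg ha hD.le)
    nlinarith [mul_nonneg ha hD.le, mul_le_mul_of_nonneg_left hDT ha]
  have hswap : ∑ i ∈ Finset.Icc 1 N, (fordA i * ((k i : ℝ) * P.D) - fordA i * (2 * P.Te))
      ≤ ∑ j ∈ W, P.D * ∑ i ∈ Finset.Icc 1 N, if j + 2 ≤ k i then fordA i else 0 := by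
    refine (Finset.sum_le_sum hcount).trans_eq ?_
    simp only [Finset.mul_sum]
    exact Finset.sum_comm
  rw [Finset.sum_sub_distrib, ← Finset.sum_mul (s := Finset.Icc 1 N) (f := fordA)] at hswap
  have hA : ∑ i ∈ Finset.Icc 1 N, fordA i ≤ (P.K' : ℝ) ^ 2 := by
    rw [sum_fordA_Icc]
    have hN1 : (N : ℝ) + 1 ≤ (P.K' : ℝ) := by exact_mod_cast hN
    have hN0 : (0 : ℝ) ≤ N := Nat.cast_nonneg N
    have : Real.log ((N : ℝ) + 1) ≤ (P.K' : ℝ) :=
      (Real.log_le_sub_one_of_pos (by linarith)).trans (by linarith)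
    have := mul_le_mul hN1 this (Real.log_nonneg (by linarith)) (by linarith)
    nlinarith
  have htot := Finset.sum_le_sum hcell
  rw [Finset.sum_sub_distrib, Finset.sum_add_distrib, Finset.sum_neg_distrib, Finset.sum_const,
    nsmul_eq_mul] at htot
  have hg : profGain P N k = ∑ j ∈ W, Real.log (n j) * (n j * ((1 - P.theta) * P.D)) := rfl
  rw [← hg] at htot
  have hK0 : (0 : ℝ) ≤ (P.K' : ℝ) := by linarith
  have k2 : (P.K' : ℝ) ^ 2 ≤ (P.K' : ℝ) ^ 3 := pow_le_pow_right₀ (by linarith) (by norm_num)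
  have k1 : (P.K' : ℝ) ≤ (P.K' : ℝ) ^ 3 := le_self_pow₀ (by linarith) (by norm_num)
  have hWD : (W.card : ℝ) * (P.theta * P.D * (P.K' : ℝ) ^ 2)
      ≤ 2 * (P.theta * P.L) * (P.K' : ℝ) ^ 3 := by
    calc _ ≤ 2 * (P.J : ℝ) * (P.theta * P.D * (P.K' : ℝ) ^ 2) :=
          mul_le_mul_of_nonneg_right hWc (by positivity)
      _ = 2 * (P.theta * ((P.J : ℝ) * P.D)) * (P.K' : ℝ) ^ 2 := by ring
      _ ≤ _ := by rw [P.J_mul_D]; exact mul_le_mul_of_nonneg_left k2 (by positivity)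
  have hWC : (W.card : ℝ) * (C₂ * (P.K' : ℝ)) ≤ 2 * C₂ * (P.J : ℝ) * (P.K' : ℝ) ^ 3 := by
    calc _ ≤ 2 * (P.J : ℝ) * (C₂ * (P.K' : ℝ)) := mul_le_mul_of_nonneg_right hWc (by positivity)
      _ = 2 * C₂ * (P.J : ℝ) * (P.K' : ℝ) := by ring
      _ ≤ _ := mul_le_mul_of_nonneg_left k1 (by positivity)
  have hTA : (∑ i ∈ Finset.Icc 1 N, fordA i) * (2 * P.Te) ≤ 2 * P.Te * (P.K' : ℝ) ^ 3 := by
    rw [mul_comm]
    exact mul_le_mul_of_nonneg_left (hA.trans k2) (by linarith)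
  have hone : (1 : ℝ) ≤ (P.J : ℝ) * (P.K' : ℝ) ^ 3 :=
    one_le_mul_of_one_le_of_one_le hJ (one_le_pow₀ (by linarith))
  have hC1 : C₁ ≤ C₁ * ((P.J : ℝ) * (P.K' : ℝ) ^ 3) := le_mul_of_one_le_right hC₁ hone
  have h4K : 8 * (P.K' : ℝ) ^ 2 ≤ 8 * ((P.J : ℝ) * (P.K' : ℝ) ^ 3) := by
    have : (P.K' : ℝ) ^ 3 ≤ (P.J : ℝ) * (P.K' : ℝ) ^ 3 := le_mul_of_one_le_left (by positivity) hJ
    linarith
  have p0 : 0 ≤ C₁ + 2 * C₂ := by linarith
  have t1 : 0 ≤ P.Te * (P.K' : ℝ) ^ 3 := by positivity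
  have t2 : 0 ≤ P.theta * P.L * (P.K' : ℝ) ^ 3 := by positivity
  have t3 : 0 ≤ (P.J : ℝ) * (P.K' : ℝ) ^ 3 := by positivity
  have q1 := mul_nonneg p0 t1
  have q2 := mul_nonneg p0 t2
  have q3 := mul_nonneg hC₂ t3
  have q4 := mul_nonneg hC₁ t3
  unfold Params.valErr
  nlinarith

end Vale.Agent.P031
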