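import Vale.Agent.P031.Mertens
import Vale.Agent.P031.Euler

/-!
# P031 Q2, section 3: elementary facts and the Halberstam-Richert type bound
-/

open scoped Classical
open Finset Real

noncomputable section

namespace Vale.Agent.P031

/-- `lam` is monotone on primes. -/
theorem lam_le_lam_nat {p q : ℕ} (hp : 2 ≤ p) (h : p ≤ q) : lam (p : ℝ) ≤ lam (q : ℝ) := by
  have h2 : (2 : ℝ) ≤ p := by exact_mod_cast hp
  have hl : 0 < Real.log (p : ℝ) := Real.log_pos (by linarith)
  unfold lam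
  exact Real.log_le_log hl (Real.log_le_log (by linarith) (by exact_mod_cast h))

theorem exp_exp_lam {p : ℕ} (hp : 2 ≤ p) : Real.exp (Real.exp (lam (p : ℝ))) = p := by
  have h2 : (2 : ℝ) ≤ p := by exact_mod_cast hp
  have hl : 0 < Real.log (p : ℝ) := Real.log_pos (by linarith)
  unfold lam
  rw [Real.exp_log hl, Real.exp_log (by linarith)]

theorem exp_exp_le_of_le_lam {p : ℕ} (hp : 2 ≤ p) {a : ℝ} (h : a ≤ lam (p : ℝ)) :
    Real.exp (Real.exp a) ≤ p := by
  rw [← exp_exp_lam hp]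
  exact Real.exp_le_exp.2 (Real.exp_le_exp.2 h)

theorem fordA_eq_succ (i : ℕ) : fordA i
    = ((i + 1 : ℕ) : ℝ) * Real.log ((i + 1 : ℕ) : ℝ) - (i : ℝ) * Real.log (i : ℝ) - 1 := by
  unfold fordA; push_cast; ring

theorem fordA_nonneg_of_pos {i : ℕ} (hi : 1 ≤ i) : 0 ≤ fordA i := by
  have h1 : (1 : ℝ) ≤ i := by exact_mod_cast hi
  have hlog : 1 - ((i : ℝ) + 1)⁻¹ * i ≤ Real.log (((i : ℝ) + 1) / i) := by
    have := Real.one_sub_inv_le_log_of_pos (x := ((i : ℝ) + 1) / i) (by positivity)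
    simpa [inv_div, div_eq_inv_mul] using this
  rw [Real.log_div (by positivity) (by positivity)] at hlog
  have h3 : ((i : ℝ) + 1) * (1 - ((i : ℝ) + 1)⁻¹ * i) = 1 := by field_simp; ring
  have h4 := mul_le_mul_of_nonneg_left hlog (show (0 : ℝ) ≤ (i : ℝ) + 1 by linarith)
  have h5 : 0 ≤ Real.log (i : ℝ) := Real.log_nonneg h1
  unfold fordA
  nlinarith

/-- `F(N) = a_1 + ... + a_N`. -/
theorem sum_fordA_Icc (N : ℕ) :
    ∑ i ∈ Finset.Icc 1 N, fordA i = ((N : ℝ) + 1) * Real.log ((N : ℝ) + 1) - N := by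
  induction N with
  | zero => simp
  | succ n ih =>
    rw [Finset.sum_Icc_succ_top (by omega), ih]
    unfold fordA; push_cast; ring

theorem omegaIoc_mul (a b : ℝ) {m n : ℕ} (hm : m ≠ 0) (hn : n ≠ 0) :
    omegaIoc a b (m * n) = omegaIoc a b m + omegaIoc a b n := by
  unfold omegaIoc
  rw [((Nat.perm_primeFactorsList_mul hm hn).filter _).length_eq, List.filter_append,
    List.length_append]

theorem omegaIoc_prod (a b : ℝ) {ι : Type*} (T : Finset ι) (F : ι → ℕ) (hF : ∀ i ∈ T, F i ≠ 0) :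
    omegaIoc a b (∏ i ∈ T, F i) = ∑ i ∈ T, omegaIoc a b (F i) := by
  induction T using Finset.induction_on with
  | empty => simp [omegaIoc]
  | @insert x T hx ih =>
    rw [Finset.prod_insert hx, Finset.sum_insert hx,
      omegaIoc_mul a b (hF x (Finset.mem_insert_self x T))
        (Finset.prod_ne_zero_iff.2 fun i hi => hF i (Finset.mem_insert_of_mem hi)),
      ih (fun i hi => hF i (Finset.mem_insert_of_mem hi))]

theorem omegaIoc_le_of_dvd (a b : ℝ) {m n : ℕ} (h : m ∣ n) (hn : n ≠ 0) :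
    omegaIoc a b m ≤ omegaIoc a b n := by
  obtain ⟨c, rfl⟩ := h
  rw [omegaIoc_mul a b (left_ne_zero_of_mul hn) (right_ne_zero_of_mul hn)]
  exact Nat.le_add_right _ _

theorem cmul_le_rpow (f : ℕ → ℝ) (hf : ∀ p : ℕ, p.Prime → 0 ≤ f p ∧ f p ≤ (p : ℝ) ^ (1/4 : ℝ))
    (l : List ℕ) (hl : ∀ p ∈ l, p.Prime) :
    0 ≤ (l.map f).prod ∧ (l.map f).prod ≤ ((l.prod : ℕ) : ℝ) ^ (1/4 : ℝ) := by
  induction l with
  | nil => simp
  | cons p l ih =>
    obtain ⟨h0, h1⟩ := hf p (hl p (List.mem_cons_self ..))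
    obtain ⟨i0, i1⟩ := ih (fun q hq => hl q (List.mem_cons_of_mem p hq))
    simp only [List.map_cons, List.prod_cons, Nat.cast_mul]
    refine ⟨mul_nonneg h0 i0, ?_⟩
    rw [Real.mul_rpow (by positivity) (by positivity)]
    exact mul_le_mul h1 i1 i0 (by positivity)

theorem log_le_eight_mul_rpow {z : ℝ} (hz : 1 ≤ z) : Real.log z ≤ 4 * z ^ (1/4 : ℝ) := by
  have := Real.log_le_rpow_div (x := z) (ε := 1/4) (by linarith) (by norm_num)
  calc Real.log z ≤ z ^ (1/4 : ℝ) / (1/4) := this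
    _ = 4 * z ^ (1/4 : ℝ) := by ring

/-- Chebyshev bound for a completely multiplicative weight against `Λ`. -/
theorem sum_cmul_vonMangoldt_le (B : ℝ) (hB : 0 ≤ B) (f : ℕ → ℝ)
    (hf : ∀ p : ℕ, p.Prime → 0 ≤ f p ∧ f p ≤ B ∧ f p ≤ (p : ℝ) ^ (1/4 : ℝ)) {z : ℝ} (hz : 1 ≤ z) :
    ∑ d ∈ Finset.Ioc 0 ⌊z⌋₊, cmul f d * ArithmeticFunction.vonMangoldt d
      ≤ (B * Real.log 4 + 8) * z := by
  have hq : ∀ d : ℕ, d ≠ 0 → 0 ≤ cmul f d ∧ cmul f d ≤ (d : ℝ) ^ (1/4 : ℝ) := by
    intro d hd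
    have := cmul_le_rpow f (fun p hp => ⟨(hf p hp).1, (hf p hp).2.2⟩) d.primeFactorsList
      (fun p hp => Nat.prime_of_mem_primeFactorsList hp)
    rwa [Nat.prod_primeFactorsList hd] at this
  rw [← Finset.sum_filter_add_sum_filter_not _ Nat.Prime]
  have h1 : ∑ d ∈ (Finset.Ioc 0 ⌊z⌋₊).filter Nat.Prime, cmul f d * ArithmeticFunction.vonMangoldt d
      ≤ B * (Real.log 4 * z) := by
    calc _ ≤ ∑ d ∈ (Finset.Ioc 0 ⌊z⌋₊).filter Nat.Prime, B * Real.log d := by
          refine Finset.sum_le_sum fun d hd => ?_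
          have hp := (Finset.mem_filter.1 hd).2
          rw [ArithmeticFunction.vonMangoldt_apply_prime hp, cmul, Nat.primeFactorsList_prime hp]
          simp only [List.map_cons, List.map_nil, List.prod_cons, List.prod_nil, mul_one]
          exact mul_le_mul_of_nonneg_right (hf d hp).2.1 (Real.log_natCast_nonneg d)
      _ = B * Chebyshev.theta z := by rw [Chebyshev.theta, Finset.mul_sum]
      _ ≤ _ := mul_le_mul_of_nonneg_left (Chebyshev.theta_le_log4_mul_x (by linarith)) hB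
  have h2 : ∑ d ∈ (Finset.Ioc 0 ⌊z⌋₊).filter (fun d => ¬ d.Prime),
      cmul f d * ArithmeticFunction.vonMangoldt d ≤ 8 * z := by
    have hr : (0 : ℝ) ≤ z ^ (1/4 : ℝ) := by positivity
    calc _ ≤ ∑ d ∈ (Finset.Ioc 0 ⌊z⌋₊).filter (fun d => ¬ d.Prime),
          z ^ (1/4 : ℝ) * ArithmeticFunction.vonMangoldt d := by
          refine Finset.sum_le_sum fun d hd => ?_
          have hd' := Finset.mem_Ioc.1 (Finset.mem_filter.1 hd).1
          refine mul_le_mul_of_nonneg_right ((hq d (by omega)).2.trans ?_)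
            ArithmeticFunction.vonMangoldt_nonneg
          exact Real.rpow_le_rpow (by positivity)
            ((Nat.cast_le.2 hd'.2).trans (Nat.floor_le (by linarith))) (by norm_num)
      _ = z ^ (1/4 : ℝ) * (Chebyshev.psi z - Chebyshev.theta z) := by
          rw [Chebyshev.psi_sub_theta_eq_sum_not_prime, Finset.mul_sum]
      _ ≤ z ^ (1/4 : ℝ) * (2 * Real.sqrt z * Real.log z) :=
          mul_le_mul_of_nonneg_left (Chebyshev.psi_sub_theta_le hz) hr
      _ ≤ z ^ (1/4 : ℝ) * (2 * Real.sqrt z * (4 * z ^ (1/4 : ℝ))) :=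
          mul_le_mul_of_nonneg_left
            (mul_le_mul_of_nonneg_left (log_le_eight_mul_rpow hz) (by positivity)) hr
      _ = 8 * z := by
          rw [Real.sqrt_eq_rpow,
            show z ^ (1/4 : ℝ) * (2 * z ^ (1/2 : ℝ) * (4 * z ^ (1/4 : ℝ)))
              = 8 * (z ^ (1/4 : ℝ) * z ^ (1/2 : ℝ) * z ^ (1/4 : ℝ)) by ring,
            ← Real.rpow_add (by linarith), ← Real.rpow_add (by linarith)]
          norm_num
  calc _ ≤ B * (Real.log 4 * z) + 8 * z := add_le_add h1 h2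
    _ = _ := by ring

/-- Halberstam-Richert type bound for completely multiplicative nonnegative weights. -/
theorem sum_cmul_le {y : ℝ} (hy : 2 ≤ y) (B : ℝ) (hB : 1 ≤ B) (f : ℕ → ℝ)
    (hf : ∀ p : ℕ, p.Prime → 0 ≤ f p ∧ f p ≤ B ∧ f p ≤ (p : ℝ) ^ (1/4 : ℝ))
    (T : Finset ℕ) (hT : ∀ w ∈ T, w ≠ 0 ∧ (w : ℝ) ≤ y) :
    ∑ w ∈ T, cmul f w
      ≤ 30 * B * (y / Real.log y) * ∑ m ∈ Finset.Ioc 0 ⌊y⌋₊, cmul f m / m := by
  have hg0 : ∀ d : ℕ, 0 ≤ cmul f d := fun d => by
    refine List.prod_nonneg fun x hx => ?_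
    obtain ⟨p, hp, rfl⟩ := List.mem_map.1 hx
    exact (hf p (Nat.prime_of_mem_primeFactorsList hp)).1
  set Y := ⌊y⌋₊ with hY
  set S := ∑ m ∈ Finset.Ioc 0 Y, cmul f m / m with hS
  have hS0 : 0 ≤ S := Finset.sum_nonneg fun m _ => div_nonneg (hg0 m) (Nat.cast_nonneg m)
  have hly : 0 < Real.log y := Real.log_pos (by linarith)
  have hTsub : T ⊆ Finset.Ioc 0 Y := fun w hw =>
    Finset.mem_Ioc.2 ⟨Nat.pos_of_ne_zero (hT w hw).1, Nat.le_floor (hT w hw).2⟩
  -- the large values, weighted by `log`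
  have hbig : ∑ w ∈ Finset.Ioc 0 Y, cmul f w * Real.log w
      ≤ (B * Real.log 4 + 8) * y * S := by
    set Q := ((Finset.Ioc 0 Y) ×ˢ (Finset.Ioc 0 Y)).filter (fun q : ℕ × ℕ => q.1 * q.2 ≤ Y) with hQ
    have h1 : ∑ w ∈ Finset.Ioc 0 Y, cmul f w * Real.log w
        = ∑ q ∈ Q, cmul f q.1 * cmul f q.2 * ArithmeticFunction.vonMangoldt q.2 := by
      rw [← Finset.sum_fiberwise_of_maps_to (g := fun q : ℕ × ℕ => q.1 * q.2) (s := Q)
        (t := Finset.Ioc 0 Y)]
      · refine Finset.sum_congr rfl fun w hw => ?_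
        have hw' := Finset.mem_Ioc.1 hw
        have hfib : Q.filter (fun q : ℕ × ℕ => q.1 * q.2 = w) = w.divisorsAntidiagonal := by
          ext ⟨m, d⟩
          simp only [hQ, Finset.mem_filter, Finset.mem_product, Finset.mem_Ioc,
            Nat.mem_divisorsAntidiagonal]
          constructor
          · rintro ⟨-, h⟩; exact ⟨h, by omega⟩
          · rintro ⟨h, -⟩
            have hm : 0 < m := by rcases Nat.eq_zero_or_pos m with rfl | h' <;> simp_all
            have hd : 0 < d := by rcases Nat.eq_zero_or_pos d with rfl | h' <;> simp_all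
            have hm' : m ≤ w := h ▸ Nat.le_mul_of_pos_right m hd
            have hd' : d ≤ w := h ▸ Nat.le_mul_of_pos_left d hm
            exact ⟨⟨⟨⟨hm, by omega⟩, hd, by omega⟩, by omega⟩, h⟩
        rw [hfib, ← ArithmeticFunction.vonMangoldt_sum, Finset.mul_sum,
          ← Nat.sum_divisorsAntidiagonal' (f := fun _ d => cmul f w * ArithmeticFunction.vonMangoldt d)]
        refine Finset.sum_congr rfl fun q hq => ?_
        obtain ⟨hq1, hq2⟩ := Nat.mem_divisorsAntidiagonal.1 hq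
        rw [← hq1, cmul_mul f (left_ne_zero_of_mul (hq1 ▸ hq2)) (right_ne_zero_of_mul (hq1 ▸ hq2))]
      · intro q hq
        obtain ⟨hq1, hq2⟩ := Finset.mem_filter.1 hq
        obtain ⟨a, b⟩ := Finset.mem_product.1 hq1
        exact Finset.mem_Ioc.2
          ⟨Nat.mul_pos (Finset.mem_Ioc.1 a).1 (Finset.mem_Ioc.1 b).1, hq2⟩
    rw [h1, hQ, Finset.sum_filter, Finset.sum_product]
    rw [hS, Finset.mul_sum]
    refine Finset.sum_le_sum fun m hm => ?_
    have hm' := Finset.mem_Ioc.1 hm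
    have hmR : (1 : ℝ) ≤ (m : ℝ) := by exact_mod_cast hm'.1
    have hmy : (m : ℝ) ≤ y := (Nat.cast_le.2 hm'.2).trans (Nat.floor_le (by linarith))
    rw [← Finset.sum_filter]
    have hz : 1 ≤ y / m := by rw [le_div_iff₀ (by linarith)]; linarith
    have hfl : ((Finset.Ioc 0 Y).filter fun d => m * d ≤ Y) = Finset.Ioc 0 ⌊y / m⌋₊ := by
      ext d
      simp only [Finset.mem_filter, Finset.mem_Ioc, Nat.floor_div_natCast]
      constructor
      · rintro ⟨⟨h0, -⟩, h⟩
        exact ⟨h0, (Nat.le_div_iff_mul_le (by omega)).2 (by rw [mul_comm]; exact h)⟩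
      · rintro ⟨h0, h⟩
        have := (Nat.le_div_iff_mul_le (show 0 < m by omega)).1 h
        refine ⟨⟨h0, ?_⟩, by rw [mul_comm]; exact this⟩
        exact le_trans (Nat.le_mul_of_pos_right d (by omega)) this
    rw [hfl]
    calc ∑ d ∈ Finset.Ioc 0 ⌊y / m⌋₊, cmul f m * cmul f d * ArithmeticFunction.vonMangoldt d
        = cmul f m * ∑ d ∈ Finset.Ioc 0 ⌊y / m⌋₊, cmul f d * ArithmeticFunction.vonMangoldt d := by
          rw [Finset.mul_sum]; exact Finset.sum_congr rfl fun d _ => by ring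
      _ ≤ cmul f m * ((B * Real.log 4 + 8) * (y / m)) :=
          mul_le_mul_of_nonneg_left (sum_cmul_vonMangoldt_le B (by linarith) f hf hz) (hg0 m)
      _ = _ := by field_simp
  -- split at the square root
  have hsq : (0 : ℝ) < Real.sqrt y := Real.sqrt_pos.2 (by linarith)
  have hlsq : Real.log (Real.sqrt y) = Real.log y / 2 := Real.log_sqrt (by linarith)
  rw [← Finset.sum_filter_add_sum_filter_not T (fun w : ℕ => (w : ℝ) ≤ Real.sqrt y)]
  have hA : ∑ w ∈ T.filter (fun w : ℕ => (w : ℝ) ≤ Real.sqrt y), cmul f w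
      ≤ 2 * (y / Real.log y) * S := by
    have hsy : Real.sqrt y ≤ 2 * (y / Real.log y) := by
      have hle : Real.log y / 2 ≤ Real.sqrt y := hlsq ▸ (Real.log_le_sub_one_of_pos hsq).trans (by linarith)
      rw [← mul_div_assoc, le_div_iff₀ hly]
      nlinarith [Real.mul_self_sqrt (show (0 : ℝ) ≤ y by linarith)]
    calc _ ≤ ∑ w ∈ T.filter (fun w : ℕ => (w : ℝ) ≤ Real.sqrt y),
          Real.sqrt y * (cmul f w / w) := by
          refine Finset.sum_le_sum fun w hw => ?_
          obtain ⟨hw1, hw2⟩ := Finset.mem_filter.1 hw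
          have : (1 : ℝ) ≤ w := by exact_mod_cast Nat.pos_of_ne_zero (hT w hw1).1
          rw [mul_div_assoc', le_div_iff₀ (by linarith), mul_comm (Real.sqrt y)]
          exact mul_le_mul_of_nonneg_left hw2 (hg0 w)
      _ = Real.sqrt y * ∑ w ∈ T.filter (fun w : ℕ => (w : ℝ) ≤ Real.sqrt y), cmul f w / w := by
          rw [Finset.mul_sum]
      _ ≤ (2 * (y / Real.log y)) * S := by
          refine mul_le_mul hsy (Finset.sum_le_sum_of_subset_of_nonneg
            ((Finset.filter_subset _ _).trans hTsub)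
            (fun i _ _ => div_nonneg (hg0 i) (Nat.cast_nonneg i)))
            (Finset.sum_nonneg fun i _ => div_nonneg (hg0 i) (Nat.cast_nonneg i)) (by positivity)
  have hBB : ∑ w ∈ T.filter (fun w : ℕ => ¬ (w : ℝ) ≤ Real.sqrt y), cmul f w
      ≤ 2 * (B * Real.log 4 + 8) * (y / Real.log y) * S := by
    calc _ ≤ ∑ w ∈ T.filter (fun w : ℕ => ¬ (w : ℝ) ≤ Real.sqrt y),
          (2 / Real.log y) * (cmul f w * Real.log w) := by
          refine Finset.sum_le_sum fun w hw => ?_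
          have hw2 := not_le.1 (Finset.mem_filter.1 hw).2
          have hlw : Real.log y / 2 ≤ Real.log w := hlsq ▸ Real.log_le_log hsq hw2.le
          have h1 : 1 ≤ 2 / Real.log y * Real.log w := by
            rw [div_mul_eq_mul_div, le_div_iff₀ hly]; linarith
          calc cmul f w = cmul f w * 1 := (mul_one _).symm
            _ ≤ cmul f w * (2 / Real.log y * Real.log w) := mul_le_mul_of_nonneg_left h1 (hg0 w)
            _ = _ := by ring
      _ ≤ ∑ w ∈ Finset.Ioc 0 Y, (2 / Real.log y) * (cmul f w * Real.log w) :=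
          Finset.sum_le_sum_of_subset_of_nonneg ((Finset.filter_subset _ _).trans hTsub)
            fun i _ _ => mul_nonneg (by positivity) (mul_nonneg (hg0 i) (Real.log_natCast_nonneg i))
      _ = 2 / Real.log y * ∑ w ∈ Finset.Ioc 0 Y, cmul f w * Real.log w := by rw [Finset.mul_sum]
      _ ≤ 2 / Real.log y * ((B * Real.log 4 + 8) * y * S) :=
          mul_le_mul_of_nonneg_left hbig (by positivity)
      _ = _ := by ring
  have h4 : Real.log 4 ≤ 3 := (Real.log_le_sub_one_of_pos (by norm_num)).trans (by norm_num)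
  have h5 : 0 ≤ y / Real.log y * S := mul_nonneg (by positivity) hS0
  calc _ ≤ 2 * (y / Real.log y) * S + 2 * (B * Real.log 4 + 8) * (y / Real.log y) * S :=
        add_le_add hA hBB
    _ = (2 + 2 * (B * Real.log 4 + 8)) * (y / Real.log y * S) := by ring
    _ ≤ (30 * B) * (y / Real.log y * S) := mul_le_mul_of_nonneg_right (by nlinarith) h5
    _ = _ := by ring

end Vale.Agent.P031
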